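import Vale.Agent.Lib.P262.BanCore
import Vale.Agent.Lib.P248.PL4

/-!
The standard Gaussian measure on Euclidean space: probability, log-concavity (from the
Prekopa-Leindler inequality), tail bound.
-/

open MeasureTheory Set ProbabilityTheory
open scoped ENNReal

set_option linter.unusedSectionVars false
set_option linter.deprecated false

namespace Vale.Agent.Lib.P262.Ban

/-- Euclidean space. -/
abbrev Eu (d : ℕ) := EuclideanSpace ℝ (Fin d)

/-- Normalising constant. -/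
noncomputable def cst (d : ℕ) : ℝ := ((Real.sqrt (2 * Real.pi))⁻¹) ^ d

lemma cst_pos (d : ℕ) : 0 < cst d := by
  have : 0 < Real.sqrt (2 * Real.pi) := Real.sqrt_pos.mpr (by positivity)
  unfold cst
  positivity

/-- The Gaussian density on `Eu d`. -/
noncomputable def dens (d : ℕ) (z : Eu d) : ℝ≥0∞ :=
  ENNReal.ofReal (cst d * Real.exp (-‖z‖ ^ 2 / 2))

lemma measurable_dens (d : ℕ) : Measurable (dens d) := by
  have : Continuous (dens d) := by
    unfold dens
    refine ENNReal.continuous_ofReal.comp ?_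
    fun_prop
  exact this.measurable

/-- The standard Gaussian measure on `Eu d`. -/
noncomputable def gm (d : ℕ) : Measure (Eu d) := volume.withDensity (dens d)

lemma lintegral_exp_norm (d : ℕ) {b : ℝ} (hb : 0 < b) :
    ∫⁻ z : Eu d, ENNReal.ofReal (Real.exp (-b * ‖z‖ ^ 2)) =
      ENNReal.ofReal ((Real.pi / b) ^ ((d : ℝ) / 2)) := by
  have h1 := GaussianFourier.integral_rexp_neg_mul_sq_norm (V := Eu d) hb
  have hfr : Module.finrank ℝ (Eu d) = d := by simp
  rw [hfr] at h1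
  have hpos : 0 < (Real.pi / b) ^ ((d : ℝ) / 2) := Real.rpow_pos_of_pos (by positivity) _
  have hint : Integrable fun z : Eu d => Real.exp (-b * ‖z‖ ^ 2) := by
    by_contra hcon
    rw [integral_undef hcon] at h1
    linarith
  rw [← ofReal_integral_eq_lintegral_ofReal hint
    (Filter.Eventually.of_forall fun z => (Real.exp_pos _).le), h1]

lemma cst_mul_rpow (d : ℕ) : cst d * (2 * Real.pi) ^ ((d : ℝ) / 2) = 1 := by
  have h0 : 0 < 2 * Real.pi := by positivity
  have h1 : (2 * Real.pi) ^ ((d : ℝ) / 2) = (Real.sqrt (2 * Real.pi)) ^ d := by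
    rw [Real.sqrt_eq_rpow, ← Real.rpow_natCast, ← Real.rpow_mul h0.le]
    congr 1
    ring
  rw [h1]
  unfold cst
  rw [← mul_pow, inv_mul_cancel₀ (Real.sqrt_pos.mpr h0).ne', one_pow]

instance gm_isProb (d : ℕ) : IsProbabilityMeasure (gm d) := by
  constructor
  unfold gm
  rw [withDensity_apply _ MeasurableSet.univ, Measure.restrict_univ]
  have e : ∀ z : Eu d, dens d z =
      ENNReal.ofReal (cst d) * ENNReal.ofReal (Real.exp (-(1 / 2) * ‖z‖ ^ 2)) := by
    intro z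
    unfold dens
    rw [← ENNReal.ofReal_mul (cst_pos d).le]
    congr 3
    ring
  simp_rw [e]
  rw [lintegral_const_mul' _ _ ENNReal.ofReal_ne_top, lintegral_exp_norm d (by norm_num),
    ← ENNReal.ofReal_mul (cst_pos d).le]
  have : Real.pi / (1 / 2) = 2 * Real.pi := by ring
  rw [this, cst_mul_rpow]
  simp

lemma dens_rpow_mul {d : ℕ} (z w : Eu d) {θ : ℝ} (h0 : 0 < θ) (h1 : θ < 1) :
    dens d z ^ θ * dens d w ^ (1 - θ) ≤ dens d (θ • z + (1 - θ) • w) := by
  unfold dens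
  have h1' : 0 < 1 - θ := by linarith
  have hz : 0 < cst d * Real.exp (-‖z‖ ^ 2 / 2) := mul_pos (cst_pos d) (Real.exp_pos _)
  have hw : 0 < cst d * Real.exp (-‖w‖ ^ 2 / 2) := mul_pos (cst_pos d) (Real.exp_pos _)
  rw [ENNReal.ofReal_rpow_of_pos hz, ENNReal.ofReal_rpow_of_pos hw,
    ← ENNReal.ofReal_mul (by positivity)]
  apply ENNReal.ofReal_le_ofReal
  have hc := cst_pos d
  rw [Real.mul_rpow hc.le (Real.exp_pos _).le, Real.mul_rpow hc.le (Real.exp_pos _).le,
    ← Real.exp_mul, ← Real.exp_mul]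
  have e1 : cst d ^ θ * Real.exp (-‖z‖ ^ 2 / 2 * θ) * (cst d ^ (1 - θ) * Real.exp (-‖w‖ ^ 2 / 2 * (1 - θ))) =
      (cst d ^ θ * cst d ^ (1 - θ)) * Real.exp (-‖z‖ ^ 2 / 2 * θ + -‖w‖ ^ 2 / 2 * (1 - θ)) := by
    rw [Real.exp_add]; ring
  rw [e1, ← Real.rpow_add hc]
  have : θ + (1 - θ) = 1 := by ring
  rw [this, Real.rpow_one]
  apply mul_le_mul_of_nonneg_left _ hc.le
  apply Real.exp_le_exp.mpr
  have hn : ‖θ • z + (1 - θ) • w‖ ≤ θ * ‖z‖ + (1 - θ) * ‖w‖ := by
    calc ‖θ • z + (1 - θ) • w‖ ≤ ‖θ • z‖ + ‖(1 - θ) • w‖ := norm_add_le _ _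
      _ = θ * ‖z‖ + (1 - θ) * ‖w‖ := by
          rw [norm_smul, norm_smul, Real.norm_of_nonneg h0.le, Real.norm_of_nonneg h1'.le]
  have hn2 : ‖θ • z + (1 - θ) • w‖ ^ 2 ≤ (θ * ‖z‖ + (1 - θ) * ‖w‖) ^ 2 :=
    pow_le_pow_left₀ (norm_nonneg _) hn 2
  have hconv : (θ * ‖z‖ + (1 - θ) * ‖w‖) ^ 2 ≤ θ * ‖z‖ ^ 2 + (1 - θ) * ‖w‖ ^ 2 := by
    nlinarith [mul_nonneg (mul_nonneg h0.le h1'.le) (sq_nonneg (‖z‖ - ‖w‖))]
  nlinarith

/-- The Gaussian measure is log-concave. -/
theorem gm_logConcave (d : ℕ) : LogConcave (gm d) := by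
  intro θ h0 h1 A B C mA mB mC H
  let T : (Fin d → ℝ) → Eu d := WithLp.toLp 2
  have hT : MeasurePreserving T volume volume := PiLp.volume_preserving_toLp (Fin d)
  let F : Set (Eu d) → (Fin d → ℝ) → ℝ≥0∞ := fun S x => S.indicator (dens d) (T x)
  have mF : ∀ S : Set (Eu d), MeasurableSet S → Measurable (F S) := fun S hS =>
    ((measurable_dens d).indicator hS).comp hT.measurable
  have key : ∀ S : Set (Eu d), MeasurableSet S → gm d S = ∫⁻ x, F S x := by
    intro S hS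
    unfold gm
    rw [withDensity_apply _ hS, ← lintegral_indicator hS]
    exact (hT.lintegral_comp ((measurable_dens d).indicator hS)).symm
  rw [key A mA, key B mB, key C mC]
  refine Vale.Agent.Lib.P248.prekopa_leindler (mF A mA) (mF B mB) (mF C mC) h0 h1 ?_
  intro x y
  have h1' : 0 < 1 - θ := by linarith
  have hlin : T (θ • x + (1 - θ) • y) = θ • T x + (1 - θ) • T y := rfl
  by_cases hx : T x ∈ A
  · by_cases hy : T y ∈ B
    · have hC := H _ hx _ hy
      simp only [F]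
      rw [indicator_of_mem hx, indicator_of_mem hy, hlin, indicator_of_mem hC]
      exact dens_rpow_mul _ _ h0 h1
    · simp only [F]
      rw [indicator_of_notMem hy]
      simp [ENNReal.zero_rpow_of_pos h1']
  · simp only [F]
    rw [indicator_of_notMem hx]
    simp [ENNReal.zero_rpow_of_pos h0]

/-- Gaussian tail of the norm, by the exponential moment at `1/4`. -/
theorem gm_compl_ball (d : ℕ) (r : ℝ) (hr : 0 ≤ r) :
    gm d (Metric.closedBall (0 : Eu d) r)ᶜ ≤
      ENNReal.ofReal (2 ^ ((d : ℝ) / 2) * Real.exp (-r ^ 2 / 4)) := by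
  have hm : MeasurableSet (Metric.closedBall (0 : Eu d) r)ᶜ :=
    Metric.isClosed_closedBall.measurableSet.compl
  unfold gm
  rw [withDensity_apply _ hm]
  have hbd : ∀ z ∈ (Metric.closedBall (0 : Eu d) r)ᶜ, dens d z ≤
      ENNReal.ofReal (cst d * Real.exp (-r ^ 2 / 4)) * ENNReal.ofReal (Real.exp (-(1 / 4) * ‖z‖ ^ 2)) := by
    intro z hz
    have hz' : r < ‖z‖ := by
      simpa using hz
    unfold dens
    rw [← ENNReal.ofReal_mul (by have := cst_pos d; positivity)]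
    apply ENNReal.ofReal_le_ofReal
    rw [mul_assoc, ← Real.exp_add]
    apply mul_le_mul_of_nonneg_left _ (cst_pos d).le
    apply Real.exp_le_exp.mpr
    nlinarith
  calc ∫⁻ z in (Metric.closedBall (0 : Eu d) r)ᶜ, dens d z
      ≤ ∫⁻ z in (Metric.closedBall (0 : Eu d) r)ᶜ, ENNReal.ofReal (cst d * Real.exp (-r ^ 2 / 4)) *
          ENNReal.ofReal (Real.exp (-(1 / 4) * ‖z‖ ^ 2)) := setLIntegral_mono' hm hbd
    _ ≤ ∫⁻ z, ENNReal.ofReal (cst d * Real.exp (-r ^ 2 / 4)) *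
          ENNReal.ofReal (Real.exp (-(1 / 4) * ‖z‖ ^ 2)) := setLIntegral_le_lintegral _ _
    _ = ENNReal.ofReal (cst d * Real.exp (-r ^ 2 / 4)) *
          ENNReal.ofReal ((Real.pi / (1 / 4)) ^ ((d : ℝ) / 2)) := by
        rw [lintegral_const_mul' _ _ ENNReal.ofReal_ne_top, lintegral_exp_norm d (by norm_num)]
    _ = ENNReal.ofReal (2 ^ ((d : ℝ) / 2) * Real.exp (-r ^ 2 / 4)) := by
        rw [← ENNReal.ofReal_mul (by have := cst_pos d; positivity)]
        congr 1
        have e : Real.pi / (1 / 4) = 2 * (2 * Real.pi) := by ring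
        rw [e, Real.mul_rpow (by norm_num) (by positivity)]
        have := cst_mul_rpow d
        calc cst d * Real.exp (-r ^ 2 / 4) * (2 ^ ((d : ℝ) / 2) * (2 * Real.pi) ^ ((d : ℝ) / 2))
            = (cst d * (2 * Real.pi) ^ ((d : ℝ) / 2)) * (2 ^ ((d : ℝ) / 2) * Real.exp (-r ^ 2 / 4)) := by ring
          _ = 2 ^ ((d : ℝ) / 2) * Real.exp (-r ^ 2 / 4) := by rw [this, one_mul]

end Vale.Agent.Lib.P262.Ban
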