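import Vale.Agent.Lib.P262.BanIter

/-!
Chobanyan's transference from signs to orderings, in list form.
-/

set_option linter.unusedSectionVars false
set_option linter.deprecated false

namespace Vale.Agent.Lib.P262.Ban

variable {d : ℕ}

/-- The sum of the second components. -/
noncomputable def sndsum (ps : List (Bool × Eu d)) : Eu d := (ps.map Prod.snd).sum

lemma sndsum_cons (b : Bool) (v : Eu d) (qs : List (Bool × Eu d)) :
    sndsum ((b, v) :: qs) = v + sndsum qs := by
  simp [sndsum]

lemma sgsum_cons (b : Bool) (v : Eu d) (qs : List (Bool × Eu d)) :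
    sgsum ((b, v) :: qs) = sg b • v + sgsum qs := by
  simp [sgsum]

lemma take_filter (f : Bool × Eu d → Bool) :
    ∀ (ps : List (Bool × Eu d)) (k : ℕ), ∃ m, (ps.filter f).take k = (ps.take m).filter f
  | [], k => ⟨0, by simp⟩
  | p :: ps, k => by
    by_cases hp : f p = true
    · cases k with
      | zero => exact ⟨0, by simp⟩
      | succ k =>
        obtain ⟨m, hm⟩ := take_filter f ps k
        refine ⟨m + 1, ?_⟩
        rw [List.filter_cons_of_pos hp, List.take_succ_cons, List.take_succ_cons,
          List.filter_cons_of_pos hp, hm]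
    · obtain ⟨m, hm⟩ := take_filter f ps k
      refine ⟨m + 1, ?_⟩
      rw [List.filter_cons_of_neg hp, List.take_succ_cons, List.filter_cons_of_neg hp, hm]

lemma filter_true_sum (qs : List (Bool × Eu d)) :
    ((qs.filter Prod.fst).map Prod.snd).sum = (1 / 2 : ℝ) • (sndsum qs + sgsum qs) := by
  induction qs with
  | nil => simp [sndsum, sgsum]
  | cons q qs ih =>
    obtain ⟨b, v⟩ := q
    rw [sndsum_cons, sgsum_cons]
    cases b with
    | true =>
      rw [List.filter_cons_of_pos rfl, List.map_cons, List.sum_cons, ih]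
      simp only [sg, if_true]
      module
    | false =>
      rw [List.filter_cons_of_neg (by simp), ih]
      simp only [sg, Bool.false_eq_true, if_false]
      module

lemma filter_false_sum (qs : List (Bool × Eu d)) :
    ((qs.filter fun p => !p.1).map Prod.snd).sum = (1 / 2 : ℝ) • (sndsum qs - sgsum qs) := by
  induction qs with
  | nil => simp [sndsum, sgsum]
  | cons q qs ih =>
    obtain ⟨b, v⟩ := q
    rw [sndsum_cons, sgsum_cons]
    cases b with
    | true =>
      rw [List.filter_cons_of_neg (by simp), ih]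
      simp only [sg, if_true]
      module
    | false =>
      rw [List.filter_cons_of_pos (by simp), List.map_cons, List.sum_cons, ih]
      simp only [sg, Bool.false_eq_true, if_false]
      module

/-- One step of the transference. -/
theorem chob_step (ps : List (Bool × Eu d)) (h0 : sndsum ps = 0) {X B : ℝ}
    (hX : ∀ k, ‖sndsum (ps.take k)‖ ≤ X) (hB : ∀ k, ‖sgsum (ps.take k)‖ ≤ B) :
    ∃ l' : List (Eu d), l'.Perm (ps.map Prod.snd) ∧ ∀ k, ‖(l'.take k).sum‖ ≤ (X + B) / 2 := by
  set P := (ps.filter Prod.fst).map Prod.snd with hP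
  set M := (ps.filter fun p => !p.1).map Prod.snd with hM
  have hPb : ∀ k, ‖(P.take k).sum‖ ≤ (X + B) / 2 := by
    intro k
    obtain ⟨m, hm⟩ := take_filter Prod.fst ps k
    rw [hP, ← List.map_take, hm, filter_true_sum, norm_smul]
    have h1 := norm_add_le (sndsum (ps.take m)) (sgsum (ps.take m))
    have h2 := hX m
    have h3 := hB m
    norm_num
    linarith
  have hMb : ∀ k, ‖(M.take k).sum‖ ≤ (X + B) / 2 := by
    intro k
    obtain ⟨m, hm⟩ := take_filter (fun p : Bool × Eu d => !p.1) ps k
    rw [hM, ← List.map_take, hm, filter_false_sum, norm_smul]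
    have h1 := norm_sub_le (sndsum (ps.take m)) (sgsum (ps.take m))
    have h2 := hX m
    have h3 := hB m
    norm_num
    linarith
  have htotal : P.sum + M.sum = 0 := by
    rw [hP, hM, filter_true_sum, filter_false_sum, h0]
    module
  refine ⟨P ++ M.reverse, ?_, fun k => ?_⟩
  · have h1 : (P ++ M).Perm (ps.map Prod.snd) := by
      rw [hP, hM, ← List.map_append]
      exact (List.filter_append_perm _ _).map _
    exact ((List.Perm.refl P).append (List.reverse_perm M)).trans h1
  · by_cases hk : k ≤ P.length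
    · rw [List.take_append_of_le_length hk]
      exact hPb k
    · push Not at hk
      rw [List.take_append, List.take_of_length_le hk.le, List.sum_append, List.take_reverse,
        List.sum_reverse]
      set a := M.length - (k - P.length) with ha
      have h2 := List.sum_take_add_sum_drop M a
      have h3 : P.sum + (M.drop a).sum = -(M.take a).sum := by
        have : M.sum = -P.sum := eq_neg_of_add_eq_zero_right htotal
        rw [this] at h2
        have e : (M.drop a).sum = -P.sum - (M.take a).sum := by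
          rw [← h2]; abel
        rw [e]; abel
      rw [h3, norm_neg]
      exact hMb a

lemma norm_sum_le_len : ∀ l : List (Eu d), (∀ v ∈ l, ‖v‖ ≤ 1) → ‖l.sum‖ ≤ l.length
  | [], _ => by simp
  | v :: vs, h => by
    rw [List.sum_cons, List.length_cons]
    have h1 := norm_sum_le_len vs fun w hw => h w (List.mem_cons_of_mem _ hw)
    have h2 := h v List.mem_cons_self
    have h3 := norm_add_le v vs.sum
    push_cast
    linarith

/-- Iterating the transference. -/
theorem order_of_signs {N : ℕ} {B : ℝ} (hB0 : 0 ≤ B)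
    (hs : ∀ l : List (Eu d), l.length = N → (∀ v ∈ l, ‖v‖ ≤ 1) →
      ∃ ps : List (Bool × Eu d), ps.map Prod.snd = l ∧ ∀ k, ‖sgsum (ps.take k)‖ ≤ B)
    (l : List (Eu d)) (hl : l.length = N) (hn : ∀ v ∈ l, ‖v‖ ≤ 1) (h0 : l.sum = 0) (j : ℕ) :
    ∃ l' : List (Eu d), l'.Perm l ∧ ∀ k, ‖(l'.take k).sum‖ ≤ B + N * (1 / 2) ^ j := by
  induction j with
  | zero =>
    refine ⟨l, List.Perm.refl _, fun k => ?_⟩
    have h1 := norm_sum_le_len (l.take k) fun v hv => hn v (List.mem_of_mem_take hv)
    have h2 : ((l.take k).length : ℝ) ≤ N := by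
      rw [List.length_take, hl]
      exact_mod_cast min_le_right _ _
    simp only [pow_zero, mul_one]
    linarith
  | succ j ih =>
    obtain ⟨l1, hp, hb⟩ := ih
    have hlen : l1.length = N := by rw [hp.length_eq, hl]
    have hn1 : ∀ v ∈ l1, ‖v‖ ≤ 1 := fun v hv => hn v (hp.subset hv)
    obtain ⟨ps, hps, hk⟩ := hs l1 hlen hn1
    have h00 : sndsum ps = 0 := by
      unfold sndsum
      rw [hps, hp.sum_eq, h0]
    have hX : ∀ k, ‖sndsum (ps.take k)‖ ≤ B + N * (1 / 2) ^ j := by
      intro k
      unfold sndsum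
      rw [List.map_take, hps]
      exact hb k
    obtain ⟨l2, hp2, hb2⟩ := chob_step ps h00 hX hk
    refine ⟨l2, ?_, fun k => ?_⟩
    · rw [hps] at hp2
      exact hp2.trans hp
    · refine (hb2 k).trans (le_of_eq ?_)
      rw [pow_succ]
      ring

/-- **Ordering bound** derived from the signed series bound. -/
theorem exists_order (l : List (Eu d)) (hn : ∀ v ∈ l, ‖v‖ ≤ 1) (h0 : l.sum = 0) :
    ∃ l' : List (Eu d), l'.Perm l ∧ ∀ k, ‖(l'.take k).sum‖ ≤ 20 * rad d l.length + 1 := by
  set N := l.length with hN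
  have hB0 : 0 ≤ 20 * rad d N := by
    have := rad_nonneg d N
    positivity
  have hs : ∀ l1 : List (Eu d), l1.length = N → (∀ v ∈ l1, ‖v‖ ≤ 1) →
      ∃ ps : List (Bool × Eu d), ps.map Prod.snd = l1 ∧ ∀ k, ‖sgsum (ps.take k)‖ ≤ 20 * rad d N := by
    intro l1 h1 h2
    have := exists_signs l1 h2
    rwa [h1] at this
  obtain ⟨l', hp, hb⟩ := order_of_signs hB0 hs l rfl hn h0 N
  refine ⟨l', hp, fun k => (hb k).trans ?_⟩
  have h3 : (N : ℝ) * (1 / 2) ^ N ≤ 1 := by
    have h4 : (N : ℝ) ≤ 2 ^ N := by
      exact_mod_cast Nat.lt_two_pow_self.le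
    have h5 : (0:ℝ) < 2 ^ N := by positivity
    rw [one_div, inv_pow]
    rw [← div_eq_mul_inv, div_le_one h5]
    exact h4
  linarith

end Vale.Agent.Lib.P262.Ban
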