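import Vale.Agent.Lib.P262.BanMeas

/-!
The key measure inequality: passing from `L` to `Tset L h` does not decrease the
product measure. The only tool is a log-concavity hypothesis on the base measure
(supplied later by the Prekopa-Leindler inequality).
-/

open MeasureTheory Set ProbabilityTheory
open scoped ENNReal

set_option linter.unusedSectionVars false
set_option linter.deprecated false

namespace Vale.Agent.Lib.P262.Ban

variable {X : Type*} [NormedAddCommGroup X] [NormedSpace ℝ X]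
variable [MeasurableSpace X] [BorelSpace X] [SecondCountableTopology X]

/-- Multiplicative Brunn-Minkowski for the measure `μ`. -/
def LogConcave (μ : Measure X) : Prop :=
  ∀ θ : ℝ, 0 < θ → θ < 1 → ∀ A B C : Set X, MeasurableSet A → MeasurableSet B → MeasurableSet C →
    (∀ x ∈ A, ∀ y ∈ B, θ • x + (1 - θ) • y ∈ C) → μ A ^ θ * μ B ^ (1 - θ) ≤ μ C

lemma pl_real {a β h α : ℝ} (h1 : 1 / 2 ≤ β) (h2 : β ≤ a) (h3 : a ≤ 1) (h0 : 0 < h)
    (H : a ^ (1 - h) * β ^ h ≤ α) : a - α ≤ 2 * h * (a - β) := by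
  have hβ : 0 < β := by linarith
  have ha : 0 < a := by linarith
  have e1 : a ^ (1 - h) * β ^ h = a * (β / a) ^ h := by
    rw [Real.rpow_sub ha, Real.rpow_one, Real.div_rpow hβ.le ha.le]
    field_simp
  have hy : 0 < β / a := by positivity
  have e2 : 1 + h * (1 - a / β) ≤ (β / a) ^ h := by
    rw [Real.rpow_def_of_pos hy]
    have h5 := Real.add_one_le_exp (Real.log (β / a) * h)
    have h6 : 1 - (β / a)⁻¹ ≤ Real.log (β / a) := Real.one_sub_inv_le_log_of_pos hy
    have h7 : (β / a)⁻¹ = a / β := by field_simp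
    rw [h7] at h6
    nlinarith
  have h8 : a * (1 + h * (1 - a / β)) ≤ α := by
    calc a * (1 + h * (1 - a / β)) ≤ a * (β / a) ^ h := by
          apply mul_le_mul_of_nonneg_left e2 ha.le
      _ = a ^ (1 - h) * β ^ h := e1.symm
      _ ≤ α := H
  have h9 : a * (h * (a / β - 1)) ≤ 2 * h * (a - β) := by
    have e3 : a * (h * (a / β - 1)) = h * (a / β * (a - β)) := by
      field_simp
    rw [e3]
    have h10 : a / β ≤ 2 := by
      rw [div_le_iff₀ hβ]
      linarith
    have h11 : 0 ≤ a - β := by linarith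
    nlinarith [mul_nonneg h0.le h11, mul_nonneg (mul_nonneg h0.le h11) (sub_nonneg.mpr h10)]
  nlinarith

lemma zero_mem_of_Eset {L : Set (X × ℝ)} (hc : Convex ℝ L) {y : X} (hy : y ∈ Eset L) :
    (y, (0:ℝ)) ∈ L := by
  have := hc hy.1 hy.2 (a := 1 / 2) (b := 1 / 2) (by norm_num) (by norm_num) (by norm_num)
  simp only [Prod.smul_mk, Prod.mk_add_mk, smul_eq_mul] at this
  have e : (1 / 2 : ℝ) • y + (1 / 2 : ℝ) • y = y := by
    rw [← add_smul]; norm_num
  rw [e] at this
  convert this using 2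
  norm_num

lemma toReal_compl_inter (μ : Measure X) [IsProbabilityMeasure μ] {U V : Set X}
    (hV : MeasurableSet V) :
    (μ (Vᶜ ∩ U)).toReal = (μ U).toReal - (μ (U ∩ V)).toReal := by
  have h := measure_inter_add_diff (μ := μ) U hV
  have e : U \ V = Vᶜ ∩ U := by
    ext x; simp [and_comm]
  rw [e] at h
  rw [← h, ENNReal.toReal_add (measure_ne_top _ _) (measure_ne_top _ _)]
  ring

/-- Per-`τ` estimate: the thin part of `C_τ` is a small fraction of `C_τ \ E`. -/
lemma thin_le {L : Set (X × ℝ)} (hL : IsCompact L) (hc : Convex ℝ L) {μ : Measure X}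
    [IsProbabilityMeasure μ] (hLC : LogConcave μ) {h : ℝ} (h0 : 0 < h) (h1 : h ≤ 1 / 20)
    (hβ : ENNReal.ofReal (1 / 2) ≤ μ (Eset L)) {τ : ℝ} (hτ : 0 ≤ τ) :
    μ ((Thick L h)ᶜ ∩ Cset L τ) ≤ ENNReal.ofReal (2 * h) * μ ((Eset L)ᶜ ∩ Cset L τ) := by
  set C := Cset L τ with hC
  set E := Eset L with hE
  set A := Thick L h with hA
  have mC : MeasurableSet C := (isCompact_Cset hL τ).measurableSet
  have mE : MeasurableSet E := (isClosed_Eset hL).measurableSet
  have mA : MeasurableSet A := (isCompact_Thick hL h).measurableSet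
  -- `E ⊆ C`
  have hEC : E ⊆ C := by
    intro y hy
    exact ⟨0, zero_mem_of_Eset hc hy, by simpa using hτ⟩
  -- the combination
  have hcomb : ∀ x ∈ C, ∀ y ∈ E, (1 - h) • x + (1 - (1 - h)) • y ∈ C ∩ A := by
    intro x hx y hy
    obtain ⟨t, ht, ht2⟩ := hx
    have e0 : 0 ≤ 1 - h := by linarith
    have comb : ∀ u v : ℝ, (x, u) ∈ L → (y, v) ∈ L →
        ((1 - h) • x + (1 - (1 - h)) • y, (1 - h) * u + h * v) ∈ L := by
      intro u v hu hv
      have := hc hu hv e0 h0.le (by ring)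
      simp only [Prod.smul_mk, Prod.mk_add_mk, smul_eq_mul] at this
      have e : (1 - (1 - h)) = h := by ring
      rw [e]
      exact this
    have h3 := comb t 1 ht hy.1
    have h4 := comb t (-1) ht hy.2
    constructor
    · refine ⟨(1 - h) * t + h * 0, comb t 0 ht (zero_mem_of_Eset hc hy), ?_⟩
      simp only [mul_zero, add_zero, abs_mul]
      rw [abs_of_nonneg e0]
      nlinarith [abs_nonneg t]
    · refine ⟨(1 - h) * t + h * (-1), h4, ?_⟩
      have : (1 - h) * t + h * (-1) + 2 * h = (1 - h) * t + h * 1 := by ring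
      rw [this]
      exact h3
  have hPL := hLC (1 - h) (by linarith) (by linarith) C E (C ∩ A) mC mE (mC.inter mA) hcomb
  have e5 : 1 - (1 - h) = h := by ring
  rw [e5] at hPL
  have hPLr : (μ C).toReal ^ (1 - h) * (μ E).toReal ^ h ≤ (μ (C ∩ A)).toReal := by
    have := ENNReal.toReal_mono (measure_ne_top _ _) hPL
    rwa [ENNReal.toReal_mul, ← ENNReal.toReal_rpow, ← ENNReal.toReal_rpow] at this
  have hβr : 1 / 2 ≤ (μ E).toReal := by
    have := ENNReal.toReal_mono (measure_ne_top _ _) hβ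
    rwa [ENNReal.toReal_ofReal (by norm_num)] at this
  have hβa : (μ E).toReal ≤ (μ C).toReal :=
    ENNReal.toReal_mono (measure_ne_top _ _) (measure_mono hEC)
  have ha1 : (μ C).toReal ≤ 1 := by
    have := ENNReal.toReal_mono (by simp) (prob_le_one (μ := μ) (s := C))
    simpa using this
  have key := pl_real hβr hβa ha1 h0 hPLr
  have e1 := toReal_compl_inter μ (U := C) mA
  have e2 := toReal_compl_inter μ (U := C) mE
  have e3 : C ∩ E = E := inter_eq_right.mpr hEC
  rw [e3] at e2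
  rw [← ENNReal.ofReal_toReal (measure_ne_top μ (Aᶜ ∩ C)),
    ← ENNReal.ofReal_toReal (measure_ne_top μ (Eᶜ ∩ C)),
    ← ENNReal.ofReal_mul (by linarith)]
  apply ENNReal.ofReal_le_ofReal
  rw [e1, e2]
  exact key

/-- Thin sections carry little mass. -/
lemma nu_thin {L : Set (X × ℝ)} (hL : IsCompact L) (hc : Convex ℝ L) {h : ℝ} (h0 : 0 < h)
    {x : X} (hx : x ∉ Thick L h) :
    nu (sec L x) ≤ ENNReal.ofReal (2 * h) * Wfun L x := by
  by_cases hne : (sec L x).Nonempty
  · obtain ⟨a, b, hab, hs⟩ := sec_eq_Icc hL hc hne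
    have hlen : b - a < 2 * h := by
      by_contra hcon
      push Not at hcon
      exact hx (thick_of_Icc h0.le hs hcon)
    have h1 := nu_le_mul_volume (S := sec L x) (W := Wfun L x) (fun t ht => Wfun_lower ht)
    rw [hs, Real.volume_Icc] at h1
    rw [hs, mul_comm]
    refine h1.trans ?_
    gcongr
  · rw [not_nonempty_iff_eq_empty] at hne
    rw [hne]
    simp

/-- The closest point to zero in an interval. -/
lemma exists_closest {a b : ℝ} (hab : a ≤ b) :
    ∃ s ∈ Icc a b, ∀ t ∈ Icc a b, |s| ≤ |t| := by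
  refine ⟨max a (min b 0), ⟨le_max_left _ _, max_le hab (min_le_left _ _)⟩, ?_⟩
  intro t ht
  rcases le_total 0 a with h1 | h1
  · rw [min_eq_right (h1.trans hab), max_eq_left h1, abs_of_nonneg h1, abs_of_nonneg (h1.trans ht.1)]
    exact ht.1
  · rw [max_eq_right (le_min hab h1 : a ≤ min b 0)]
    rcases le_total b 0 with h2 | h2
    · rw [min_eq_left h2, abs_of_nonpos h2, abs_of_nonpos (ht.2.trans h2)]
      linarith [ht.2]
    · rw [min_eq_right h2]
      simp

/-- Over the thick part, the section of `T` has at least the mass of the section of `L`. -/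
lemma nu_thick_mono {L : Set (X × ℝ)} (hL : IsCompact L) (hc : Convex ℝ L) {h : ℝ} (h0 : 0 < h)
    {x : X} (hx : x ∈ Thick L h) : nu (sec L x) ≤ nu (sec (Tset L h) x) := by
  obtain ⟨s, hs1, _⟩ := hx
  obtain ⟨a, b, hab, hs⟩ := sec_eq_Icc hL hc ⟨s, hs1⟩
  refine measure_mono ?_
  have hx' : x ∈ Thick L h := ⟨s, hs1, by assumption⟩
  refine Subset.trans ?_ (Icc_subset_sec_T hs hx')
  rw [hs]
  exact Icc_subset_Icc (by linarith) (by linarith)

/-- Over the thick part outside `E`, the section of `T` gains mass proportional to the weight. -/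
lemma nu_thick_gain {L : Set (X × ℝ)} (hL : IsCompact L) (hc : Convex ℝ L) {h : ℝ} (h0 : 0 < h)
    (h1 : h ≤ 1 / 20) {x : X} (hx : x ∈ Thick L h) (hE : x ∉ Eset L) :
    nu (sec L x) + ENNReal.ofReal (2 / 5 * h) * Wfun L x ≤ nu (sec (Tset L h) x) := by
  have hx' := hx
  obtain ⟨s, hs1, _⟩ := hx'
  obtain ⟨a, b, hab, hs⟩ := sec_eq_Icc hL hc ⟨s, hs1⟩
  have hsub := Icc_subset_sec_T hs hx
  obtain ⟨s0, hs0, hmin⟩ := exists_closest hab
  have hW : Wfun L x ≤ ENNReal.ofReal (phi s0) := by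
    apply Wfun_upper
    rintro τ ⟨t, ht, ht2⟩
    have : t ∈ Icc a b := by
      rw [← hs]; exact ht
    exact (hmin t this).trans ht2
  have hcases : -1 < a ∨ b < 1 := by
    by_contra hcon
    push Not at hcon
    apply hE
    have m1 : (1:ℝ) ∈ sec L x := by
      rw [hs]; exact ⟨by linarith [hcon.1], hcon.2⟩
    have m2 : (-1:ℝ) ∈ sec L x := by
      rw [hs]; exact ⟨hcon.1, by linarith [hcon.2]⟩
    exact ⟨m1, m2⟩
  have hgoal : ∀ P : Set ℝ, MeasurableSet P → Disjoint (Icc a b) P → volume P = ENNReal.ofReal h →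
      P ⊆ sec (Tset L h) x → (∀ t ∈ P, 2 / 5 * phi s0 ≤ phi t) →
      nu (sec L x) + ENNReal.ofReal (2 / 5 * h) * Wfun L x ≤ nu (sec (Tset L h) x) := by
    intro P hP hd hv hPs hφ
    have hIcc : Icc a b ⊆ sec (Tset L h) x :=
      Subset.trans (Icc_subset_Icc (by linarith) (by linarith)) hsub
    have hlow : ENNReal.ofReal (2 / 5 * h) * Wfun L x ≤ nu P := by
      have h3 := mul_volume_le_nu (S := P) (W := ENNReal.ofReal (2 / 5 * phi s0))
        (fun t ht => ENNReal.ofReal_le_ofReal (hφ t ht))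
      rw [hv] at h3
      refine le_trans ?_ h3
      calc ENNReal.ofReal (2 / 5 * h) * Wfun L x
          ≤ ENNReal.ofReal (2 / 5 * h) * ENNReal.ofReal (phi s0) := by gcongr
        _ = ENNReal.ofReal (2 / 5 * phi s0) * ENNReal.ofReal h := by
            rw [← ENNReal.ofReal_mul (by positivity), ← ENNReal.ofReal_mul (by
              have := phi_pos s0
              positivity)]
            congr 1
            ring
    rw [hs]
    calc nu (Icc a b) + ENNReal.ofReal (2 / 5 * h) * Wfun L x ≤ nu (Icc a b) + nu P := by gcongr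
      _ = nu (Icc a b ∪ P) := (measure_union hd hP).symm
      _ ≤ nu (sec (Tset L h) x) := measure_mono (union_subset hIcc hPs)
  rcases hcases with ha | hb
  · refine hgoal (Ico (a - h) a) measurableSet_Ico ?_ ?_ ?_ ?_
    · rw [Set.disjoint_left]
      intro t ht ht2
      exact absurd ht.1 (not_le.mpr ht2.2)
    · rw [Real.volume_Ico]; congr 1; ring
    · intro t ht
      exact hsub ⟨ht.1, by linarith [ht.2]⟩
    · intro t ht
      exact phi_compare_left ha h0.le h1 ht.1 ht.2.le hs0.1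
  · refine hgoal (Ioc b (b + h)) measurableSet_Ioc ?_ ?_ ?_ ?_
    · rw [Set.disjoint_left]
      intro t ht ht2
      exact absurd ht.2 (not_le.mpr ht2.1)
    · rw [Real.volume_Ioc]; congr 1; ring
    · intro t ht
      exact hsub ⟨by linarith [ht.1], ht.2⟩
    · intro t ht
      exact phi_compare_right hb h0.le h1 ht.1.le ht.2 hs0.2

/-- A section that misses `1` or `-1` misses one of two fixed intervals. -/
lemma nu_sec_le_of_not_E {L : Set (X × ℝ)} (hc : Convex ℝ L) {x : X} (hE : x ∉ Eset L) :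
    nu (sec L x) ≤ ENNReal.ofReal (19 / 20) := by
  have hconv := convex_sec hc x
  have side : ∀ c : ℝ, c ∉ sec L x → sec L x ⊆ Iio c ∨ sec L x ⊆ Ioi c := by
    intro c hcn
    by_contra hcon
    push Not at hcon
    obtain ⟨h1, h2⟩ := hcon
    obtain ⟨u, hu, hu2⟩ := not_subset.mp h1
    obtain ⟨v, hv, hv2⟩ := not_subset.mp h2
    have hu3 : c ≤ u := not_lt.mp hu2
    have hv3 : v ≤ c := not_lt.mp hv2
    exact hcn (hconv.ordConnected.out hv hu ⟨hv3, hu3⟩)
  have miss1 : ∀ P : Set ℝ, MeasurableSet P → ENNReal.ofReal (1 / 20) ≤ nu P →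
      Disjoint (sec L x) P → nu (sec L x) ≤ ENNReal.ofReal (19 / 20) := by
    intro P hP hlow hd
    have h3 : nu (sec L x) ≤ nu Pᶜ := measure_mono (Set.disjoint_left.mp hd)
    rw [prob_compl_eq_one_sub hP] at h3
    refine h3.trans ?_
    have e : ENNReal.ofReal (19 / 20) = 1 - ENNReal.ofReal (1 / 20) := by
      rw [← ENNReal.ofReal_one, ← ENNReal.ofReal_sub _ (by norm_num)]
      norm_num
    rw [e]
    exact tsub_le_tsub_left hlow _
  have d1 : ∀ c : ℝ, c ≤ 1 → sec L x ⊆ Iio c → nu (sec L x) ≤ ENNReal.ofReal (19 / 20) := by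
    intro c hc1 hs
    refine miss1 (Icc 1 2) measurableSet_Icc nu_Icc_one_two ?_
    rw [Set.disjoint_left]
    intro t ht ht2
    have := hs ht
    simp only [mem_Iio] at this
    linarith [ht2.1]
  have d2 : ∀ c : ℝ, -1 ≤ c → sec L x ⊆ Ioi c → nu (sec L x) ≤ ENNReal.ofReal (19 / 20) := by
    intro c hc1 hs
    refine miss1 (Icc (-2) (-1)) measurableSet_Icc nu_Icc_neg ?_
    rw [Set.disjoint_left]
    intro t ht ht2
    have := hs ht
    simp only [mem_Ioi] at this
    linarith [ht2.2]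
  by_cases h1 : (1:ℝ) ∈ sec L x
  · have h2 : (-1:ℝ) ∉ sec L x := fun h2 => hE ⟨h1, h2⟩
    rcases side _ h2 with h3 | h3
    · exact d1 _ (by norm_num) h3
    · exact d2 _ le_rfl h3
  · rcases side _ h1 with h3 | h3
    · exact d1 _ le_rfl h3
    · exact d2 _ (by norm_num) h3

/-- If the product measure of `L` is large then `E` has measure at least one half. -/
lemma Eset_large {L : Set (X × ℝ)} (hL : IsCompact L) (hc : Convex ℝ L) {μ : Measure X}
    [IsProbabilityMeasure μ] (hm : ENNReal.ofReal (39 / 40) ≤ (μ.prod nu) L) :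
    ENNReal.ofReal (1 / 2) ≤ μ (Eset L) := by
  have mE : MeasurableSet (Eset L) := (isClosed_Eset hL).measurableSet
  have mL : MeasurableSet L := hL.measurableSet
  rw [Measure.prod_apply mL] at hm
  have hmeas : Measurable fun x => nu (Prod.mk x ⁻¹' L) := measurable_measure_prodMk_left mL
  have h1 : ∫⁻ x, nu (Prod.mk x ⁻¹' L) ∂μ ≤
      μ (Eset L) + ENNReal.ofReal (19 / 20) * μ (Eset L)ᶜ := by
    rw [← lintegral_add_compl _ mE]
    apply add_le_add
    · calc ∫⁻ x in Eset L, nu (Prod.mk x ⁻¹' L) ∂μ ≤ ∫⁻ _ in Eset L, 1 ∂μ :=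
            lintegral_mono fun x => prob_le_one
        _ = μ (Eset L) := by simp
    · calc ∫⁻ x in (Eset L)ᶜ, nu (Prod.mk x ⁻¹' L) ∂μ
          ≤ ∫⁻ _ in (Eset L)ᶜ, ENNReal.ofReal (19 / 20) ∂μ :=
            setLIntegral_mono measurable_const fun x hx => nu_sec_le_of_not_E hc hx
        _ = ENNReal.ofReal (19 / 20) * μ (Eset L)ᶜ := by rw [setLIntegral_const]
  have h2 := hm.trans h1
  rw [prob_compl_eq_one_sub mE] at h2
  have hβ1 : μ (Eset L) ≠ ⊤ := measure_ne_top _ _
  have hle : (μ (Eset L)).toReal ≤ 1 := by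
    have := ENNReal.toReal_mono (by simp) (prob_le_one (μ := μ) (s := Eset L))
    simpa using this
  have h3 : (39 / 40 : ℝ) ≤ (μ (Eset L)).toReal + 19 / 20 * (1 - (μ (Eset L)).toReal) := by
    have := ENNReal.toReal_mono (by finiteness) h2
    rw [ENNReal.toReal_ofReal (by norm_num), ENNReal.toReal_add hβ1 (by finiteness),
      ENNReal.toReal_mul, ENNReal.toReal_ofReal (by norm_num),
      ENNReal.toReal_sub_of_le prob_le_one (by simp)] at this
    simpa using this
  rw [← ENNReal.ofReal_toReal hβ1]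
  apply ENNReal.ofReal_le_ofReal
  linarith

/-- **The measure inequality.** -/
theorem core_ineq {L : Set (X × ℝ)} (hL : IsCompact L) (hc : Convex ℝ L) {μ : Measure X}
    [IsProbabilityMeasure μ] (hLC : LogConcave μ) {h : ℝ} (h0 : 0 < h) (h1 : h ≤ 1 / 20)
    (hm : ENNReal.ofReal (39 / 40) ≤ (μ.prod nu) L) :
    (μ.prod nu) L ≤ (μ.prod nu) (Tset L h) := by
  have hβ := Eset_large hL hc hm
  set E := Eset L with hE
  set A := Thick L h with hA
  have mE : MeasurableSet E := (isClosed_Eset hL).measurableSet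
  have mA : MeasurableSet A := (isCompact_Thick hL h).measurableSet
  have mL : MeasurableSet L := hL.measurableSet
  have mT : MeasurableSet (Tset L h) := (isClosed_Tset hL h).measurableSet
  have hEA : E ⊆ A := by
    intro y hy
    have hs1 : (1:ℝ) ∈ sec L y := hy.1
    have hs2 : (-1:ℝ) ∈ sec L y := hy.2
    have hconv := (convex_sec hc y).ordConnected.out hs2 hs1
    refine ⟨-h, hconv ⟨by linarith, by linarith⟩, hconv ⟨by linarith, by linarith⟩⟩
  have mW := measurable_Wfun (X := X) hL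
  -- the two integrals of the weight
  set A1 := ∫⁻ x in Aᶜ, Wfun L x ∂μ with hA1
  set A2 := ∫⁻ x in A \ E, Wfun L x ∂μ with hA2
  have hdecomp : ∫⁻ x in Eᶜ, Wfun L x ∂μ = A1 + A2 := by
    have e : Eᶜ = Aᶜ ∪ (A \ E) := by
      ext x
      by_cases h2 : x ∈ A <;> by_cases h3 : x ∈ E <;> simp [h2, h3]
      exact h2 (hEA h3)
    rw [e, lintegral_union (mA.diff mE) ?_]
    rw [Set.disjoint_left]
    intro x hx hx2
    exact hx hx2.1
  have hlayer : A1 ≤ ENNReal.ofReal (2 * h) * (A1 + A2) := by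
    rw [← hdecomp, hA1, lintegral_Wfun hL μ mA.compl, lintegral_Wfun hL μ mE.compl,
      ← lintegral_const_mul' _ _ ENNReal.ofReal_ne_top]
    refine setLIntegral_mono' measurableSet_Ioi fun τ hτ => ?_
    have := thin_le hL hc hLC h0 h1 hβ (τ := τ) (le_of_lt hτ)
    calc ENNReal.ofReal (τ * phi τ) * μ (Aᶜ ∩ Cset L τ)
        ≤ ENNReal.ofReal (τ * phi τ) * (ENNReal.ofReal (2 * h) * μ (Eᶜ ∩ Cset L τ)) := by gcongr
      _ = ENNReal.ofReal (2 * h) * (ENNReal.ofReal (τ * phi τ) * μ (Eᶜ ∩ Cset L τ)) := by ring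
  have hfin : ∀ Z : Set X, ∫⁻ x in Z, Wfun L x ∂μ ≠ ⊤ := by
    intro Z
    have : ∫⁻ x in Z, Wfun L x ∂μ ≤ ∫⁻ _ in Z, ENNReal.ofReal (phi 0) ∂μ :=
      lintegral_mono fun x => Wfun_le_const L x
    refine ne_top_of_le_ne_top ?_ this
    rw [setLIntegral_const]
    exact ENNReal.mul_ne_top ENNReal.ofReal_ne_top (measure_ne_top _ _)
  have hA1f : A1 ≠ ⊤ := hfin _
  have hA2f : A2 ≠ ⊤ := hfin _
  -- conclusion on weights
  have hweights : ENNReal.ofReal (2 * h) * A1 ≤ ENNReal.ofReal (2 / 5 * h) * A2 := by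
    have h3 : A1.toReal ≤ 2 * h * (A1.toReal + A2.toReal) := by
      have := ENNReal.toReal_mono (by finiteness) hlayer
      rwa [ENNReal.toReal_mul, ENNReal.toReal_add hA1f hA2f,
        ENNReal.toReal_ofReal (by positivity)] at this
    have h4 : 0 ≤ A1.toReal := ENNReal.toReal_nonneg
    have h5 : 0 ≤ A2.toReal := ENNReal.toReal_nonneg
    have h6 : A1.toReal ≤ 3 * h * A2.toReal := by
      have h7 : (1 - 2 * h) * A1.toReal ≤ 2 * h * A2.toReal := by linarith
      have h8 : 2 * h ≤ 3 * h * (1 - 2 * h) := by nlinarith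
      have h9 : 0 < 1 - 2 * h := by linarith
      by_contra hcon
      push Not at hcon
      have h10 : (1 - 2 * h) * (3 * h * A2.toReal) < (1 - 2 * h) * A1.toReal :=
        mul_lt_mul_of_pos_left hcon h9
      have h11 : 2 * h * A2.toReal ≤ 3 * h * (1 - 2 * h) * A2.toReal :=
        mul_le_mul_of_nonneg_right h8 h5
      nlinarith
    rw [← ENNReal.toReal_le_toReal (by finiteness) (by finiteness), ENNReal.toReal_mul,
      ENNReal.toReal_mul, ENNReal.toReal_ofReal (by positivity), ENNReal.toReal_ofReal (by positivity)]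
    have h12 : 6 * h ≤ 2 / 5 := by linarith
    calc 2 * h * A1.toReal ≤ 2 * h * (3 * h * A2.toReal) := by
          apply mul_le_mul_of_nonneg_left h6 (by positivity)
      _ = (6 * h) * (h * A2.toReal) := by ring
      _ ≤ (2 / 5) * (h * A2.toReal) := by
          apply mul_le_mul_of_nonneg_right h12 (by positivity)
      _ = 2 / 5 * h * A2.toReal := by ring
  -- now integrate the section estimates
  rw [Measure.prod_apply mL, Measure.prod_apply mT]
  have mp : Measurable fun x => nu (Prod.mk x ⁻¹' L) := measurable_measure_prodMk_left mL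
  have mq : Measurable fun x => nu (Prod.mk x ⁻¹' (Tset L h)) := measurable_measure_prodMk_left mT
  have hthin : ∫⁻ x in Aᶜ, nu (Prod.mk x ⁻¹' L) ∂μ ≤ ENNReal.ofReal (2 * h) * A1 := by
    rw [hA1, ← lintegral_const_mul _ mW]
    exact setLIntegral_mono' mA.compl fun x hx => nu_thin hL hc h0 hx
  have hthick : ∫⁻ x in A, nu (Prod.mk x ⁻¹' L) ∂μ + ENNReal.ofReal (2 / 5 * h) * A2 ≤
      ∫⁻ x in A, nu (Prod.mk x ⁻¹' (Tset L h)) ∂μ := by
    have e2 : ENNReal.ofReal (2 / 5 * h) * A2 =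
        ∫⁻ x in A, Eᶜ.indicator (fun x => ENNReal.ofReal (2 / 5 * h) * Wfun L x) x ∂μ := by
      rw [lintegral_indicator mE.compl, hA2, ← lintegral_const_mul _ mW,
        Measure.restrict_restrict mE.compl]
      congr 2
      ext x
      simp [and_comm]
    rw [e2, ← lintegral_add_left mp]
    refine setLIntegral_mono' mA fun x hx => ?_
    by_cases hxE : x ∈ E
    · rw [indicator_of_notMem (by simpa using hxE), add_zero]
      exact nu_thick_mono hL hc h0 hx
    · rw [indicator_of_mem (by simpa using hxE)]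
      exact nu_thick_gain hL hc h0 h1 hx hxE
  calc ∫⁻ x, nu (Prod.mk x ⁻¹' L) ∂μ
      = ∫⁻ x in A, nu (Prod.mk x ⁻¹' L) ∂μ + ∫⁻ x in Aᶜ, nu (Prod.mk x ⁻¹' L) ∂μ :=
        (lintegral_add_compl _ mA).symm
    _ ≤ ∫⁻ x in A, nu (Prod.mk x ⁻¹' L) ∂μ + ENNReal.ofReal (2 / 5 * h) * A2 := by
        gcongr
        exact hthin.trans hweights
    _ ≤ ∫⁻ x in A, nu (Prod.mk x ⁻¹' (Tset L h)) ∂μ := hthick
    _ ≤ ∫⁻ x, nu (Prod.mk x ⁻¹' (Tset L h)) ∂μ := setLIntegral_le_lintegral _ _

end Vale.Agent.Lib.P262.Ban
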