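import Vale.Agent.Lib.P262.Main

namespace Vale.Agent.Lib.P262

theorem exists_map_of_perm {α β : Type*} [DecidableEq β] (f : α → β) (l : List α) :
    ∀ l' : List β, l'.Perm (l.map f) → ∃ l'' : List α, l''.Perm l ∧ l''.map f = l' := by
  induction l with
  | nil =>
    intro l' h
    simp only [List.map_nil, List.perm_nil] at h
    exact ⟨[], List.Perm.refl _, by simp [h]⟩
  | cons x xs ih =>
    intro l' h
    rw [List.map_cons] at h
    have hmem : f x ∈ l' := h.symm.subset List.mem_cons_self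
    obtain ⟨s, t, rfl⟩ := List.append_of_mem hmem
    have h2 : (s ++ t).Perm (xs.map f) := by
      have h3 : (f x :: (s ++ t)).Perm (f x :: xs.map f) :=
        (List.perm_middle.symm).trans h
      exact List.Perm.cons_inv h3
    obtain ⟨l2, h4, h5⟩ := ih _ h2
    obtain ⟨s', t', rfl, rfl, rfl⟩ := List.map_eq_append_iff.mp h5
    refine ⟨s' ++ x :: t', ?_, by simp⟩
    exact List.perm_middle.trans (List.Perm.cons _ h4)

theorem exists_perm_of_perm_ofFn {β : Type*} [DecidableEq β] {N : ℕ} (v : Fin N → β) (l' : List β)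
    (h : l'.Perm (List.ofFn v)) : ∃ π : Equiv.Perm (Fin N), l' = List.ofFn (v ∘ π) := by
  classical
  rw [List.ofFn_eq_map] at h
  obtain ⟨idx, h1, h2⟩ := exists_map_of_perm v (List.finRange N) l' h
  have hlen : idx.length = N := by
    rw [h1.length_eq, List.length_finRange]
  have hnd : idx.Nodup := h1.nodup_iff.mpr (List.nodup_finRange N)
  let g : Fin N → Fin N := fun i => idx[i.val]'(by rw [hlen]; exact i.isLt)
  have hinj : Function.Injective g := by
    intro a b hab
    simp only [g] at hab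
    have := (List.Nodup.getElem_inj_iff hnd).mp hab
    exact Fin.ext this
  have hbij : Function.Bijective g := Finite.injective_iff_bijective.mp hinj
  refine ⟨Equiv.ofBijective g hbij, ?_⟩
  rw [← h2]
  apply List.ext_getElem
  · simp [hlen]
  · intro i h3 h4
    simp [g]

/-- The final bound, for all dimensions. -/
theorem main_bound {C : ℝ} (hC : BanaszczykOrdering C) (d N : ℕ)
    (v : Fin N → EuclideanSpace ℝ (Fin d)) (h1 : ∀ i, ‖v i‖ ≤ 1) (h0 : ∑ i, v i = 0) :
    ∃ π : Equiv.Perm (Fin N), ∀ m : ℕ, m ≤ N →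
      ‖∑ i ∈ Finset.univ.filter (fun i : Fin N => i.val < m), v (π i)‖
        ≤ KC C * Real.sqrt (d * Real.log ((d : ℝ) + 2)) := by
  classical
  by_cases hd : d = 0
  · subst hd
    refine ⟨1, fun m _ => ?_⟩
    have : ∀ x : EuclideanSpace ℝ (Fin 0), x = 0 := fun x => by
      ext i
      exact i.elim0
    rw [this (∑ i ∈ Finset.univ.filter (fun i : Fin N => i.val < m), v ((1 : Equiv.Perm (Fin N)) i))]
    simp
  · have hd1 : 1 ≤ d := Nat.pos_of_ne_zero hd
    have hl1 : ∀ x ∈ List.ofFn v, ‖x‖ ≤ 1 := by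
      intro x hx
      obtain ⟨i, rfl⟩ := (List.mem_ofFn' v x).mp hx
      exact h1 i
    have hl0 : (List.ofFn v).sum = 0 := by
      rw [List.sum_ofFn, h0]
    obtain ⟨l', hp, hb⟩ := ord_fixed hC hd1 N (List.ofFn v) (by simp) hl1 hl0
    obtain ⟨π, hπ⟩ := exists_perm_of_perm_ofFn v l' hp
    refine ⟨π, fun m _ => ?_⟩
    have h2 := hb m
    rw [hπ, sum_take_ofFn] at h2
    exact le_trans h2 (B0_le hC.nonneg d hd1)

end Vale.Agent.Lib.P262
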