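import Vale.Agent.Lib.P262.BanChob
import Vale.Agent.Lib.P262.Final

/-!
The ordering bound of Banaszczyk (2012) in the form used by the self-reduction, now proved;
hence the unconditional Steinitz bound in Euclidean space.
-/

set_option linter.unusedSectionVars false
set_option linter.deprecated false

namespace Vale.Agent.Lib.P262.Ban

lemma log_two_ge : (1 / 4 : ℝ) ≤ Real.log 2 := by
  have := Real.log_two_gt_d9
  linarith

lemma sqrt_log_ge (N : ℕ) : (1 / 2 : ℝ) ≤ Real.sqrt (Real.log ((N : ℝ) + 2)) := by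
  have h1 : Real.log 2 ≤ Real.log ((N : ℝ) + 2) :=
    Real.log_le_log (by norm_num) (by
      have : (0:ℝ) ≤ N := Nat.cast_nonneg N
      linarith)
  have h2 := log_two_ge
  rw [show (1 / 2 : ℝ) = Real.sqrt ((1 / 2) ^ 2) by
    rw [Real.sqrt_sq (by norm_num)]]
  apply Real.sqrt_le_sqrt
  norm_num at h2 ⊢
  linarith

lemma rad_bound (d N : ℕ) :
    20 * rad d N + 1 ≤ 122 * (Real.sqrt d + Real.sqrt (Real.log ((N : ℝ) + 2))) := by
  have hN0 : (0:ℝ) ≤ N := Nat.cast_nonneg N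
  set a : ℝ := (d : ℝ) / 2 * Real.log 2 with ha
  set b : ℝ := Real.log (40 * ((N : ℝ) + 1)) with hb
  set q : ℝ := Real.log ((N : ℝ) + 2) with hq
  have hlog2 : Real.log 2 ≤ 1 := by
    have := Real.log_two_lt_d9
    linarith
  have hlog2' : 0 ≤ Real.log 2 := Real.log_nonneg (by norm_num)
  have hd0 : (0:ℝ) ≤ d := Nat.cast_nonneg d
  have ha0 : 0 ≤ a := by positivity
  have had : a ≤ d := by
    rw [ha]
    nlinarith
  have hq2 : Real.log 2 ≤ q := Real.log_le_log (by norm_num) (by linarith)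
  have hb0 : 0 ≤ b := by
    apply Real.log_nonneg
    linarith
  have hb9 : b ≤ 9 * q := by
    have h1 : Real.log (40 * ((N : ℝ) + 1)) ≤ Real.log (256 * ((N : ℝ) + 2)) :=
      Real.log_le_log (by positivity) (by nlinarith)
    have h2 : Real.log (256 * ((N : ℝ) + 2)) = Real.log 256 + q := by
      rw [Real.log_mul (by norm_num) (by positivity)]
    have h3 : Real.log 256 = 8 * Real.log 2 := by
      rw [show (256:ℝ) = 2 ^ 8 by norm_num, Real.log_pow]
      norm_num
    rw [hb]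
    linarith
  have hq0 : 0 ≤ q := by linarith
  have s1 : Real.sqrt (a + b) ≤ Real.sqrt a + Real.sqrt b := by
    rw [Real.sqrt_le_left (by positivity)]
    have h1 := Real.sq_sqrt ha0
    have h2 := Real.sq_sqrt hb0
    nlinarith [Real.sqrt_nonneg a, Real.sqrt_nonneg b, mul_nonneg (Real.sqrt_nonneg a) (Real.sqrt_nonneg b)]
  have s2 : Real.sqrt a ≤ Real.sqrt d := Real.sqrt_le_sqrt had
  have s3 : Real.sqrt b ≤ 3 * Real.sqrt q := by
    have h1 : Real.sqrt b ≤ Real.sqrt (9 * q) := Real.sqrt_le_sqrt hb9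
    have h2 : Real.sqrt (9 * q) = 3 * Real.sqrt q := by
      rw [Real.sqrt_mul (by norm_num), show (9:ℝ) = 3 ^ 2 by norm_num, Real.sqrt_sq (by norm_num)]
    linarith
  have s4 := sqrt_log_ge N
  have s5 : 0 ≤ Real.sqrt (d : ℝ) := Real.sqrt_nonneg _
  unfold rad
  rw [← ha, ← hb]
  have s6 : 0 ≤ Real.sqrt q := Real.sqrt_nonneg _
  rw [← hq] at s4
  linarith

/-- The ordering bound of Banaszczyk (2012), with the explicit constant `122`. -/
theorem banaszczyk_ordering : Vale.Agent.Lib.P262.BanaszczykOrdering 122 := by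
  intro k N v h1 h0
  have hl1 : ∀ x ∈ List.ofFn v, ‖x‖ ≤ 1 := by
    intro x hx
    obtain ⟨i, rfl⟩ := (List.mem_ofFn' v x).mp hx
    exact h1 i
  have hl0 : (List.ofFn v).sum = 0 := by
    rw [List.sum_ofFn, h0]
  obtain ⟨l', hp, hb⟩ := exists_order (List.ofFn v) hl1 hl0
  obtain ⟨π, hπ⟩ := Vale.Agent.Lib.P262.exists_perm_of_perm_ofFn v l' hp
  refine ⟨π, fun m _ => ?_⟩
  have h2 := hb m
  rw [hπ, Vale.Agent.Lib.P262.sum_take_ofFn, List.length_ofFn] at h2
  exact h2.trans (rad_bound k N)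

/-- The Euclidean Steinitz bound `S₂(d) = O(√(d log d))`, unconditionally. -/
theorem steinitz_bound (d N : ℕ) (v : Fin N → EuclideanSpace ℝ (Fin d))
    (h1 : ∀ i, ‖v i‖ ≤ 1) (h0 : ∑ i, v i = 0) :
    ∃ π : Equiv.Perm (Fin N), ∀ m : ℕ, m ≤ N →
      ‖∑ i ∈ Finset.univ.filter (fun i : Fin N => i.val < m), v (π i)‖
        ≤ Vale.Agent.Lib.P262.KC 122 * Real.sqrt (d * Real.log ((d : ℝ) + 2)) :=
  Vale.Agent.Lib.P262.main_bound banaszczyk_ordering d N v h1 h0

end Vale.Agent.Lib.P262.Ban
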