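import Vale.Agent.Lib.P262.BanTE

/-!
Iterating the body construction; the signs; the bound on signed partial sums.
-/

open MeasureTheory Set ProbabilityTheory
open scoped ENNReal

set_option linter.unusedSectionVars false
set_option linter.deprecated false

namespace Vale.Agent.Lib.P262.Ban

variable {d : ℕ}

/-- The bodies, from the last vector of the list to the first. -/
def Lset (K : Set (Eu d)) : List (Eu d) → Set (Eu d)
  | [] => K
  | u :: us => TE (Lset K us) u ∩ K

lemma Lset_compact {K : Set (Eu d)} (hK : IsCompact K) : ∀ l : List (Eu d), IsCompact (Lset K l)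
  | [] => hK
  | u :: us => hK.inter_left (isClosed_TE (Lset_compact hK us) u)

lemma Lset_convex {K : Set (Eu d)} (hK : IsCompact K) (hc : Convex ℝ K) :
    ∀ l : List (Eu d), Convex ℝ (Lset K l)
  | [] => hc
  | u :: us => (convex_TE (Lset_compact hK us) (Lset_convex hK hc us) u).inter hc

lemma Lset_symm {K : Set (Eu d)} (hs : ∀ z ∈ K, -z ∈ K) :
    ∀ l : List (Eu d), ∀ z ∈ Lset K l, -z ∈ Lset K l
  | [] => hs
  | u :: us => fun z hz => ⟨TE_symm (Lset_symm hs us) u z hz.1, hs z hz.2⟩

lemma Lset_measure {K : Set (Eu d)} (hK : IsCompact K) (hc : Convex ℝ K) {δ : ℝ} (hδ : 0 ≤ δ)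
    (hout : gm d Kᶜ ≤ ENNReal.ofReal δ) :
    ∀ l : List (Eu d), (∀ u ∈ l, ‖u‖ ≤ 1 / 20) → ((l.length : ℝ) + 1) * δ ≤ 1 / 40 →
      1 - ((l.length : ℝ) + 1) * δ ≤ (gm d (Lset K l)).toReal
  | [], _, _ => by
    have mK : MeasurableSet K := hK.measurableSet
    have h1 := prob_compl_eq_one_sub (μ := gm d) mK
    have h2 : (gm d Kᶜ).toReal ≤ δ := by
      have := ENNReal.toReal_mono ENNReal.ofReal_ne_top hout
      rwa [ENNReal.toReal_ofReal hδ] at this
    have h3 : (gm d Kᶜ).toReal = 1 - (gm d K).toReal := by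
      rw [h1, ENNReal.toReal_sub_of_le prob_le_one (by simp)]
      simp
    simp only [List.length_nil, Nat.cast_zero, zero_add, one_mul, Lset]
    linarith
  | u :: us, hu, hlen => by
    have hu1 : ‖u‖ ≤ 1 / 20 := hu u List.mem_cons_self
    have hus : ∀ v ∈ us, ‖v‖ ≤ 1 / 20 := fun v hv => hu v (List.mem_cons_of_mem _ hv)
    simp only [List.length_cons, Nat.cast_add, Nat.cast_one] at hlen ⊢
    have hlen' : ((us.length : ℝ) + 1) * δ ≤ 1 / 40 := by nlinarith
    have ih := Lset_measure hK hc hδ hout us hus hlen'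
    set A := Lset K us with hA
    have hAc : IsCompact A := Lset_compact hK us
    have hAconv : Convex ℝ A := Lset_convex hK hc us
    have h39 : ENNReal.ofReal (39 / 40) ≤ gm d A := by
      rw [← ENNReal.ofReal_toReal (measure_ne_top (gm d) A)]
      apply ENNReal.ofReal_le_ofReal
      linarith
    have hge := gm_TE_ge hAc hAconv hu1 h39
    set T := TE A u with hT
    have mK : MeasurableSet K := hK.measurableSet
    have hsplit := measure_inter_add_diff (μ := gm d) T mK
    have hdiff : gm d (T \ K) ≤ ENNReal.ofReal δ :=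
      (measure_mono (fun x hx => hx.2)).trans hout
    have h4 : (gm d A).toReal ≤ (gm d T).toReal := ENNReal.toReal_mono (measure_ne_top _ _) hge
    have h5 : (gm d T).toReal = (gm d (T ∩ K)).toReal + (gm d (T \ K)).toReal := by
      rw [← hsplit, ENNReal.toReal_add (measure_ne_top _ _) (measure_ne_top _ _)]
    have h6 : (gm d (T \ K)).toReal ≤ δ := by
      have := ENNReal.toReal_mono ENNReal.ofReal_ne_top hdiff
      rwa [ENNReal.toReal_ofReal hδ] at this
    have e : Lset K (u :: us) = T ∩ K := rfl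
    rw [e]
    nlinarith

lemma zero_mem_Lset {K : Set (Eu d)} (hK : IsCompact K) (hc : Convex ℝ K)
    (hs : ∀ z ∈ K, -z ∈ K) {δ : ℝ} (hδ : 0 ≤ δ) (hout : gm d Kᶜ ≤ ENNReal.ofReal δ)
    (l : List (Eu d)) (hu : ∀ u ∈ l, ‖u‖ ≤ 1 / 20) (hlen : ((l.length : ℝ) + 1) * δ ≤ 1 / 40) :
    (0 : Eu d) ∈ Lset K l := by
  have h1 := Lset_measure hK hc hδ hout l hu hlen
  have hne : (Lset K l).Nonempty := by
    by_contra hcon
    rw [not_nonempty_iff_eq_empty] at hcon
    rw [hcon] at h1
    simp at h1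
    linarith
  obtain ⟨z, hz⟩ := hne
  have hz2 := Lset_symm hs l z hz
  have := (Lset_convex hK hc l) hz hz2 (a := 1 / 2) (b := 1 / 2) (by norm_num) (by norm_num)
    (by norm_num)
  have e : (1 / 2 : ℝ) • z + (1 / 2 : ℝ) • (-z) = 0 := by
    rw [smul_neg]; abel
  rwa [e] at this

/-- The sign attached to a boolean. -/
def sg (b : Bool) : ℝ := if b then 1 else -1

lemma sg_abs (b : Bool) : |sg b| = 1 := by
  cases b <;> simp [sg]

/-- The signed sum of a list of pairs. -/
noncomputable def sgsum (ps : List (Bool × Eu d)) : Eu d :=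
  (ps.map fun p => sg p.1 • p.2).sum

lemma signs_of_mem {K : Set (Eu d)} :
    ∀ (l : List (Eu d)) (z : Eu d), z ∈ Lset K l →
      ∃ ps : List (Bool × Eu d), ps.map Prod.snd = l ∧ ∀ k, z + sgsum (ps.take k) ∈ K
  | [], z, hz => ⟨[], rfl, fun k => by
      have hz' : z ∈ K := hz
      simpa [sgsum] using hz'⟩
  | u :: us, z, hz => by
    obtain ⟨⟨_, h1⟩, hzK⟩ := hz
    have main : ∀ b : Bool, z + sg b • u ∈ Lset K us →
        ∃ ps : List (Bool × Eu d), ps.map Prod.snd = u :: us ∧ ∀ k, z + sgsum (ps.take k) ∈ K := by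
      intro b hb
      obtain ⟨ps, hps, hk⟩ := signs_of_mem us _ hb
      refine ⟨(b, u) :: ps, by simp [hps], fun k => ?_⟩
      cases k with
      | zero => simpa [sgsum] using hzK
      | succ k =>
        have := hk k
        have e : z + sgsum (((b, u) :: ps).take (k + 1)) = z + sg b • u + sgsum (ps.take k) := by
          simp [sgsum, List.take_succ_cons, add_assoc]
        rw [e]
        exact this
    rcases h1 with h1 | h1
    · apply main false
      have e : z + sg false • u = z - u := by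
        simp [sg, sub_eq_add_neg]
      rwa [e]
    · apply main true
      have e : z + sg true • u = z + u := by
        simp [sg]
      rwa [e]

/-- The radius used for `N` vectors in dimension `d`. -/
noncomputable def rad (d N : ℕ) : ℝ :=
  2 * Real.sqrt ((d : ℝ) / 2 * Real.log 2 + Real.log (40 * ((N : ℝ) + 1)))

lemma rad_aux_nonneg (d N : ℕ) : 0 ≤ (d : ℝ) / 2 * Real.log 2 + Real.log (40 * ((N : ℝ) + 1)) := by
  have h1 : 0 ≤ Real.log 2 := Real.log_nonneg (by norm_num)
  have h2 : 0 ≤ Real.log (40 * ((N : ℝ) + 1)) := by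
    apply Real.log_nonneg
    have : (0:ℝ) ≤ N := Nat.cast_nonneg N
    linarith
  positivity

lemma rad_nonneg (d N : ℕ) : 0 ≤ rad d N := by
  unfold rad
  positivity

lemma tail_rad (d N : ℕ) :
    (2:ℝ) ^ ((d : ℝ) / 2) * Real.exp (-(rad d N) ^ 2 / 4) = 1 / (40 * ((N : ℝ) + 1)) := by
  have hN : (0:ℝ) < 40 * ((N : ℝ) + 1) := by positivity
  have e : (rad d N) ^ 2 = 4 * ((d : ℝ) / 2 * Real.log 2 + Real.log (40 * ((N : ℝ) + 1))) := by
    unfold rad
    rw [mul_pow, Real.sq_sqrt (rad_aux_nonneg d N)]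
    norm_num
  rw [e]
  have e2 : -(4 * ((d : ℝ) / 2 * Real.log 2 + Real.log (40 * ((N : ℝ) + 1)))) / 4 =
      -((d : ℝ) / 2 * Real.log 2) + -Real.log (40 * ((N : ℝ) + 1)) := by ring
  rw [e2, Real.exp_add, Real.exp_neg (Real.log _), Real.exp_log hN, ← mul_assoc]
  have e3 : (2:ℝ) ^ ((d : ℝ) / 2) * Real.exp (-((d : ℝ) / 2 * Real.log 2)) = 1 := by
    rw [Real.rpow_def_of_pos (by norm_num), ← Real.exp_add]
    have : Real.log 2 * ((d : ℝ) / 2) + -((d : ℝ) / 2 * Real.log 2) = 0 := by ring
    rw [this, Real.exp_zero]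
  rw [e3]
  simp

/-- **Signed series bound**, scaled: signs for the list `l` of vectors in the unit ball. -/
theorem exists_signs (l : List (Eu d)) (h : ∀ v ∈ l, ‖v‖ ≤ 1) :
    ∃ ps : List (Bool × Eu d), ps.map Prod.snd = l ∧
      ∀ k, ‖sgsum (ps.take k)‖ ≤ 20 * rad d l.length := by
  classical
  set N := l.length with hN
  set r := rad d N with hr
  have hr0 : 0 ≤ r := rad_nonneg d N
  set K : Set (Eu d) := Metric.closedBall 0 r with hKdef
  have hK : IsCompact K := isCompact_closedBall 0 r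
  have hc : Convex ℝ K := convex_closedBall 0 r
  have hs : ∀ z ∈ K, -z ∈ K := by
    intro z hz
    simpa [hKdef] using hz
  set δ : ℝ := 1 / (40 * ((N : ℝ) + 1)) with hδdef
  have hNpos : (0:ℝ) < (N : ℝ) + 1 := by positivity
  have hδ : 0 ≤ δ := by positivity
  have hout : gm d Kᶜ ≤ ENNReal.ofReal δ := by
    have := gm_compl_ball d r hr0
    rwa [hr, tail_rad] at this
  set l0 : List (Eu d) := l.map fun v => (1 / 20 : ℝ) • v with hl0
  have hl0len : l0.length = N := by simp [hl0, hN]
  have hu : ∀ u ∈ l0, ‖u‖ ≤ 1 / 20 := by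
    intro u hu
    obtain ⟨v, hv, rfl⟩ := List.mem_map.mp hu
    rw [norm_smul]
    have := h v hv
    norm_num
    linarith
  have hlen : ((l0.length : ℝ) + 1) * δ ≤ 1 / 40 := by
    rw [hl0len, hδdef]
    apply le_of_eq
    field_simp
  have h0 := zero_mem_Lset hK hc hs hδ hout l0 hu hlen
  obtain ⟨ps, hps, hk⟩ := signs_of_mem l0 0 h0
  refine ⟨ps.map fun p => (p.1, (20:ℝ) • p.2), ?_, fun k => ?_⟩
  · rw [List.map_map]
    have : (Prod.snd ∘ fun p : Bool × Eu d => (p.1, (20:ℝ) • p.2)) =
        (fun v : Eu d => (20:ℝ) • v) ∘ Prod.snd := rfl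
    rw [this, ← List.map_map, hps, hl0, List.map_map]
    convert List.map_id l using 2
    funext v
    simp [smul_smul]
  · have hscale : ∀ qs : List (Bool × Eu d),
        sgsum (qs.map fun p => (p.1, (20:ℝ) • p.2)) = (20:ℝ) • sgsum qs := by
      intro qs
      induction qs with
      | nil => simp [sgsum]
      | cons q qs ih =>
        simp only [sgsum, List.map_cons, List.sum_cons] at ih ⊢
        rw [ih, smul_add, smul_comm]
    rw [← List.map_take, hscale, norm_smul]
    have := hk k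
    simp only [zero_add, hKdef, mem_closedBall_zero_iff] at this
    norm_num
    linarith

end Vale.Agent.Lib.P262.Ban
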