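import Vale.Agent.Lib.P262.BanSec

/-!
Measurability of the sets and the layer-cake weight `W`.
-/

open MeasureTheory Set ProbabilityTheory
open scoped ENNReal

set_option linter.unusedSectionVars false
set_option linter.deprecated false

namespace Vale.Agent.Lib.P262.Ban

variable {X : Type*} [NormedAddCommGroup X] [NormedSpace ℝ X]

lemma isCompact_Thick {L : Set (X × ℝ)} (hL : IsCompact L) (h : ℝ) : IsCompact (Thick L h) := by
  have e : Thick L h = Prod.fst '' (L ∩ (fun p : X × ℝ => (p.1, p.2 + 2 * h)) ⁻¹' L) := by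
    ext x
    constructor
    · rintro ⟨s, h1, h2⟩
      exact ⟨(x, s), ⟨h1, h2⟩, rfl⟩
    · rintro ⟨⟨y, s⟩, ⟨h1, h2⟩, rfl⟩
      exact ⟨s, h1, h2⟩
  rw [e]
  refine (hL.inter_right (hL.isClosed.preimage ?_)).image continuous_fst
  fun_prop

lemma isCompact_Cset {L : Set (X × ℝ)} (hL : IsCompact L) (τ : ℝ) : IsCompact (Cset L τ) := by
  have e : Cset L τ = Prod.fst '' (L ∩ {p : X × ℝ | |p.2| ≤ τ}) := by
    ext x
    constructor
    · rintro ⟨t, h1, h2⟩
      exact ⟨(x, t), ⟨h1, h2⟩, rfl⟩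
    · rintro ⟨⟨y, s⟩, ⟨h1, h2⟩, rfl⟩
      exact ⟨s, h1, h2⟩
  rw [e]
  refine (hL.inter_right (isClosed_le ?_ ?_)).image continuous_fst
  · fun_prop
  · fun_prop

lemma isClosed_Eset {L : Set (X × ℝ)} (hL : IsCompact L) : IsClosed (Eset L) := by
  have e : Eset L = (fun x : X => (x, (1:ℝ))) ⁻¹' L ∩ (fun x : X => (x, (-1:ℝ))) ⁻¹' L := rfl
  rw [e]
  refine (hL.isClosed.preimage ?_).inter (hL.isClosed.preimage ?_)
  · fun_prop
  · fun_prop

lemma isClosed_Tset {L : Set (X × ℝ)} (hL : IsCompact L) (h : ℝ) : IsClosed (Tset L h) := by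
  have e : Tset L h = (Prod.fst ⁻¹' Thick L h) ∩
      ((fun p : X × ℝ => (p.1, p.2 - h)) ⁻¹' L ∪ (fun p : X × ℝ => (p.1, p.2 + h)) ⁻¹' L) := rfl
  rw [e]
  refine ((isCompact_Thick hL h).isClosed.preimage continuous_fst).inter
    ((hL.isClosed.preimage ?_).union (hL.isClosed.preimage ?_))
  · fun_prop
  · fun_prop

section Meas

variable [MeasurableSpace X] [BorelSpace X] [SecondCountableTopology X]

/-- The joint set of pairs `(x, τ)` with `x ∈ Cset L τ`. -/
def Jset (L : Set (X × ℝ)) : Set (X × ℝ) := {p | p.1 ∈ Cset L p.2}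

lemma measurableSet_Jset {L : Set (X × ℝ)} (hL : IsCompact L) : MeasurableSet (Jset L) := by
  have e : Jset L = ⋃ M : ℕ, (fun q : (X × ℝ) × ℝ => (q.1.1, q.2)) ''
      ((L ×ˢ Icc (0:ℝ) M) ∩ {q : (X × ℝ) × ℝ | |q.1.2| ≤ q.2}) := by
    ext ⟨x, τ⟩
    simp only [Jset, Cset, mem_setOf_eq, mem_iUnion, mem_image, mem_inter_iff, mem_prod, mem_Icc,
      Prod.mk.injEq, Prod.exists]
    constructor
    · rintro ⟨t, h1, h2⟩
      obtain ⟨M, hM⟩ := exists_nat_ge τ
      exact ⟨M, x, t, τ, ⟨⟨h1, (abs_nonneg t).trans h2, hM⟩, h2⟩, rfl, rfl⟩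
    · rintro ⟨M, y, t, s, ⟨⟨h1, _, _⟩, h2⟩, rfl, rfl⟩
      exact ⟨t, h1, h2⟩
  rw [e]
  refine MeasurableSet.iUnion fun M => ?_
  apply IsCompact.measurableSet
  refine IsCompact.image ?_ (by fun_prop)
  refine (hL.prod isCompact_Icc).inter_right (isClosed_le ?_ ?_)
  · fun_prop
  · fun_prop

open Classical in
/-- The layer-cake weight. -/
noncomputable def Wfun (L : Set (X × ℝ)) (x : X) : ℝ≥0∞ :=
  ∫⁻ τ in Ioi (0:ℝ), (Jset L).indicator (fun p => ENNReal.ofReal (p.2 * phi p.2)) (x, τ)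

lemma measurable_kernel {L : Set (X × ℝ)} (hL : IsCompact L) :
    Measurable (fun p : X × ℝ => (Jset L).indicator (fun p => ENNReal.ofReal (p.2 * phi p.2)) p) := by
  refine Measurable.indicator ?_ (measurableSet_Jset hL)
  have : Continuous fun p : X × ℝ => ENNReal.ofReal (p.2 * phi p.2) :=
    ENNReal.continuous_ofReal.comp (continuous_snd.mul (continuous_phi.comp continuous_snd))
  exact this.measurable

lemma measurable_Wfun {L : Set (X × ℝ)} (hL : IsCompact L) : Measurable (Wfun L) :=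
  (measurable_kernel hL).lintegral_prod_right'

/-- Layer cake formula. -/
lemma lintegral_Wfun {L : Set (X × ℝ)} (hL : IsCompact L) (μ : Measure X) [SFinite μ]
    {Z : Set X} (hZ : MeasurableSet Z) :
    ∫⁻ x in Z, Wfun L x ∂μ =
      ∫⁻ τ in Ioi (0:ℝ), ENNReal.ofReal (τ * phi τ) * μ (Z ∩ Cset L τ) := by
  unfold Wfun
  rw [lintegral_lintegral_swap]
  · refine lintegral_congr fun τ => ?_
    have hC : MeasurableSet (Cset L τ) := (isCompact_Cset hL τ).measurableSet
    have : ∀ x : X, (Jset L).indicator (fun p => ENNReal.ofReal (p.2 * phi p.2)) (x, τ) =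
        (Cset L τ).indicator (fun _ => ENNReal.ofReal (τ * phi τ)) x := by
      intro x
      by_cases hx : x ∈ Cset L τ
      · have : (x, τ) ∈ Jset L := hx
        simp [indicator_of_mem, hx, this]
      · have : (x, τ) ∉ Jset L := hx
        simp [indicator_of_notMem, hx, this]
    simp_rw [this]
    rw [lintegral_indicator hC, setLIntegral_const, Measure.restrict_apply hC, inter_comm]
  · exact ((measurable_kernel hL).comp measurable_id).aemeasurable

lemma Wfun_lower {L : Set (X × ℝ)} {x : X} {s : ℝ} (hs : s ∈ sec L x) :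
    ENNReal.ofReal (phi s) ≤ Wfun L x := by
  have h0 : 0 ≤ |s| := abs_nonneg s
  calc ENNReal.ofReal (phi s) = ENNReal.ofReal (phi |s|) := by rw [phi_abs]
    _ = ∫⁻ τ in Ioi |s|, ENNReal.ofReal (τ * phi τ) := (tail_integral h0).symm
    _ = ∫⁻ τ in Ioi |s|, (Jset L).indicator (fun p => ENNReal.ofReal (p.2 * phi p.2)) (x, τ) := by
        refine setLIntegral_congr_fun measurableSet_Ioi fun τ hτ => ?_
        have : (x, τ) ∈ Jset L := ⟨s, hs, le_of_lt hτ⟩
        simp [indicator_of_mem, this]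
    _ ≤ Wfun L x := by
        unfold Wfun
        exact lintegral_mono_set (Ioi_subset_Ioi h0)

lemma Wfun_upper {L : Set (X × ℝ)} {x : X} {s : ℝ}
    (hs : ∀ τ, x ∈ Cset L τ → |s| ≤ τ) : Wfun L x ≤ ENNReal.ofReal (phi s) := by
  have h0 : 0 ≤ |s| := abs_nonneg s
  calc Wfun L x
      ≤ ∫⁻ τ in Ioi (0:ℝ), (Ici |s|).indicator (fun τ => ENNReal.ofReal (τ * phi τ)) τ := by
        unfold Wfun
        refine lintegral_mono fun τ => ?_
        by_cases hτ : (x, τ) ∈ Jset L
        · have : τ ∈ Ici |s| := hs τ hτ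
          simp [indicator_of_mem, hτ, this]
        · simp [indicator_of_notMem, hτ]
    _ ≤ ∫⁻ τ, (Ici |s|).indicator (fun τ => ENNReal.ofReal (τ * phi τ)) τ :=
        setLIntegral_le_lintegral _ _
    _ = ∫⁻ τ in Ici |s|, ENNReal.ofReal (τ * phi τ) := lintegral_indicator measurableSet_Ici _
    _ = ∫⁻ τ in Ioi |s|, ENNReal.ofReal (τ * phi τ) := (setLIntegral_congr Ioi_ae_eq_Ici).symm
    _ = ENNReal.ofReal (phi |s|) := tail_integral h0
    _ = ENNReal.ofReal (phi s) := by rw [phi_abs]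

lemma Wfun_le_const (L : Set (X × ℝ)) (x : X) : Wfun L x ≤ ENNReal.ofReal (phi 0) := by
  calc Wfun L x ≤ ∫⁻ τ in Ioi (0:ℝ), ENNReal.ofReal (τ * phi τ) := by
        unfold Wfun
        refine lintegral_mono fun τ => ?_
        exact indicator_le_self _ _ _
    _ = ENNReal.ofReal (phi 0) := tail_integral le_rfl

end Meas

end Vale.Agent.Lib.P262.Ban
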