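import Mathlib

/-!
One dimensional facts on the standard Gaussian used in the elementary proof of the
Euclidean signed series bound.
-/

open MeasureTheory Set ProbabilityTheory
open scoped ENNReal

namespace Vale.Agent.Lib.P262.Ban

/-- The standard Gaussian density. -/
noncomputable def phi (t : ℝ) : ℝ := gaussianPDFReal 0 1 t

/-- The standard Gaussian measure on the line. -/
noncomputable abbrev nu : Measure ℝ := gaussianReal 0 1

lemma phi_eq (t : ℝ) : phi t = (Real.sqrt (2 * Real.pi))⁻¹ * Real.exp (-t ^ 2 / 2) := by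
  simp [phi, gaussianPDFReal]

lemma phi_pos (t : ℝ) : 0 < phi t := by
  rw [phi_eq]
  have : 0 < Real.sqrt (2 * Real.pi) := Real.sqrt_pos.mpr (by positivity)
  positivity

lemma phi_neg (t : ℝ) : phi (-t) = phi t := by
  simp [phi_eq]

lemma phi_abs (t : ℝ) : phi |t| = phi t := by
  simp [phi_eq, sq_abs]

lemma continuous_phi : Continuous phi := by
  have : phi = fun t => (Real.sqrt (2 * Real.pi))⁻¹ * Real.exp (-t ^ 2 / 2) := funext phi_eq
  rw [this]
  fun_prop

lemma nu_apply (S : Set ℝ) : nu S = ∫⁻ t in S, ENNReal.ofReal (phi t) := by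
  rw [gaussianReal_apply 0 (by norm_num) S]
  rfl

lemma phi_ratio (s t : ℝ) : phi t = phi s * Real.exp ((s ^ 2 - t ^ 2) / 2) := by
  rw [phi_eq, phi_eq, mul_assoc, ← Real.exp_add]
  congr 2
  ring

lemma hasDerivAt_phi (t : ℝ) : HasDerivAt (fun τ => -phi τ) (t * phi t) t := by
  have h1 : HasDerivAt (fun τ : ℝ => -τ ^ 2 / 2) (-t) t := by
    have h := ((hasDerivAt_pow 2 t).neg).div_const 2
    refine h.congr_deriv ?_
    simp
    ring
  have h2 : HasDerivAt (fun τ : ℝ => Real.exp (-τ ^ 2 / 2)) (Real.exp (-t ^ 2 / 2) * -t) t :=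
    h1.exp
  have h3 : HasDerivAt (fun τ : ℝ => -((Real.sqrt (2 * Real.pi))⁻¹ * Real.exp (-τ ^ 2 / 2)))
      (-((Real.sqrt (2 * Real.pi))⁻¹ * (Real.exp (-t ^ 2 / 2) * -t))) t :=
    (h2.const_mul ((Real.sqrt (2 * Real.pi))⁻¹)).fun_neg
  have e : (fun τ => -phi τ) = fun τ => -((Real.sqrt (2 * Real.pi))⁻¹ * Real.exp (-τ ^ 2 / 2)) := by
    funext τ
    rw [phi_eq]
  rw [e]
  refine h3.congr_deriv ?_
  rw [phi_eq]
  ring

lemma tendsto_phi_atTop : Filter.Tendsto phi Filter.atTop (nhds 0) := by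
  have h : Filter.Tendsto (fun t : ℝ => -t ^ 2 / 2) Filter.atTop Filter.atBot := by
    have h1 : Filter.Tendsto (fun t : ℝ => t ^ 2 / 2) Filter.atTop Filter.atTop :=
      (Filter.tendsto_pow_atTop (by norm_num)).atTop_div_const (by norm_num)
    have h2 := Filter.tendsto_neg_atTop_atBot.comp h1
    refine h2.congr fun t => ?_
    simp [Function.comp]
    ring
  have h2 := Real.tendsto_exp_atBot.comp h
  have h3 := h2.const_mul ((Real.sqrt (2 * Real.pi))⁻¹)
  simp only [mul_zero] at h3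
  refine h3.congr fun t => ?_
  simp [phi_eq]

lemma integrable_mul_phi : Integrable (fun t : ℝ => t * phi t) := by
  have h := (integrable_mul_exp_neg_mul_sq (b := 1 / 2) (by norm_num)).const_mul
    ((Real.sqrt (2 * Real.pi))⁻¹)
  refine h.congr (Filter.Eventually.of_forall fun t => ?_)
  simp only [phi_eq]
  have : -(1 / 2 : ℝ) * t ^ 2 = -t ^ 2 / 2 := by ring
  simp only [this]
  ring

/-- The layer-cake kernel: the tail integral of `τ φ(τ)` is `φ(c)`. -/
lemma tail_integral {c : ℝ} (hc : 0 ≤ c) :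
    ∫⁻ τ in Ioi c, ENNReal.ofReal (τ * phi τ) = ENNReal.ofReal (phi c) := by
  have hint : IntegrableOn (fun t : ℝ => t * phi t) (Ioi c) := integrable_mul_phi.integrableOn
  have h1 : ∫ τ in Ioi c, τ * phi τ = 0 - (-phi c) := by
    refine integral_Ioi_of_hasDerivAt_of_tendsto (f := fun τ => -phi τ) ?_ ?_ hint ?_
    · exact (continuous_phi.neg).continuousAt.continuousWithinAt
    · intro x _
      exact hasDerivAt_phi x
    · simpa using tendsto_phi_atTop.neg
  have h2 : 0 ≤ᵐ[volume.restrict (Ioi c)] fun τ : ℝ => τ * phi τ := by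
    filter_upwards [ae_restrict_mem measurableSet_Ioi] with τ hτ
    have : 0 < τ := lt_of_le_of_lt hc hτ
    exact mul_nonneg this.le (phi_pos τ).le
  rw [← ofReal_integral_eq_lintegral_ofReal hint h2, h1]
  simp

/-- Comparison of the density on the left extension of an interval. -/
lemma phi_compare_left {a h s t : ℝ} (ha : -1 < a) (h0 : 0 ≤ h) (h1 : h ≤ 1 / 20)
    (ht1 : a - h ≤ t) (ht2 : t ≤ a) (hs : a ≤ s) : 2 / 5 * phi s ≤ phi t := by
  have key : t ^ 2 ≤ s ^ 2 + (1 + h) ^ 2 := by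
    by_cases htn : 0 ≤ t
    · have : t ^ 2 ≤ s ^ 2 := by
        apply pow_le_pow_left₀ htn (by linarith)
      nlinarith [sq_nonneg (1 + h)]
    · push Not at htn
      have h3 : t ^ 2 ≤ (1 + h) ^ 2 := by
        nlinarith
      nlinarith [sq_nonneg s]
  rw [phi_ratio s t, mul_comm (2 / 5 : ℝ)]
  apply mul_le_mul_of_nonneg_left _ (phi_pos s).le
  have h4 : 1 + (s ^ 2 - t ^ 2) / 2 ≤ Real.exp ((s ^ 2 - t ^ 2) / 2) := by
    have := Real.add_one_le_exp ((s ^ 2 - t ^ 2) / 2)
    linarith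
  have h5 : (1 + h) ^ 2 ≤ (21 / 20 : ℝ) ^ 2 := by
    apply pow_le_pow_left₀ (by linarith) (by linarith)
  nlinarith

/-- Comparison of the density on the right extension of an interval. -/
lemma phi_compare_right {b h s t : ℝ} (hb : b < 1) (h0 : 0 ≤ h) (h1 : h ≤ 1 / 20)
    (ht1 : b ≤ t) (ht2 : t ≤ b + h) (hs : s ≤ b) : 2 / 5 * phi s ≤ phi t := by
  have := phi_compare_left (a := -b) (h := h) (s := -s) (t := -t) (by linarith) h0 h1
    (by linarith) (by linarith) (by linarith)
  simpa [phi_neg] using this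

/-- Upper bound of the measure of a set from a pointwise bound on the density. -/
lemma nu_le_mul_volume {S : Set ℝ} {W : ℝ≥0∞}
    (h : ∀ t ∈ S, ENNReal.ofReal (phi t) ≤ W) : nu S ≤ W * volume S := by
  rw [nu_apply]
  calc ∫⁻ t in S, ENNReal.ofReal (phi t) ≤ ∫⁻ _ in S, W :=
        setLIntegral_mono measurable_const h
    _ = W * volume S := by rw [setLIntegral_const]

/-- Lower bound of the measure of a set from a pointwise bound on the density. -/
lemma mul_volume_le_nu {S : Set ℝ} {W : ℝ≥0∞}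
    (h : ∀ t ∈ S, W ≤ ENNReal.ofReal (phi t)) : W * volume S ≤ nu S := by
  rw [nu_apply]
  calc W * volume S = ∫⁻ _ in S, W := by rw [setLIntegral_const]
    _ ≤ ∫⁻ t in S, ENNReal.ofReal (phi t) :=
        setLIntegral_mono (by
          have : Continuous fun t => ENNReal.ofReal (phi t) :=
            ENNReal.continuous_ofReal.comp continuous_phi
          exact this.measurable) h

lemma phi_two_lower : (1 / 20 : ℝ) ≤ phi 2 := by
  rw [phi_eq]
  have hpi : Real.pi < 3.15 := Real.pi_lt_d2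
  have h1 : Real.sqrt (2 * Real.pi) ≤ 13 / 5 := by
    rw [show (13 / 5 : ℝ) = Real.sqrt ((13 / 5) ^ 2) by
      rw [Real.sqrt_sq (by norm_num)]]
    apply Real.sqrt_le_sqrt
    nlinarith
  have h0 : 0 < Real.sqrt (2 * Real.pi) := Real.sqrt_pos.mpr (by positivity)
  have h2 : Real.exp 2 ≤ 15 / 2 := by
    have h3 : Real.exp 1 < 2.7182818286 := Real.exp_one_lt_d9
    have h4 : Real.exp 2 = Real.exp 1 * Real.exp 1 := by
      rw [← Real.exp_add]; norm_num
    rw [h4]
    have h5 : 0 < Real.exp 1 := Real.exp_pos 1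
    nlinarith
  have h3 : Real.exp (-(2:ℝ) ^ 2 / 2) = (Real.exp 2)⁻¹ := by
    rw [← Real.exp_neg]; norm_num
  rw [h3, ← mul_inv]
  have h4 : 0 < Real.exp 2 := Real.exp_pos 2
  have h5 : Real.sqrt (2 * Real.pi) * Real.exp 2 ≤ 20 := by
    calc _ ≤ (13 / 5 : ℝ) * (15 / 2) := by
          apply mul_le_mul h1 h2 h4.le (by norm_num)
      _ ≤ 20 := by norm_num
  rw [show (1 / 20 : ℝ) = (20 : ℝ)⁻¹ by norm_num]
  exact inv_anti₀ (by positivity) h5

lemma phi_anti_nonneg {s t : ℝ} (hs : 0 ≤ s) (hst : s ≤ t) : phi t ≤ phi s := by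
  rw [phi_eq, phi_eq]
  have h0 : 0 < Real.sqrt (2 * Real.pi) := Real.sqrt_pos.mpr (by positivity)
  apply mul_le_mul_of_nonneg_left _ (by positivity)
  apply Real.exp_le_exp.mpr
  have : s ^ 2 ≤ t ^ 2 := pow_le_pow_left₀ hs hst 2
  linarith

lemma nu_Icc_one_two : ENNReal.ofReal (1 / 20) ≤ nu (Icc 1 2) := by
  have h := mul_volume_le_nu (S := Icc (1:ℝ) 2) (W := ENNReal.ofReal (1 / 20))
    (fun t ht => by
      apply ENNReal.ofReal_le_ofReal
      exact phi_two_lower.trans (phi_anti_nonneg (by linarith [ht.1]) ht.2))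
  have h2 : volume (Icc (1:ℝ) 2) = 1 := by
    rw [Real.volume_Icc]; norm_num
  rwa [h2, mul_one] at h

lemma nu_Icc_neg : ENNReal.ofReal (1 / 20) ≤ nu (Icc (-2) (-1)) := by
  have h := mul_volume_le_nu (S := Icc (-2:ℝ) (-1)) (W := ENNReal.ofReal (1 / 20))
    (fun t ht => by
      apply ENNReal.ofReal_le_ofReal
      rw [← phi_neg t]
      exact phi_two_lower.trans (phi_anti_nonneg (by linarith [ht.2]) (by linarith [ht.1])))
  have h2 : volume (Icc (-2:ℝ) (-1)) = 1 := by
    rw [Real.volume_Icc]; norm_num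
  rwa [h2, mul_one] at h

end Vale.Agent.Lib.P262.Ban
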