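import Vale.Agent.Lib.P262.BanGauss

/-!
Rotating a given direction to the last coordinate: the Gaussian measure on `Eu (n+1)` is the
product of the Gaussian measures on `Eu n` and on the line, and the body `TE L u` corresponds
to `Tset`.
-/

open MeasureTheory Set ProbabilityTheory
open scoped ENNReal

set_option linter.unusedSectionVars false
set_option linter.deprecated false

namespace Vale.Agent.Lib.P262.Ban

variable {n : ℕ}

/-- Coordinates adapted to an orthonormal basis: the first basis vector goes to the line. -/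
noncomputable def Psi (b : OrthonormalBasis (Fin (n + 1)) ℝ (Eu (n + 1))) (z : Eu (n + 1)) :
    Eu n × ℝ :=
  (WithLp.toLp 2 (fun i : Fin n => b.repr z i.succ), b.repr z 0)

lemma Psi_add (b : OrthonormalBasis (Fin (n + 1)) ℝ (Eu (n + 1))) (z w : Eu (n + 1)) :
    Psi b (z + w) = Psi b z + Psi b w := by
  unfold Psi
  ext i <;> simp

lemma Psi_smul (b : OrthonormalBasis (Fin (n + 1)) ℝ (Eu (n + 1))) (c : ℝ) (z : Eu (n + 1)) :
    Psi b (c • z) = c • Psi b z := by
  unfold Psi
  ext i <;> simp

lemma Psi_isLinear (b : OrthonormalBasis (Fin (n + 1)) ℝ (Eu (n + 1))) :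
    IsLinearMap ℝ (Psi b) := ⟨Psi_add b, Psi_smul b⟩

lemma Psi_continuous (b : OrthonormalBasis (Fin (n + 1)) ℝ (Eu (n + 1))) :
    Continuous (Psi b) := by
  have h : Continuous fun z : Eu (n + 1) => b.repr z := b.repr.continuous
  unfold Psi
  refine Continuous.prodMk ?_ ?_
  · refine (PiLp.continuous_toLp 2 _).comp ?_
    refine continuous_pi fun i => ?_
    exact (PiLp.continuous_apply 2 _ i.succ).comp h
  · exact (PiLp.continuous_apply 2 _ 0).comp h

lemma Psi_injective (b : OrthonormalBasis (Fin (n + 1)) ℝ (Eu (n + 1))) :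
    Function.Injective (Psi b) := by
  intro z w h
  apply b.repr.injective
  ext i
  refine Fin.cases ?_ (fun j => ?_) i
  · exact congrArg Prod.snd h
  · have := congrArg (fun p : Eu n × ℝ => p.1 j) h
    simpa [Psi] using this

lemma norm_sq_Psi (b : OrthonormalBasis (Fin (n + 1)) ℝ (Eu (n + 1))) (z : Eu (n + 1)) :
    ‖z‖ ^ 2 = ‖(Psi b z).1‖ ^ 2 + (Psi b z).2 ^ 2 := by
  have h1 : ‖z‖ = ‖b.repr z‖ := (b.repr.norm_map z).symm
  rw [h1, EuclideanSpace.norm_sq_eq, Fin.sum_univ_succ]
  simp only [Psi]
  rw [EuclideanSpace.norm_sq_eq]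
  simp only [Real.norm_eq_abs, sq_abs]
  ring

lemma Psi_volume (b : OrthonormalBasis (Fin (n + 1)) ℝ (Eu (n + 1))) :
    MeasurePreserving (Psi b) volume ((volume : Measure (Eu n)).prod (volume : Measure ℝ)) := by
  have h1 := b.measurePreserving_repr
  have h2 := PiLp.volume_preserving_ofLp (Fin (n + 1))
  have h3 := volume_preserving_piFinSuccAbove (fun _ : Fin (n + 1) => ℝ) 0
  have h4 := Measure.measurePreserving_swap (μ := (volume : Measure ℝ))
    (ν := (volume : Measure (Fin n → ℝ)))
  have h5 := (PiLp.volume_preserving_toLp (Fin n)).prod (MeasurePreserving.id (volume : Measure ℝ))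
  have h3' : MeasurePreserving (MeasurableEquiv.piFinSuccAbove (fun _ : Fin (n + 1) => ℝ) 0)
      (volume : Measure (Fin (n + 1) → ℝ)) ((volume : Measure ℝ).prod (volume : Measure (Fin n → ℝ))) := h3
  have h := h5.comp (h4.comp (h3'.comp (h2.comp h1)))
  convert h using 1
  funext z
  simp only [Psi, Function.comp_apply]
  rfl

/-- The coordinates transport the Gaussian measure to the product measure. -/
theorem Psi_gm (b : OrthonormalBasis (Fin (n + 1)) ℝ (Eu (n + 1))) {S : Set (Eu n × ℝ)}
    (hS : MeasurableSet S) : gm (n + 1) (Psi b ⁻¹' S) = ((gm n).prod nu) S := by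
  have hP := Psi_volume b
  have hν : nu = (volume : Measure ℝ).withDensity (gaussianPDF 0 1) :=
    gaussianReal_of_var_ne_zero 0 (by norm_num)
  have mD : Measurable fun p : Eu n × ℝ => dens n p.1 * gaussianPDF 0 1 p.2 :=
    ((measurable_dens n).comp measurable_fst).mul
      ((measurable_gaussianPDF 0 1).comp measurable_snd)
  have hprod : (gm n).prod nu =
      ((volume : Measure (Eu n)).prod (volume : Measure ℝ)).withDensity
        (fun p => dens n p.1 * gaussianPDF 0 1 p.2) := by
    rw [hν]
    unfold gm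
    exact prod_withDensity (measurable_dens n) (measurable_gaussianPDF 0 1)
  have hdens : ∀ z : Eu (n + 1), dens (n + 1) z =
      dens n (Psi b z).1 * gaussianPDF 0 1 (Psi b z).2 := by
    intro z
    unfold dens gaussianPDF
    rw [← ENNReal.ofReal_mul (by have := cst_pos n; positivity)]
    congr 1
    have h0 := phi_eq (Psi b z).2
    have h1 : gaussianPDFReal 0 1 (Psi b z).2 = phi (Psi b z).2 := rfl
    rw [h1, h0, norm_sq_Psi b z]
    have e : cst (n + 1) = cst n * (Real.sqrt (2 * Real.pi))⁻¹ := by
      unfold cst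
      rw [pow_succ]
    rw [e]
    have e2 : Real.exp (-(‖(Psi b z).1‖ ^ 2 + (Psi b z).2 ^ 2) / 2) =
        Real.exp (-‖(Psi b z).1‖ ^ 2 / 2) * Real.exp (-(Psi b z).2 ^ 2 / 2) := by
      rw [← Real.exp_add]
      congr 1
      ring
    rw [e2]
    ring
  rw [hprod, withDensity_apply _ hS]
  unfold gm
  rw [withDensity_apply _ (hP.measurable hS)]
  simp_rw [hdens]
  exact hP.setLIntegral_comp_preimage hS mD

end Vale.Agent.Lib.P262.Ban
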