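import Vale.Agent.Lib.P262.BanOneD

/-!
Sets attached to a compact convex body in `X × ℝ`: sections, thick part, the body `T`.
-/

open MeasureTheory Set ProbabilityTheory
open scoped ENNReal

set_option linter.unusedSectionVars false
set_option linter.deprecated false

namespace Vale.Agent.Lib.P262.Ban

variable {X : Type*} [NormedAddCommGroup X] [NormedSpace ℝ X]

/-- The vertical section of `L` over `x`. -/
def sec (L : Set (X × ℝ)) (x : X) : Set ℝ := {t | (x, t) ∈ L}

/-- Points over which the section contains `[-1, 1]`. -/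
def Eset (L : Set (X × ℝ)) : Set X := {x | (x, (1:ℝ)) ∈ L ∧ (x, (-1:ℝ)) ∈ L}

/-- Points over which the section has length at least `2 h`. -/
def Thick (L : Set (X × ℝ)) (h : ℝ) : Set X := {x | ∃ s : ℝ, (x, s) ∈ L ∧ (x, s + 2 * h) ∈ L}

/-- Points over which the section comes within distance `τ` of zero. -/
def Cset (L : Set (X × ℝ)) (τ : ℝ) : Set X := {x | ∃ t : ℝ, (x, t) ∈ L ∧ |t| ≤ τ}

/-- The new body: over the thick part, the union of the two vertical shifts of `L` by `h`. -/
def Tset (L : Set (X × ℝ)) (h : ℝ) : Set (X × ℝ) :=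
  {p | p.1 ∈ Thick L h ∧ ((p.1, p.2 - h) ∈ L ∨ (p.1, p.2 + h) ∈ L)}

lemma convex_sec {L : Set (X × ℝ)} (hL : Convex ℝ L) (x : X) : Convex ℝ (sec L x) := by
  intro s hs t ht a b ha hb hab
  have := hL hs ht ha hb hab
  simp only [Prod.smul_mk, Prod.mk_add_mk, smul_eq_mul] at this
  have e : a • x + b • x = x := by
    rw [← add_smul, hab, one_smul]
  rw [e] at this
  exact this

lemma isCompact_sec {L : Set (X × ℝ)} (hL : IsCompact L) (x : X) : IsCompact (sec L x) := by
  have : sec L x = Prod.snd '' (L ∩ (Prod.fst ⁻¹' {x})) := by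
    ext t
    simp only [sec, mem_setOf_eq, mem_image, mem_inter_iff, mem_preimage, mem_singleton_iff,
      Prod.exists, exists_eq_right]
  rw [this]
  refine (hL.inter_right (isClosed_singleton.preimage continuous_fst)).image continuous_snd

/-- A nonempty section of a compact convex set is a compact interval. -/
lemma sec_eq_Icc {L : Set (X × ℝ)} (hL : IsCompact L) (hc : Convex ℝ L) {x : X}
    (hne : (sec L x).Nonempty) : ∃ a b : ℝ, a ≤ b ∧ sec L x = Icc a b := by
  have h1 := isCompact_sec hL x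
  have h2 := convex_sec hc x
  have h3 : IsConnected (sec L x) := ⟨hne, h2.isPreconnected⟩
  refine ⟨sInf (sec L x), sSup (sec L x), ?_, eq_Icc_of_connected_compact h3 h1⟩
  exact Real.sInf_le_sSup _ h1.bddBelow h1.bddAbove

lemma mem_thick_of_Icc {L : Set (X × ℝ)} {x : X} {a b h : ℝ} (hs : sec L x = Icc a b)
    (hx : x ∈ Thick L h) : 2 * h ≤ b - a := by
  obtain ⟨s, h1, h2⟩ := hx
  have h3 : s ∈ sec L x := h1
  have h4 : s + 2 * h ∈ sec L x := h2
  rw [hs] at h3 h4
  linarith [h3.1, h4.2]

lemma thick_of_Icc {L : Set (X × ℝ)} {x : X} {a b h : ℝ} (h0 : 0 ≤ h) (hs : sec L x = Icc a b)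
    (hab : 2 * h ≤ b - a) : x ∈ Thick L h := by
  refine ⟨a, ?_, ?_⟩
  · have : a ∈ sec L x := by rw [hs]; exact ⟨le_rfl, by linarith⟩
    exact this
  · have : a + 2 * h ∈ sec L x := by rw [hs]; exact ⟨by linarith, by linarith⟩
    exact this

/-- Over the thick part, the section of `T` contains the widened interval. -/
lemma Icc_subset_sec_T {L : Set (X × ℝ)} {x : X} {a b h : ℝ} (hs : sec L x = Icc a b)
    (hx : x ∈ Thick L h) : Icc (a - h) (b + h) ⊆ sec (Tset L h) x := by
  intro t ht
  have hab := mem_thick_of_Icc hs hx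
  refine ⟨hx, ?_⟩
  by_cases h1 : t + h ≤ b
  · right
    have : t + h ∈ sec L x := by rw [hs]; exact ⟨by linarith [ht.1], h1⟩
    exact this
  · left
    push Not at h1
    have : t - h ∈ sec L x := by rw [hs]; exact ⟨by linarith, by linarith [ht.2]⟩
    exact this

lemma sec_T_empty {L : Set (X × ℝ)} {x : X} {h : ℝ} (hx : x ∉ Thick L h) :
    sec (Tset L h) x = ∅ := by
  ext t
  simp only [sec, Tset, mem_setOf_eq, mem_empty_iff_false, iff_false, not_and]
  intro h1
  exact absurd h1 hx

/-- `T` is convex. -/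
lemma convex_Tset {L : Set (X × ℝ)} (hL : Convex ℝ L) {h : ℝ} (h0 : 0 ≤ h) :
    Convex ℝ (Tset L h) := by
  -- first describe `T` by one shift and a thick witness
  have key : ∀ p : X × ℝ, p ∈ Tset L h ↔ p.1 ∈ Thick L h ∧ ∃ r : ℝ, (p.1, r) ∈ L ∧ |p.2 - r| ≤ h := by
    intro p
    constructor
    · rintro ⟨h1, h2 | h2⟩
      · exact ⟨h1, _, h2, by simp [abs_of_nonneg h0]⟩
      · exact ⟨h1, _, h2, by simp [abs_of_nonneg h0]⟩
    · rintro ⟨⟨s, hs1, hs2⟩, r, hr, hr2⟩
      refine ⟨⟨s, hs1, hs2⟩, ?_⟩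
      rw [abs_le] at hr2
      have conv := convex_sec hL p.1
      have m1 : s ∈ sec L p.1 := hs1
      have m2 : s + 2 * h ∈ sec L p.1 := hs2
      have m3 : r ∈ sec L p.1 := hr
      -- the section contains the convex hull of `r, s, s + 2h`
      have ord : ∀ {A B C : ℝ}, A ∈ sec L p.1 → B ∈ sec L p.1 → A ≤ C → C ≤ B → C ∈ sec L p.1 :=
        fun {A B C} hA hB h1 h2 => conv.ordConnected.out hA hB ⟨h1, h2⟩
      by_cases c1 : min r s ≤ p.2 - h
      · left
        have hr3 : p.2 - h ≤ r := by linarith [hr2.2]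
        rcases le_total r s with c2 | c2
        · rw [min_eq_left c2] at c1
          have : p.2 - h = r := le_antisymm hr3 c1
          rw [this]
          exact m3
        · rw [min_eq_right c2] at c1
          exact ord m1 m3 c1 hr3
      · push Not at c1
        right
        have h5 : min r s ≤ s := min_le_right _ _
        exact ord m3 m2 (by linarith [hr2.1]) (by linarith)
  intro p hp q hq a b ha hb hab
  rw [key] at hp hq ⊢
  obtain ⟨⟨s1, hs1, hs1'⟩, r1, hr1, hr1'⟩ := hp
  obtain ⟨⟨s2, hs2, hs2'⟩, r2, hr2, hr2'⟩ := hq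
  have comb : ∀ u v : ℝ, (p.1, u) ∈ L → (q.1, v) ∈ L →
      ((a • p + b • q).1, a * u + b * v) ∈ L := by
    intro u v hu hv
    have := hL hu hv ha hb hab
    simpa using this
  refine ⟨⟨a * s1 + b * s2, comb _ _ hs1 hs2, ?_⟩, a * r1 + b * r2, comb _ _ hr1 hr2, ?_⟩
  · have := comb _ _ hs1' hs2'
    have e : a * (s1 + 2 * h) + b * (s2 + 2 * h) = a * s1 + b * s2 + 2 * h := by
      have : a * (2 * h) + b * (2 * h) = 2 * h := by
        rw [← add_mul, hab, one_mul]
      linarith [this]
    rwa [e] at this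
  · have e : (a • p + b • q).2 - (a * r1 + b * r2) = a * (p.2 - r1) + b * (q.2 - r2) := by
      simp
      ring
    rw [e]
    calc |a * (p.2 - r1) + b * (q.2 - r2)| ≤ |a * (p.2 - r1)| + |b * (q.2 - r2)| := abs_add_le _ _
      _ = a * |p.2 - r1| + b * |q.2 - r2| := by
          rw [abs_mul, abs_mul, abs_of_nonneg ha, abs_of_nonneg hb]
      _ ≤ a * h + b * h := by
          gcongr
      _ = h := by rw [← add_mul, hab, one_mul]

end Vale.Agent.Lib.P262.Ban
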