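import Vale.Agent.Lib.P262.BanRot

/-!
The body `TE L u` in Euclidean space, its properties and the measure inequality.
-/

open MeasureTheory Set ProbabilityTheory
open scoped ENNReal

set_option linter.unusedSectionVars false
set_option linter.deprecated false

namespace Vale.Agent.Lib.P262.Ban

variable {d n : ℕ}

/-- Over the chords of direction `u` along which `L` has a sub-chord `y, y + 2 u`,
the union of the shifts of `L` by `u` and `-u`. -/
def TE (L : Set (Eu d)) (u : Eu d) : Set (Eu d) :=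
  {z | (∃ (y : Eu d) (c : ℝ), y ∈ L ∧ y + (2:ℝ) • u ∈ L ∧ z = y + c • u) ∧ (z - u ∈ L ∨ z + u ∈ L)}

lemma TE_zero (L : Set (Eu d)) : TE L 0 = L := by
  ext z
  constructor
  · rintro ⟨_, h | h⟩
    · simpa using h
    · simpa using h
  · intro h
    exact ⟨⟨z, 0, h, by simpa using h, by simp⟩, Or.inl (by simpa using h)⟩

lemma TE_symm {L : Set (Eu d)} (hs : ∀ z ∈ L, -z ∈ L) (u : Eu d) : ∀ z ∈ TE L u, -z ∈ TE L u := by
  rintro z ⟨⟨y, c, h1, h2, rfl⟩, h3⟩
  refine ⟨⟨-(y + (2:ℝ) • u), 2 - c, hs _ h2, ?_, ?_⟩, ?_⟩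
  · have : -(y + (2:ℝ) • u) + (2:ℝ) • u = -y := by abel
    rw [this]
    exact hs _ h1
  · rw [sub_smul]
    abel
  · rcases h3 with h3 | h3
    · right
      have := hs _ h3
      have e : -(y + c • u) + u = -(y + c • u - u) := by abel
      rw [e]
      exact this
    · left
      have := hs _ h3
      have e : -(y + c • u) - u = -(y + c • u + u) := by abel
      rw [e]
      exact this

lemma Psi_basis_zero (b : OrthonormalBasis (Fin (n + 1)) ℝ (Eu (n + 1))) :
    Psi b (b 0) = (0, 1) := by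
  unfold Psi
  rw [b.repr_self]
  ext i
  · simp [Fin.succ_ne_zero]
  · simp

lemma exists_basis {u : Eu (n + 1)} (hu : u ≠ 0) :
    ∃ b : OrthonormalBasis (Fin (n + 1)) ℝ (Eu (n + 1)), b 0 = ‖u‖⁻¹ • u := by
  have hn : ‖‖u‖⁻¹ • u‖ = 1 := norm_smul_inv_norm hu
  have hv : Orthonormal ℝ (({0} : Set (Fin (n + 1))).domRestrict (fun _ => ‖u‖⁻¹ • u)) := by
    constructor
    · rintro ⟨i, hi⟩
      simpa using hn
    · rintro ⟨i, hi⟩ ⟨j, hj⟩ hij
      exfalso
      apply hij
      simp only [mem_singleton_iff] at hi hj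
      subst hi
      subst hj
      rfl
  obtain ⟨b, hb⟩ := Orthonormal.exists_orthonormalBasis_extension_of_card_eq (𝕜 := ℝ)
    (E := Eu (n + 1)) (ι := Fin (n + 1)) (by simp) hv
  exact ⟨b, hb 0 rfl⟩

lemma Psi_u {u : Eu (n + 1)} (hu : u ≠ 0) {b : OrthonormalBasis (Fin (n + 1)) ℝ (Eu (n + 1))}
    (hb : b 0 = ‖u‖⁻¹ • u) : Psi b u = (0, ‖u‖) := by
  have h0 : ‖u‖ ≠ 0 := norm_ne_zero_iff.mpr hu
  have e : u = ‖u‖ • b 0 := by
    rw [hb, smul_smul, mul_inv_cancel₀ h0, one_smul]
  conv_lhs => rw [e]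
  rw [Psi_smul, Psi_basis_zero]
  simp

/-- The body `TE L u` corresponds to `Tset` in adapted coordinates. -/
lemma TE_eq_preimage {L : Set (Eu (n + 1))} {u : Eu (n + 1)} (hu : u ≠ 0)
    {b : OrthonormalBasis (Fin (n + 1)) ℝ (Eu (n + 1))} (hb : b 0 = ‖u‖⁻¹ • u) :
    TE L u = Psi b ⁻¹' (Tset (Psi b '' L) ‖u‖) := by
  have hpu := Psi_u hu hb
  have hh : ‖u‖ ≠ 0 := norm_ne_zero_iff.mpr hu
  have hinj := Psi_injective b
  have shift : ∀ (z : Eu (n + 1)) (c : ℝ), Psi b (z + c • u) = ((Psi b z).1, (Psi b z).2 + c * ‖u‖) := by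
    intro z c
    rw [Psi_add, Psi_smul, hpu]
    ext i <;> simp
  have mem_img : ∀ w : Eu (n + 1), Psi b w ∈ Psi b '' L ↔ w ∈ L := fun w => hinj.mem_set_image
  ext z
  constructor
  · rintro ⟨⟨y, c, h1, h2, rfl⟩, h3⟩
    refine ⟨⟨(Psi b y).2, ?_, ?_⟩, ?_⟩
    · have : (Psi b (y + c • u)).1 = (Psi b y).1 := by rw [shift]
      rw [this]
      exact ⟨y, h1, rfl⟩
    · have e1 : (Psi b (y + c • u)).1 = (Psi b y).1 := by rw [shift]
      rw [e1]
      have := shift y 2
      refine ⟨y + (2:ℝ) • u, h2, this⟩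
    · rcases h3 with h3 | h3
      · left
        have e : y + c • u - u = (y + c • u) + (-1 : ℝ) • u := by
          simp [sub_eq_add_neg]
        have := shift (y + c • u) (-1)
        rw [← e] at this
        refine ⟨_, h3, this.trans ?_⟩
        congr 1
        ring
      · right
        have e : y + c • u + u = (y + c • u) + (1 : ℝ) • u := by simp
        have := shift (y + c • u) 1
        rw [← e] at this
        refine ⟨_, h3, this.trans ?_⟩
        congr 1
        ring
  · rintro ⟨⟨s, ⟨y, h1, h2⟩, ⟨y', h3, h4⟩⟩, h5⟩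
    have hy' : y' = y + (2:ℝ) • u := by
      apply hinj
      rw [h4, shift, h2]
    have hy1 : (Psi b y).1 = (Psi b z).1 := by rw [h2]
    have hy2 : (Psi b y).2 = s := by rw [h2]
    refine ⟨⟨y, ((Psi b z).2 - s) / ‖u‖, h1, hy' ▸ h3, ?_⟩, ?_⟩
    · apply hinj
      rw [shift, hy1, hy2]
      have : s + ((Psi b z).2 - s) / ‖u‖ * ‖u‖ = (Psi b z).2 := by
        field_simp
        ring
      rw [this]
    · rcases h5 with ⟨w, hw, hw2⟩ | ⟨w, hw, hw2⟩
      · left
        have : w = z - u := by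
          apply hinj
          have e : z - u = z + (-1 : ℝ) • u := by simp [sub_eq_add_neg]
          rw [hw2, e, shift]
          congr 1
          ring
        rwa [← this]
      · right
        have : w = z + u := by
          apply hinj
          have e : z + u = z + (1 : ℝ) • u := by simp
          rw [hw2, e, shift]
          congr 1
          ring
        rwa [← this]

lemma Psi_image_compact {L : Set (Eu (n + 1))} (hL : IsCompact L)
    (b : OrthonormalBasis (Fin (n + 1)) ℝ (Eu (n + 1))) : IsCompact (Psi b '' L) :=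
  hL.image (Psi_continuous b)

lemma Psi_image_convex {L : Set (Eu (n + 1))} (hc : Convex ℝ L)
    (b : OrthonormalBasis (Fin (n + 1)) ℝ (Eu (n + 1))) : Convex ℝ (Psi b '' L) :=
  hc.is_linear_image (Psi_isLinear b)

lemma u_eq_zero_of_dim_zero (u : Eu 0) : u = 0 := by
  ext i
  exact i.elim0

/-- `TE L u` is convex. -/
theorem convex_TE {d : ℕ} {L : Set (Eu d)} (hL : IsCompact L) (hc : Convex ℝ L) (u : Eu d) :
    Convex ℝ (TE L u) := by
  by_cases hu : u = 0
  · rw [hu, TE_zero]; exact hc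
  · cases d with
    | zero => exact absurd (u_eq_zero_of_dim_zero u) hu
    | succ n =>
      obtain ⟨b, hb⟩ := exists_basis hu
      rw [TE_eq_preimage hu hb]
      exact (convex_Tset (Psi_image_convex hc b) (norm_nonneg u)).is_linear_preimage (Psi_isLinear b)

/-- `TE L u` is closed. -/
theorem isClosed_TE {d : ℕ} {L : Set (Eu d)} (hL : IsCompact L) (u : Eu d) :
    IsClosed (TE L u) := by
  by_cases hu : u = 0
  · rw [hu, TE_zero]; exact hL.isClosed
  · cases d with
    | zero => exact absurd (u_eq_zero_of_dim_zero u) hu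
    | succ n =>
      obtain ⟨b, hb⟩ := exists_basis hu
      rw [TE_eq_preimage hu hb]
      exact (isClosed_Tset (Psi_image_compact hL b) _).preimage (Psi_continuous b)

/-- **Measure inequality in Euclidean space.** -/
theorem gm_TE_ge {d : ℕ} {L : Set (Eu d)} (hL : IsCompact L) (hc : Convex ℝ L) {u : Eu d}
    (hu1 : ‖u‖ ≤ 1 / 20) (hm : ENNReal.ofReal (39 / 40) ≤ gm d L) :
    gm d L ≤ gm d (TE L u) := by
  by_cases hu : u = 0
  · rw [hu, TE_zero]
  · cases d with
    | zero => exact absurd (u_eq_zero_of_dim_zero u) hu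
    | succ n =>
      obtain ⟨b, hb⟩ := exists_basis hu
      have hcomp := Psi_image_compact hL b
      have hconv := Psi_image_convex hc b
      have hpre : Psi b ⁻¹' (Psi b '' L) = L := preimage_image_eq _ (Psi_injective b)
      have e1 : gm (n + 1) L = ((gm n).prod nu) (Psi b '' L) := by
        rw [← Psi_gm b hcomp.measurableSet, hpre]
      rw [e1] at hm ⊢
      rw [TE_eq_preimage hu hb, Psi_gm b (isClosed_Tset hcomp _).measurableSet]
      exact core_ineq hcomp hconv (gm_logConcave n) (norm_pos_iff.mpr hu) hu1 hm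

end Vale.Agent.Lib.P262.Ban
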