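import Vale.Agent.Lib.P262.Defs

namespace Vale.Agent.Lib.P262

open Module

theorem sum_take_ofFn {A : Type*} [AddCommMonoid A] {n : ℕ} (g : Fin n → A) (m : ℕ) :
    ((List.ofFn g).take m).sum = ∑ i ∈ Finset.univ.filter (fun i : Fin n => i.val < m), g i := by
  induction n generalizing m with
  | zero => simp
  | succ n ih =>
    cases m with
    | zero => simp
    | succ m =>
      rw [List.ofFn_succ, List.take_succ_cons, List.sum_cons, ih]
      rw [Finset.sum_filter, Finset.sum_filter, Fin.sum_univ_succ]
      simp

variable {E : Type*} [NormedAddCommGroup E] [InnerProductSpace ℝ E]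

/-- The hypothesis, transported to labelled lists whose vectors lie in a finite dimensional
subspace. -/
theorem hyp_list {C : ℝ} (hC : BanaszczykOrdering C) (W : Submodule ℝ E) [FiniteDimensional ℝ W]
    {α : Type*} (l : List α) (f : α → E) (hW : ∀ x ∈ l, f x ∈ W) (h1 : ∀ x ∈ l, ‖f x‖ ≤ 1)
    (h0 : (l.map f).sum = 0) :
    ∃ l' : List α, l'.Perm l ∧ ∀ m : ℕ, ‖((l'.take m).map f).sum‖
      ≤ C * (Real.sqrt (finrank ℝ W) + Real.sqrt (Real.log ((l.length : ℝ) + 2))) := by
  classical
  set n := l.length with hn
  let b := stdOrthonormalBasis ℝ W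
  let e := b.repr
  have hmem : ∀ i : Fin n, f l[i.val] ∈ W := fun i => hW _ (List.getElem_mem _)
  let u : Fin n → W := fun i => ⟨f l[i.val], hmem i⟩
  let v : Fin n → EuclideanSpace ℝ (Fin (finrank ℝ W)) := fun i => e (u i)
  have hv1 : ∀ i, ‖v i‖ ≤ 1 := by
    intro i
    have : ‖v i‖ = ‖f l[i.val]‖ := by
      simp only [v, u]
      rw [LinearIsometryEquiv.norm_map]
      rfl
    rw [this]
    exact h1 _ (List.getElem_mem _)
  have hsum : ∀ S : Finset (Fin n), ∑ i ∈ S, v i = e (∑ i ∈ S, u i) := by
    intro S
    simp only [v]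
    rw [map_sum]
  have hl : (List.ofFn (fun i : Fin n => f l[i.val])) = l.map f := by
    apply List.ext_getElem
    · simp [hn]
    · intro i h1 h2
      simp
  have hv0 : ∑ i, v i = 0 := by
    rw [hsum]
    have : ∑ i, u i = 0 := by
      apply Subtype.ext
      rw [Submodule.coe_sum]
      simp only [u]
      rw [← List.sum_ofFn, hl, h0]
      rfl
    rw [this, map_zero]
  obtain ⟨σ, hσ⟩ := hC _ n v hv1 hv0
  refine ⟨List.ofFn (fun i : Fin n => l[(σ i).val]), ?_, ?_⟩
  · have h := Equiv.Perm.ofFn_comp_perm σ (fun i : Fin n => l[i.val])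
    have h2 : List.ofFn (fun i : Fin n => l[i.val]) = l := by
      apply List.ext_getElem
      · simp [hn]
      · intro i h1 h2
        simp
    rw [h2] at h
    exact h
  · have key : ∀ m : ℕ, m ≤ n → ‖((List.ofFn (fun i : Fin n => l[(σ i).val]) |>.take m).map f).sum‖
        ≤ C * (Real.sqrt (finrank ℝ W) + Real.sqrt (Real.log ((n : ℝ) + 2))) := by
      intro m hm
      have h1 := hσ m hm
      have h2 : ‖∑ i ∈ Finset.univ.filter (fun i : Fin n => i.val < m), v (σ i)‖
          = ‖((List.ofFn (fun i : Fin n => l[(σ i).val]) |>.take m).map f).sum‖ := by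
        rw [List.map_take, List.map_ofFn, sum_take_ofFn]
        have h3 : ∀ S : Finset (Fin n), ‖∑ i ∈ S, v (σ i)‖ = ‖∑ i ∈ S, (f ∘ fun i : Fin n => l[(σ i).val]) i‖ := by
          intro S
          have : ∑ i ∈ S, v (σ i) = e (∑ i ∈ S, u (σ i)) := by
            simp only [v]
            rw [map_sum]
          rw [this, LinearIsometryEquiv.norm_map]
          have h4 : ((∑ i ∈ S, u (σ i) : W) : E) = ∑ i ∈ S, (f ∘ fun i : Fin n => l[(σ i).val]) i := by
            rw [Submodule.coe_sum]
            rfl
          rw [← h4]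
          rfl
        exact h3 _
      rw [← h2]
      exact h1
    intro m
    by_cases hm : m ≤ n
    · exact key m hm
    · have := key n le_rfl
      rw [List.take_of_length_le (by simp; omega)]
      rwa [List.take_of_length_le (by simp)] at this


theorem BanaszczykOrdering.nonneg {C : ℝ} (hC : BanaszczykOrdering C) : 0 ≤ C := by
  obtain ⟨π, h⟩ := hC 0 0 (fun i => i.elim0) (fun i => i.elim0) (by simp)
  have h1 := h 0 le_rfl
  simp only [Finset.univ_eq_empty, Finset.filter_empty, Finset.sum_empty, norm_zero,
    CharP.cast_eq_zero, Real.sqrt_zero, zero_add] at h1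
  have h2 : 0 < Real.sqrt (Real.log 2) := by
    apply Real.sqrt_pos.mpr
    apply Real.log_pos
    norm_num
  by_contra hneg
  push Not at hneg
  have := mul_neg_of_neg_of_pos hneg h2
  linarith

/-- Sum of a shifted and scaled family along a list. -/
theorem sum_map_shift {α : Type*} (g : α → E) (a : ℝ) (w : E) (u : List α) :
    (u.map (fun x => a • (g x - w))).sum = a • ((u.map g).sum - (u.length : ℝ) • w) := by
  induction u with
  | nil => simp
  | cons x u ih =>
    simp only [List.map_cons, List.sum_cons, ih, List.length_cons]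
    push_cast
    module

/-- The rotation argument. -/
theorem cycle_lemma {α : Type*} (l : List α) (f : α → E) (h0 : (l.map f).sum = 0) (Q : E) :
    ∃ l' : List α, l'.Perm l ∧ (∀ m : ℕ, inner ℝ Q ((l'.take m).map f).sum ≤ 0) ∧
      ∀ m : ℕ, ∃ x y : ℕ, ((l'.take m).map f).sum = ((l.take x).map f).sum - ((l.take y).map f).sum := by
  classical
  set P : ℕ → E := fun x => ((l.take x).map f).sum with hP
  obtain ⟨r, hr, hmax⟩ := Finset.exists_max_image (Finset.range (l.length + 1))
    (fun x => inner ℝ Q (P x)) ⟨0, by simp⟩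
  have hr' : r ≤ l.length := by simpa [Nat.lt_succ_iff] using hr
  have hmax' : ∀ x, inner ℝ Q (P x) ≤ inner ℝ Q (P r) := by
    intro x
    by_cases hx : x ≤ l.length
    · exact hmax x (by simp; omega)
    · have : P x = P l.length := by
        simp only [hP]
        rw [List.take_of_length_le (by omega), List.take_of_length_le le_rfl]
      rw [this]
      exact hmax _ (by simp)
  have hform : ∀ m : ℕ, ∃ x : ℕ, (((l.drop r ++ l.take r).take m).map f).sum = P x - P r := by
    intro m
    by_cases hm : m ≤ (l.drop r).length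
    · refine ⟨r + m, ?_⟩
      rw [List.take_append_of_le_length hm]
      simp only [hP]
      rw [List.take_add, List.map_append, List.sum_append]
      abel
    · refine ⟨min (m - (l.drop r).length) r, ?_⟩
      push Not at hm
      rw [List.take_append, List.take_of_length_le hm.le, List.map_append, List.sum_append]
      rw [List.take_take]
      have h2 : ((l.drop r).map f).sum = - P r := by
        have h3 : ((l.take r).map f ++ (l.drop r).map f).sum = 0 := by
          rw [← List.map_append, List.take_append_drop, h0]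
        rw [List.sum_append] at h3
        simp only [hP]
        exact eq_neg_of_add_eq_zero_right h3
      rw [h2]
      simp only [hP]
      abel
  refine ⟨l.drop r ++ l.take r, ?_, ?_, ?_⟩
  · exact (List.perm_append_comm).trans (by rw [List.take_append_drop])
  · intro m
    obtain ⟨x, hx⟩ := hform m
    rw [hx, inner_sub_right]
    linarith [hmax' x]
  · intro m
    obtain ⟨x, hx⟩ := hform m
    exact ⟨x, r, hx⟩

/-- A nonempty list of unit-ball vectors in a finite dimensional subspace can be arranged
so that the initial sums stay close to the line through its total and stay on the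
nonpositive side of a given vector `Q`. -/
theorem block_arrange {C : ℝ} (hC : BanaszczykOrdering C) (W : Submodule ℝ E)
    [FiniteDimensional ℝ W] {α : Type*} (l : List α) (g : α → E) (hW : ∀ x ∈ l, g x ∈ W)
    (h1 : ∀ x ∈ l, ‖g x‖ ≤ 1) (hL : 0 < l.length) (Q : E) :
    ∃ l' : List α, l'.Perm l ∧ ∀ m : ℕ, m ≤ l.length →
      inner ℝ Q (((l'.take m).map g).sum - ((m : ℝ) / l.length) • (l.map g).sum) ≤ 0 ∧
      ‖((l'.take m).map g).sum - ((m : ℝ) / l.length) • (l.map g).sum‖
        ≤ 4 * (C * (Real.sqrt (finrank ℝ W) + Real.sqrt (Real.log ((l.length : ℝ) + 2)))) := by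
  classical
  set s := (l.map g).sum with hs
  have hLr : (0 : ℝ) < l.length := by exact_mod_cast hL
  set w : E := ((1 : ℝ) / l.length) • s with hw
  have hsW : s ∈ W := by
    rw [hs]
    apply list_sum_mem
    intro y hy
    obtain ⟨x, hx, rfl⟩ := List.mem_map.mp hy
    exact hW x hx
  have hwW : w ∈ W := W.smul_mem _ hsW
  have hsn : ‖s‖ ≤ l.length := by
    have : ∀ u : List α, (∀ x ∈ u, ‖g x‖ ≤ 1) → ‖(u.map g).sum‖ ≤ u.length := by
      intro u
      induction u with
      | nil => simp
      | cons a u ih =>
        intro h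
        simp only [List.map_cons, List.sum_cons, List.length_cons]
        push_cast
        have h2 := ih (fun x hx => h x (List.mem_cons_of_mem _ hx))
        have h3 := h a List.mem_cons_self
        have := norm_add_le (g a) (u.map g).sum
        linarith
    exact this l h1
  have hwn : ‖w‖ ≤ 1 := by
    rw [hw, norm_smul, Real.norm_of_nonneg (by positivity)]
    rw [div_mul_eq_mul_div, one_mul]
    exact (div_le_one hLr).mpr hsn
  set f : α → E := fun x => ((1 : ℝ) / 2) • (g x - w) with hf
  have hfsum : ∀ u : List α, (u.map f).sum = ((1 : ℝ) / 2) • ((u.map g).sum - (u.length : ℝ) • w) :=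
    fun u => sum_map_shift g _ w u
  have hf0 : (l.map f).sum = 0 := by
    rw [hfsum, ← hs, hw, smul_smul, mul_one_div_cancel hLr.ne', one_smul, sub_self, smul_zero]
  have hfW : ∀ x ∈ l, f x ∈ W := fun x hx => W.smul_mem _ (W.sub_mem (hW x hx) hwW)
  have hf1 : ∀ x ∈ l, ‖f x‖ ≤ 1 := by
    intro x hx
    simp only [hf]
    rw [norm_smul, Real.norm_of_nonneg (by norm_num)]
    have := norm_sub_le (g x) w
    have := h1 x hx
    linarith
  obtain ⟨l₀, hl₀, hb⟩ := hyp_list hC W l f hfW hf1 hf0
  obtain ⟨l₁, hl₁, hin, hform⟩ := cycle_lemma l₀ f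
    (by rw [(hl₀.map f).sum_eq]; exact hf0) Q
  refine ⟨l₁, hl₁.trans hl₀, ?_⟩
  intro m hm
  have hlen : (l₁.take m).length = m := by
    rw [List.length_take, hl₁.length_eq, hl₀.length_eq]
    omega
  have hkey : ((l₁.take m).map g).sum - ((m : ℝ) / l.length) • s
      = (2 : ℝ) • ((l₁.take m).map f).sum := by
    rw [hfsum, hlen, hw]
    module
  rw [hkey]
  constructor
  · rw [inner_smul_right]
    have := hin m
    linarith
  · rw [norm_smul, Real.norm_of_nonneg (by norm_num)]
    obtain ⟨x, y, hxy⟩ := hform m
    rw [hxy]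
    have h2 := norm_sub_le ((l₀.take x).map f).sum ((l₀.take y).map f).sum
    have h3 := hb x
    have h4 := hb y
    linarith

end Vale.Agent.Lib.P262
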