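import Mathlib

namespace Vale.Agent.Lib.P262

/-- Cutting a list into few contiguous chunks: each chunk has length at most one or its two
ends have the same value of `f`. -/
theorem chain_cut {α κ : Type*} [DecidableEq κ] (τ : List α) (f : ℕ → κ) :
    ∀ (t : ℕ) (D : Finset κ) (s : ℕ), D.card = t → s ≤ τ.length →
      (∀ m, s ≤ m → m ≤ τ.length → f m ∈ D) →
      ∃ L : List (List α), L.flatten = τ.drop s ∧ L.length ≤ 2 * D.card ∧
        ∀ ch ∈ L, ∃ s', s' + ch.length ≤ τ.length ∧ ch = (τ.drop s').take ch.length ∧
          (ch.length ≤ 1 ∨ f s' = f (s' + ch.length)) := by
  intro t
  induction t using Nat.strong_induction_on with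
  | _ t ih =>
    intro D s hD hs hf
    by_cases hsN : s = τ.length
    · refine ⟨[], ?_, by simp, by simp⟩
      simp [hsN]
    · have hslt : s < τ.length := lt_of_le_of_ne hs hsN
      -- the last return to the value of `f` at `s`
      set Z := (Finset.range (τ.length + 1)).filter (fun m => s ≤ m ∧ f m = f s) with hZ
      have hZne : Z.Nonempty := ⟨s, by simp [hZ]; omega⟩
      set u := Z.max' hZne with hu
      have huZ : u ∈ Z := Finset.max'_mem _ _
      have hu1 : u ≤ τ.length := by
        have := (Finset.mem_filter.mp huZ).1
        simp at this
        omega
      have hu2 : s ≤ u := (Finset.mem_filter.mp huZ).2.1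
      have hu3 : f u = f s := (Finset.mem_filter.mp huZ).2.2
      have hu4 : ∀ m, u < m → m ≤ τ.length → f m ≠ f s := by
        intro m h1 h2 h3
        have : m ∈ Z := by
          simp only [hZ, Finset.mem_filter, Finset.mem_range]
          exact ⟨by omega, by omega, h3⟩
        have := Finset.le_max' Z m this
        omega
      have hfsD : f s ∈ D := hf s le_rfl hs
      -- first the chunk from `s` to `u`, then a single step, then recursion
      by_cases huN : u = τ.length
      · refine ⟨[(τ.drop s).take (u - s)], ?_, ?_, ?_⟩
        · simp only [List.flatten_cons, List.flatten_nil, List.append_nil]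
          apply List.take_of_length_le
          simp
          omega
        · simp only [List.length_cons, List.length_nil]
          have : 1 ≤ D.card := Finset.card_pos.mpr ⟨_, hfsD⟩
          omega
        · intro ch hch
          simp only [List.mem_singleton] at hch
          subst hch
          have hlen : ((τ.drop s).take (u - s)).length = u - s := by
            simp
            omega
          refine ⟨s, ?_, ?_, ?_⟩
          · rw [hlen]; omega
          · rw [hlen]
          · right
            rw [hlen]
            have : s + (u - s) = u := by omega
            rw [this, hu3]
      · have hult : u < τ.length := lt_of_le_of_ne hu1 huN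
        have hcard : (D.erase (f s)).card = t - 1 := by
          rw [Finset.card_erase_of_mem hfsD, hD]
        have htpos : 0 < t := by
          rw [← hD]
          exact Finset.card_pos.mpr ⟨_, hfsD⟩
        obtain ⟨L, hL1, hL2, hL3⟩ := ih (t - 1) (by omega) (D.erase (f s)) (u + 1) hcard (by omega)
          (by
            intro m h1 h2
            rw [Finset.mem_erase]
            exact ⟨hu4 m (by omega) h2, hf m (by omega) h2⟩)
        refine ⟨(τ.drop s).take (u - s) :: [τ[u]'hult] :: L, ?_, ?_, ?_⟩
        · simp only [List.flatten_cons, hL1]
          have h1 : τ.drop u = τ[u] :: τ.drop (u + 1) := (List.drop_eq_getElem_cons hult)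
          have h2 : (τ.drop s).take (u - s) ++ (τ.drop s).drop (u - s) = τ.drop s :=
            List.take_append_drop _ _
          have h3 : (τ.drop s).drop (u - s) = τ.drop u := by
            rw [List.drop_drop]
            congr 1
            omega
          rw [h3, h1] at h2
          simpa using h2
        · simp only [List.length_cons]
          rw [hcard] at hL2
          have h1 : (D.erase (f s)).card = t - 1 := hcard
          omega
        · intro ch hch
          simp only [List.mem_cons] at hch
          rcases hch with rfl | rfl | hch
          · have hlen : ((τ.drop s).take (u - s)).length = u - s := by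
              simp
              omega
            refine ⟨s, ?_, ?_, ?_⟩
            · rw [hlen]; omega
            · rw [hlen]
            · right
              rw [hlen]
              have : s + (u - s) = u := by omega
              rw [this, hu3]
          · refine ⟨u, ?_, ?_, Or.inl (by simp)⟩
            · simp; omega
            · simp only [List.length_cons, List.length_nil, zero_add]
              rw [List.drop_eq_getElem_cons hult, List.take_succ_cons, List.take_zero]
          · exact hL3 ch hch

end Vale.Agent.Lib.P262
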