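import Vale.Agent.Lib.P262.Realize

namespace Vale.Agent.Lib.P262

open Module

variable {E : Type*} [NormedAddCommGroup E] [InnerProductSpace ℝ E]
variable {κ : Type*} [DecidableEq κ]

set_option linter.unusedSectionVars false
set_option linter.unusedVariables false

/-- All zero-sum lists of length at most `n` in the unit ball can be arranged with all
initial sums at most `X`. -/
def OrdBound (E : Type*) [NormedAddCommGroup E] (n : ℕ) (X : ℝ) : Prop :=
  ∀ l : List E, l.length ≤ n → (∀ x ∈ l, ‖x‖ ≤ 1) → l.sum = 0 →
    ∃ l' : List E, l'.Perm l ∧ ∀ t : ℕ, ‖(l'.take t).sum‖ ≤ X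

theorem sum_map_affine (η : ℝ) (μ : E) (u : List E) :
    (u.map (fun z => η • z + μ)).sum = η • u.sum + (u.length : ℝ) • μ := by
  induction u with
  | nil => simp
  | cons x u ih =>
    simp only [List.map_cons, List.sum_cons, ih, List.length_cons]
    push_cast
    module

/-- Arrangement of one cluster around its mean. -/
theorem cluster_arrange {n : ℕ} {X : ℝ} (hOrd : OrdBound E n X) (c : List E) (hlen : c.length ≤ n)
    (μ : E) (hμ : (c.length : ℝ) • μ = c.sum) (η : ℝ) (hη0 : 0 < η) (hη : ∀ x ∈ c, ‖x - μ‖ ≤ η) :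
    ∃ A : List E, A.Perm c ∧ ∀ y ≤ c.length, ‖(A.take y).sum - (y : ℝ) • μ‖ ≤ η * X := by
  set l₀ := c.map (fun x => (1 / η) • (x - μ)) with hl₀
  have h1 : ∀ x ∈ l₀, ‖x‖ ≤ 1 := by
    intro z hz
    obtain ⟨x, hx, rfl⟩ := List.mem_map.mp hz
    rw [norm_smul, Real.norm_of_nonneg (by positivity), one_div, inv_mul_le_iff₀ hη0, mul_one]
    exact hη x hx
  have h0 : l₀.sum = 0 := by
    rw [hl₀, sum_map_shift (fun x => x) (1 / η) μ c]
    simp only [List.map_id']
    rw [hμ, sub_self, smul_zero]
  obtain ⟨l', hperm, hb⟩ := hOrd l₀ (by rw [hl₀, List.length_map]; exact hlen) h1 h0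
  refine ⟨l'.map (fun z => η • z + μ), ?_, ?_⟩
  · have h2 := hperm.map (fun z => η • z + μ)
    have h3 : l₀.map (fun z => η • z + μ) = c := by
      rw [hl₀, List.map_map]
      have : (fun z => η • z + μ) ∘ (fun x => (1 / η) • (x - μ)) = id := by
        funext x
        simp only [Function.comp, id]
        rw [smul_smul, mul_one_div_cancel hη0.ne', one_smul, sub_add_cancel]
      rw [this, List.map_id]
    rwa [h3] at h2
  · intro y hy
    have hlt : (l'.take y).length = y := by
      rw [List.length_take, hperm.length_eq, hl₀, List.length_map]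
      omega
    rw [← List.map_take, sum_map_affine, hlt, add_sub_cancel_right, norm_smul,
      Real.norm_of_nonneg hη0.le]
    exact mul_le_mul_of_nonneg_left (hb y) hη0.le

theorem sum_range_getD (A : List E) (y : ℕ) :
    ∑ u ∈ Finset.range y, A.getD u 0 = (A.take y).sum := by
  induction A generalizing y with
  | nil => simp
  | cons b A ih =>
    cases y with
    | zero => simp
    | succ y =>
      rw [Finset.sum_range_succ', List.take_succ_cons, List.sum_cons]
      simp only [List.getD_cons_zero, List.getD_cons_succ]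
      rw [ih, add_comm]

theorem filter_multiset_sum (cell : E → κ) (Cs : Finset κ) (l : List E) (h : ∀ x ∈ l, cell x ∈ Cs) :
    ∑ i ∈ Cs, ((l.filter (fun x => cell x = i) : List E) : Multiset E) = (l : Multiset E) := by
  induction l with
  | nil => simp
  | cons y l ih =>
    have hy : cell y ∈ Cs := h y List.mem_cons_self
    have h1 : ∀ i, (((y :: l).filter (fun x => cell x = i) : List E) : Multiset E)
        = ((l.filter (fun x => cell x = i) : List E) : Multiset E)
          + (if i = cell y then ({y} : Multiset E) else 0) := by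
      intro i
      by_cases hi : i = cell y
      · have : cell y = i := hi.symm
        rw [List.filter_cons_of_pos (by simpa using this), if_pos hi, ← Multiset.cons_coe]
        exact cons_eq_add_singleton _ _
      · have : ¬ cell y = i := fun h => hi h.symm
        rw [List.filter_cons_of_neg (by simpa using this), if_neg hi, add_zero]
    simp only [h1]
    rw [Finset.sum_add_distrib, Finset.sum_ite_eq', if_pos hy,
      ih (fun x hx => h x (List.mem_cons_of_mem _ hx)), ← Multiset.cons_coe]
    exact (cons_eq_add_singleton _ _).symm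

theorem norm_smul_sub_sum_le (x : E) (η : ℝ) (u : List E) (h : ∀ y ∈ u, ‖x - y‖ ≤ η) :
    ‖(u.length : ℝ) • x - u.sum‖ ≤ u.length * η := by
  induction u with
  | nil => simp
  | cons a u ih =>
    simp only [List.length_cons, List.sum_cons]
    push_cast
    have e : ((u.length : ℝ) + 1) • x - (a + u.sum) = ((u.length : ℝ) • x - u.sum) + (x - a) := by
      module
    rw [e]
    refine le_trans (norm_add_le _ _) ?_
    have h1 := ih (fun y hy => h y (List.mem_cons_of_mem _ hy))
    have h2 := h a List.mem_cons_self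
    nlinarith

/-- The clusters of a family: their means and the arranged elements. -/
theorem cluster_data {n : ℕ} {X : ℝ} (hOrd : OrdBound E n X) (l : List E) (hlen : l.length ≤ n)
    (hl1 : ∀ x ∈ l, ‖x‖ ≤ 1) (hl0 : l.sum = 0) (η : ℝ) (hη : 0 < η) (cell : E → κ) (Cs : Finset κ)
    (hcover : ∀ x, ‖x‖ ≤ 1 → cell x ∈ Cs) (hdiam : ∀ x y, cell x = cell y → ‖x - y‖ ≤ η) :
    ∃ (μ : κ → E) (m : κ → ℕ) (a : κ → ℕ → E), (∀ i, ‖μ i‖ ≤ 1) ∧
      ∑ i ∈ Cs, (m i : ℝ) • μ i = 0 ∧
      (∀ i, ∀ y ≤ m i, ‖Pre a i y - (y : ℝ) • μ i‖ ≤ η * X) ∧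
      ∑ i ∈ Cs, (((List.range (m i)).map (a i) : List E) : Multiset E) = (l : Multiset E) := by
  classical
  set cl : κ → List E := fun i => l.filter (fun x => cell x = i) with hcl
  set μ : κ → E := fun i => ((1 : ℝ) / (cl i).length) • (cl i).sum with hμdef
  have hmean : ∀ i, ((cl i).length : ℝ) • μ i = (cl i).sum := by
    intro i
    by_cases h : (cl i).length = 0
    · have : cl i = [] := List.length_eq_zero_iff.mp h
      simp [this]
    · have h2 : ((cl i).length : ℝ) ≠ 0 := by exact_mod_cast h
      simp only [hμdef]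
      rw [smul_smul, mul_one_div_cancel h2, one_smul]
    -- end
  have hclmem : ∀ i, ∀ x ∈ cl i, x ∈ l ∧ cell x = i := by
    intro i x hx
    simpa [hcl] using hx
  have hμn : ∀ i, ‖μ i‖ ≤ 1 := by
    intro i
    by_cases h : (cl i).length = 0
    · have : cl i = [] := List.length_eq_zero_iff.mp h
      simp [hμdef, this]
    · have h2 : (0 : ℝ) < (cl i).length := by exact_mod_cast Nat.pos_of_ne_zero h
      simp only [hμdef]
      rw [norm_smul, Real.norm_of_nonneg (by positivity), div_mul_eq_mul_div, one_mul,
        div_le_one h2]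
      have := norm_sum_le_length (fun x : E => x) (cl i) (fun x hx => hl1 x (hclmem i x hx).1)
      simpa using this
  have hclose : ∀ i, ∀ x ∈ cl i, ‖x - μ i‖ ≤ η := by
    intro i x hx
    have h1 : ∀ y ∈ cl i, ‖x - y‖ ≤ η := by
      intro y hy
      apply hdiam
      rw [(hclmem i x hx).2, (hclmem i y hy).2]
    have h2 := norm_smul_sub_sum_le x η (cl i) h1
    have hpos : (0 : ℝ) < (cl i).length := by
      exact_mod_cast List.length_pos_of_mem hx
    have h3 : ((cl i).length : ℝ) • (x - μ i) = ((cl i).length : ℝ) • x - (cl i).sum := by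
      rw [smul_sub, hmean]
    rw [← h3, norm_smul, Real.norm_of_nonneg hpos.le] at h2
    exact le_of_mul_le_mul_left h2 hpos
  have harr := fun i => cluster_arrange hOrd (cl i)
    (le_trans (List.length_filter_le _ _) hlen) (μ i) (hmean i) η hη (hclose i)
  choose A hAp hAb using harr
  refine ⟨μ, fun i => (cl i).length, fun i u => (A i).getD u 0, hμn, ?_, ?_, ?_⟩
  · have h1 : ∀ i ∈ Cs, ((cl i).length : ℝ) • μ i = (cl i).sum := fun i _ => hmean i
    rw [Finset.sum_congr rfl h1]
    have h2 := filter_multiset_sum cell Cs l (fun x hx => hcover x (hl1 x hx))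
    have h3 := congrArg Multiset.sum h2
    rw [Multiset.sum_coe, hl0] at h3
    rw [← h3]
    have h4 : Multiset.sum (∑ i ∈ Cs, ((l.filter (fun x => cell x = i) : List E) : Multiset E))
        = ∑ i ∈ Cs, (Multiset.sum ((l.filter (fun x => cell x = i) : List E) : Multiset E)) :=
      map_sum (Multiset.sumAddMonoidHom) _ _
    rw [h4]
    apply Finset.sum_congr rfl
    intro i _
    rw [Multiset.sum_coe]
  · intro i y hy
    have := hAb i y hy
    unfold Pre
    rw [sum_range_getD]
    exact this
  · rw [← filter_multiset_sum cell Cs l (fun x hx => hcover x (hl1 x hx))]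
    apply Finset.sum_congr rfl
    intro i _
    have h1 : (List.range (cl i).length).map (fun u => (A i).getD u 0) = A i := by
      apply List.ext_getElem
      · simp [(hAp i).length_eq]
      · intro j h1 h2
        simp [List.getElem?_eq_getElem h2]
    rw [h1]
    exact Multiset.coe_eq_coe.mpr (hAp i)

end Vale.Agent.Lib.P262
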