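import Vale.Agent.Lib.P262.GroupStep2

namespace Vale.Agent.Lib.P262

open Module

variable {E : Type*} [NormedAddCommGroup E] [InnerProductSpace ℝ E]
variable {ι : Type*} [DecidableEq ι]

set_option linter.unusedSectionVars false
set_option linter.unusedVariables false

/-- The state of the construction after a set `P` of types has been placed. -/
structure Good (c : ι → E) (n : ι → ℕ) (T D : ℕ) (P : Finset ι) (Lab : ℕ → Option ι) (Bd : ℝ) :
    Prop where
  supp : ∀ m i, Lab m = some i → i ∈ P ∧ m < T ∧ D ∣ m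
  count : ∀ i ∈ P, ∑ m ∈ Finset.range T, ind i (Lab m) = n i
  bound : ∀ m ≤ T, ‖∑ l ∈ Finset.range (m + 1), ev c (Lab l)
      - ((m : ℝ) / (T : ℝ)) • ∑ i ∈ P, (n i : ℝ) • c i‖ ^ 2 ≤ Bd

theorem norm_ev_le {c : ι → E} {P : Finset ι} (hc : ∀ i ∈ P, ‖c i‖ ≤ 1) {x : Option ι}
    (hx : ∀ i, x = some i → i ∈ P) : ‖ev c x‖ ≤ 1 := by
  cases x with
  | none => simp [ev]
  | some i => exact hc i (hx i rfl)

/-- Between two block boundaries nothing happens but the linear drift. -/
theorem drift (c : ι → E) (Lab : ℕ → Option ι) (S : E) (B U : ℕ) (hB : 0 < B) (hU : 0 < U)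
    (hS : ‖S‖ ≤ B) (hev : ∀ l, ‖ev c (Lab l)‖ ≤ 1) (hsupp : ∀ m i, Lab m = some i → U ∣ m)
    (k m : ℕ) (hm1 : k * U ≤ m) (hm2 : m < (k + 1) * U) (hk : k < B) :
    ‖(∑ l ∈ Finset.range (m + 1), ev c (Lab l) - ((m : ℝ) / ((B * U : ℕ) : ℝ)) • S)
      - (∑ l ∈ Finset.range (k * U + 1), ev c (Lab l) - (((k * U : ℕ) : ℝ) / ((B * U : ℕ) : ℝ)) • S)‖ ≤ 1 ∧
    ‖(∑ l ∈ Finset.range (m + 1), ev c (Lab l) - ((m : ℝ) / ((B * U : ℕ) : ℝ)) • S)
      - (∑ l ∈ Finset.range ((k + 1) * U + 1), ev c (Lab l)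
          - ((((k + 1) * U : ℕ) : ℝ) / ((B * U : ℕ) : ℝ)) • S)‖ ≤ 2 := by
  have hBr : (0 : ℝ) < B := by exact_mod_cast hB
  have hUr : (0 : ℝ) < U := by exact_mod_cast hU
  have hnone : ∀ l, k * U < l → l < (k + 1) * U → ev c (Lab l) = 0 := by
    intro l h1 h2
    cases hl : Lab l with
    | none => rfl
    | some i =>
      exfalso
      obtain ⟨d, hd⟩ := hsupp l i hl
      rw [hd, mul_comm U d] at h1 h2
      have h3 : k < d := lt_of_mul_lt_mul_right h1 (Nat.zero_le _)
      have h4 : d < k + 1 := lt_of_mul_lt_mul_right h2 (Nat.zero_le _)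
      omega
  have hconst : ∀ m', k * U ≤ m' → m' < (k + 1) * U →
      ∑ l ∈ Finset.range (m' + 1), ev c (Lab l) = ∑ l ∈ Finset.range (k * U + 1), ev c (Lab l) := by
    intro m' h1
    induction m', h1 using Nat.le_induction with
    | base => intro _; rfl
    | succ m' h1 ih =>
      intro h2
      rw [Finset.sum_range_succ, ih (by omega), hnone (m' + 1) (by omega) h2, add_zero]
  have h1 := hconst m hm1 hm2
  have h2 : ∑ l ∈ Finset.range ((k + 1) * U + 1), ev c (Lab l)
      = ∑ l ∈ Finset.range (k * U + 1), ev c (Lab l) + ev c (Lab ((k + 1) * U)) := by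
    have hU2 : (k + 1) * U = ((k + 1) * U - 1) + 1 := by
      have : 0 < (k + 1) * U := by positivity
      omega
    rw [Finset.sum_range_succ]
    congr 1
    conv_lhs => rw [hU2]
    apply hconst
    · have : (k + 1) * U = k * U + U := by ring
      omega
    · omega
  rw [h1, h2]
  have hT : ((B * U : ℕ) : ℝ) = B * U := by push_cast; ring
  rw [hT]
  have hmk1 : (k * U : ℝ) ≤ m := by exact_mod_cast hm1
  have hmk2 : (m : ℝ) < (k + 1) * U := by exact_mod_cast hm2
  have hmk3 : ((k * U : ℕ) : ℝ) = k * U := by push_cast; ring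
  have hmk4 : (((k + 1) * U : ℕ) : ℝ) = (k + 1) * U := by push_cast; ring
  rw [hmk3, hmk4]
  have hsc : ∀ x : ℝ, 0 ≤ x → x ≤ U → ‖(x / (B * U)) • S‖ ≤ 1 := by
    intro x hx0 hx1
    rw [norm_smul, Real.norm_of_nonneg (by positivity)]
    have h3 : x / (B * U) ≤ 1 / B := by
      rw [div_le_div_iff₀ (by positivity) hBr]
      nlinarith
    calc x / (B * U) * ‖S‖ ≤ 1 / B * B :=
          mul_le_mul h3 hS (norm_nonneg _) (by positivity)
      _ = 1 := by field_simp
  constructor
  · have e : (∑ l ∈ Finset.range (k * U + 1), ev c (Lab l) - ((m : ℝ) / (B * U)) • S)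
        - (∑ l ∈ Finset.range (k * U + 1), ev c (Lab l) - (((k : ℝ) * U) / (B * U)) • S)
        = - ((((m : ℝ) - k * U) / (B * U)) • S) := by
      module
    rw [e, norm_neg]
    apply hsc
    · linarith
    · nlinarith
  · have e : (∑ l ∈ Finset.range (k * U + 1), ev c (Lab l) - ((m : ℝ) / (B * U)) • S)
        - (∑ l ∈ Finset.range (k * U + 1), ev c (Lab l) + ev c (Lab ((k + 1) * U))
            - ((((k : ℝ) + 1) * U) / (B * U)) • S)
        = - ev c (Lab ((k + 1) * U)) + ((((k : ℝ) + 1) * U - m) / (B * U)) • S := by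
      module
    rw [e]
    refine le_trans (norm_add_le _ _) ?_
    rw [norm_neg]
    have h3 := hev ((k + 1) * U)
    have h4 := hsc (((k : ℝ) + 1) * U - m) (by linarith) (by nlinarith)
    linarith

theorem split_or {α A' : Type*} [AddCommMonoid A'] (g' : Option α → A') (hg' : g' none = 0)
    (x y : Option α) (h : ∀ i j, y = some i → x = some j → False) :
    g' (x.or y) = g' x + g' y := by
  cases h2 : x with
  | none => simp [hg']
  | some j =>
    cases h1 : y with
    | none => simp [hg']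
    | some i => exact (h i j h1 h2).elim

theorem ind_zero_of_ne {i : ι} {x : Option ι} (h : ∀ j, x = some j → j ≠ i) : ind i x = 0 := by
  cases x with
  | none => rfl
  | some j =>
    have := h j rfl
    simp [ind, this]

/-- Adding one group of types to a good state. -/
theorem good_step {C : ℝ} (hC : BanaszczykOrdering C) (c : ι → E) (n : ι → ℕ) (P I : Finset ι)
    (hPI : Disjoint P I) (hcP : ∀ i ∈ P, ‖c i‖ ≤ 1) (hcI : ∀ i ∈ I, ‖c i‖ ≤ 1)
    (B L V D : ℕ) (hB : 0 < B) (hL : 0 < L) (hV : 0 < V) (hD : (L * (2 * V)) ∣ D)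
    (hn : ∀ i ∈ I, B ≤ n i) (K : ℝ) (hK : 1 ≤ K)
    (hLK : K * ((∑ i ∈ I, (n i : ℝ)) / B + 2 * I.card) ≤ L)
    (hwP : ∑ i ∈ P, (n i : ℝ) ≤ B) (A Bd : ℝ) (hA : 0 ≤ A) (hBdA : Bd ≤ A ^ 2)
    (Lab : ℕ → Option ι) (hgood : Good c n (B * (L * (2 * V))) D P Lab Bd) :
    ∃ Lab' : ℕ → Option ι, Good c n (B * (L * (2 * V))) V (P ∪ I) Lab'
      (Bd + (I.card : ℝ) / 2 + 9 +
        4 * (4 * (C * (Real.sqrt I.card + Real.sqrt (Real.log ((L : ℝ) + 2)))) + 1 / (2 * K)) ^ 2
        + A / K) := by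
  classical
  have hU : 0 < L * (2 * V) := by positivity
  have hDpos : 0 < 2 * V := by omega
  set U := L * (2 * V) with hUdef
  set S := ∑ i ∈ P, (n i : ℝ) • c i with hS
  have hSn : ‖S‖ ≤ B := by
    refine le_trans (norm_sum_le _ _) (le_trans ?_ hwP)
    apply Finset.sum_le_sum
    intro i hi
    rw [norm_smul, Real.norm_of_nonneg (by positivity)]
    have := hcP i hi
    have h3 : (0 : ℝ) ≤ n i := by positivity
    nlinarith
  have hev : ∀ l, ‖ev c (Lab l)‖ ≤ 1 := by
    intro l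
    apply norm_ev_le hcP
    intro i hi
    exact (hgood.supp l i hi).1
  have hsuppU : ∀ m i, Lab m = some i → U ∣ m := fun m i h =>
    dvd_trans hD (hgood.supp m i h).2.2
  let Q : ℕ → E := fun m => ∑ l ∈ Finset.range (m + 1), ev c (Lab l)
    - ((m : ℝ) / ((B * U : ℕ) : ℝ)) • S
  have hQA : ∀ m ≤ B * U, ‖Q m‖ ≤ A := by
    intro m hm
    have h1 := hgood.bound m hm
    have h2 : ‖Q m‖ ^ 2 ≤ A ^ 2 := le_trans h1 hBdA
    exact (pow_le_pow_iff_left₀ (norm_nonneg _) hA (by norm_num)).mp h2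
  have hQ1 : ∀ k < B, ∀ m, k * U ≤ m → m < (k + 1) * U →
      ‖Q m - Q (k * U)‖ ≤ 1 ∧ ‖Q m - Q ((k + 1) * U)‖ ≤ 2 := by
    intro k hk m hm1 hm2
    exact drift c Lab S B U hB hU hSn hev hsuppU k m hm1 hm2 hk
  obtain ⟨Lab2, hsupp2, hcount2, hbound2⟩ :=
    group_step hC I c hcI n B L V hB hL hV hn K hK hLK Q A hQA hQ1
  -- the labels of the two stages never collide
  have hdisj : ∀ m i j, Lab m = some i → Lab2 m = some j → False := by
    intro m i j h1 h2
    have h3 := hsuppU m i h1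
    have h4 := (hsupp2 m j h2).2.2
    have h5 : 2 * V ∣ m := dvd_trans (Dvd.intro_left L rfl) h3
    rw [Nat.mod_eq_zero_of_dvd h5] at h4
    omega
  let Lab' : ℕ → Option ι := fun m => (Lab2 m).or (Lab m)
  have hsplitE : ∀ m, ev c (Lab' m) = ev c (Lab2 m) + ev c (Lab m) := fun m =>
    split_or (ev c) rfl (Lab2 m) (Lab m) (fun i j h1 h2 => hdisj m i j h1 h2)
  have hsplitI : ∀ i m, ind i (Lab' m) = ind i (Lab2 m) + ind i (Lab m) := fun i m =>
    split_or (ind i) rfl (Lab2 m) (Lab m) (fun i j h1 h2 => hdisj m i j h1 h2)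
  refine ⟨Lab', ?_, ?_, ?_⟩
  · intro m i h
    simp only [Lab'] at h
    cases h2 : Lab2 m with
    | none =>
      rw [h2] at h
      simp only [Option.none_or] at h
      obtain ⟨h3, h4, h5⟩ := hgood.supp m i h
      refine ⟨Finset.mem_union_left _ h3, h4, ?_⟩
      have h6 : U ∣ m := dvd_trans hD h5
      have h7 : V ∣ U := by
        rw [hUdef]
        exact Dvd.intro_left (L * 2) (by ring)
      exact dvd_trans h7 h6
    | some j =>
      rw [h2] at h
      simp only [Option.some_or, Option.some.injEq] at h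
      subst h
      obtain ⟨h3, h4, h5⟩ := hsupp2 m j h2
      refine ⟨Finset.mem_union_right _ h3, h4, ?_⟩
      have h6 := Nat.div_add_mod m (2 * V)
      rw [h5] at h6
      rw [← h6]
      exact ⟨2 * (m / (2 * V)) + 1, by ring⟩
  · intro i hi
    rw [Finset.sum_congr rfl (fun m _ => hsplitI i m), Finset.sum_add_distrib]
    rcases Finset.mem_union.mp hi with h | h
    · have h2 : ∑ m ∈ Finset.range (B * U), ind i (Lab2 m) = 0 := by
        apply Finset.sum_eq_zero
        intro m _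
        apply ind_zero_of_ne
        intro j hj hji
        subst hji
        exact (Finset.disjoint_left.mp hPI h) (hsupp2 m j hj).1
      rw [h2, zero_add]
      exact hgood.count i h
    · have h2 : ∑ m ∈ Finset.range (B * U), ind i (Lab m) = 0 := by
        apply Finset.sum_eq_zero
        intro m _
        apply ind_zero_of_ne
        intro j hj hji
        subst hji
        exact (Finset.disjoint_left.mp hPI (hgood.supp m j hj).1) h
      rw [h2, add_zero]
      exact hcount2 i h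
  · intro m hm
    have h1 : ∑ l ∈ Finset.range (m + 1), ev c (Lab' l)
        = ∑ l ∈ Finset.range (m + 1), ev c (Lab2 l) + ∑ l ∈ Finset.range (m + 1), ev c (Lab l) := by
      rw [Finset.sum_congr rfl (fun l _ => hsplitE l), Finset.sum_add_distrib]
    have h2 : ∑ i ∈ P ∪ I, (n i : ℝ) • c i = S + ∑ i ∈ I, (n i : ℝ) • c i := by
      rw [Finset.sum_union hPI]
    have h3 : ∑ l ∈ Finset.range (m + 1), ev c (Lab' l)
        - ((m : ℝ) / ((B * U : ℕ) : ℝ)) • ∑ i ∈ P ∪ I, (n i : ℝ) • c i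
        = Q m + (∑ l ∈ Finset.range (m + 1), ev c (Lab2 l)
          - ((m : ℝ) / ((B * U : ℕ) : ℝ)) • ∑ i ∈ I, (n i : ℝ) • c i) := by
      rw [h1, h2]
      simp only [Q]
      rw [smul_add]
      abel
    rw [h3]
    have h4 := hbound2 m hm
    have h5 : ‖Q m‖ ^ 2 ≤ Bd := hgood.bound m hm
    linarith

end Vale.Agent.Lib.P262
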