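import Mathlib

namespace Vale.Agent.Lib.P262

/-- Size of a group relative to the block count. -/
theorem levels_aux1 (q g' B nm wP wI : ℕ) (hq : 1 ≤ q) (hB : 0 < B) (hnm2 : nm < 4 * B)
    (htot : wP + wI ≤ 2 * (256 * q ^ 2 + 1) ^ g' * nm) :
    (wI : ℝ) / B ≤ 8 * ((q : ℝ) + 2) ^ (8 * g') := by
  have hBr : (0 : ℝ) < B := by exact_mod_cast hB
  have hqr : (1 : ℝ) ≤ q := by exact_mod_cast hq
  set y : ℝ := (q : ℝ) + 2 with hy
  have hy3 : 3 ≤ y := by rw [hy]; linarith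
  have hR : (256 * (q : ℝ) ^ 2 + 1) ≤ y ^ 8 := by
    have h1 : (729 : ℝ) ≤ y ^ 6 := by
      calc (729 : ℝ) = 3 ^ 6 := by norm_num
        _ ≤ y ^ 6 := pow_le_pow_left₀ (by norm_num) hy3 6
    have h2 : (q : ℝ) ^ 2 + 1 ≤ y ^ 2 := by rw [hy]; nlinarith
    have h3 : y ^ 8 = y ^ 6 * y ^ 2 := by ring
    rw [h3]
    nlinarith
  have hRpow : (256 * (q : ℝ) ^ 2 + 1) ^ g' ≤ y ^ (8 * g') := by
    rw [pow_mul]
    exact pow_le_pow_left₀ (by positivity) hR g'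
  have h1 : (wP : ℝ) + wI ≤ 2 * (256 * (q : ℝ) ^ 2 + 1) ^ g' * nm := by exact_mod_cast htot
  have h2 : (nm : ℝ) ≤ 4 * B := by exact_mod_cast hnm2.le
  have h3 : (0 : ℝ) ≤ wP := by positivity
  rw [div_le_iff₀ hBr]
  have h4 : (0:ℝ) ≤ (256 * (q : ℝ) ^ 2 + 1) ^ g' := by positivity
  have h5 : (nm : ℝ) ≥ 0 := by positivity
  calc (wI : ℝ) ≤ 2 * (256 * (q : ℝ) ^ 2 + 1) ^ g' * nm := by linarith
    _ ≤ 2 * y ^ (8 * g') * (4 * B) := by
        apply mul_le_mul _ h2 h5 (by positivity)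
        linarith
    _ = 8 * y ^ (8 * g') * B := by ring

/-- Powers absorb the polynomial factors. -/
theorem levels_aux2 (q g' : ℕ) (hq : 1 ≤ q) (hgq : g' + 1 ≤ q) (w : ℝ)
    (hw : w ≤ 8 * ((q : ℝ) + 2) ^ (8 * g')) :
    16 * (q : ℝ) * w + 32 * q * ((g' + 1 : ℕ) : ℝ) + 4 ≤ ((q : ℝ) + 2) ^ (17 * (g' + 1)) := by
  have hqr : (1 : ℝ) ≤ q := by exact_mod_cast hq
  have hgqr : ((g' + 1 : ℕ) : ℝ) ≤ q := by exact_mod_cast hgq
  set y : ℝ := (q : ℝ) + 2 with hy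
  have hy3 : 3 ≤ y := by rw [hy]; linarith
  have hy1 : 1 ≤ y := by linarith
  have hqy : (q : ℝ) ≤ y := by rw [hy]; linarith
  have hgy : ((g' + 1 : ℕ) : ℝ) ≤ y := le_trans hgqr hqy
  have h128 : 128 * (q : ℝ) ≤ y ^ 6 := by
    have h2 : (243 : ℝ) ≤ y ^ 5 := by
      calc (243 : ℝ) = 3 ^ 5 := by norm_num
        _ ≤ y ^ 5 := pow_le_pow_left₀ (by norm_num) hy3 5
    have h3 : y ^ 6 = y ^ 5 * y := by ring
    rw [h3]
    nlinarith
  have h32 : 32 * (q : ℝ) * ((g' + 1 : ℕ) : ℝ) ≤ y ^ 6 := by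
    have h2 : (81 : ℝ) ≤ y ^ 4 := by
      calc (81 : ℝ) = 3 ^ 4 := by norm_num
        _ ≤ y ^ 4 := pow_le_pow_left₀ (by norm_num) hy3 4
    have h3 : y ^ 6 = y ^ 4 * (y * y) := by ring
    have h4 : (q : ℝ) * ((g' + 1 : ℕ) : ℝ) ≤ y * y :=
      mul_le_mul hqy hgy (by positivity) (by linarith)
    rw [h3]
    have h5 : (0 : ℝ) ≤ (q : ℝ) * ((g' + 1 : ℕ) : ℝ) := by positivity
    nlinarith
  have hE : y ^ (17 * (g' + 1)) = y * y ^ (17 * g' + 16) := by ring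
  have hT1 : y ^ (8 * g' + 6) ≤ y ^ (17 * g' + 16) := pow_le_pow_right₀ hy1 (by omega)
  have hT2 : y ^ 6 ≤ y ^ (17 * g' + 16) := pow_le_pow_right₀ hy1 (by omega)
  have hT3 : (4 : ℝ) ≤ y ^ (17 * g' + 16) := by
    have : y ^ 2 ≤ y ^ (17 * g' + 16) := pow_le_pow_right₀ hy1 (by omega)
    nlinarith
  have hT4 : 0 ≤ y ^ (17 * g' + 16) := by positivity
  have h3 : 16 * (q : ℝ) * w ≤ 16 * (q : ℝ) * (8 * y ^ (8 * g')) :=
    mul_le_mul_of_nonneg_left hw (by positivity)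
  have h4 : 16 * (q : ℝ) * (8 * y ^ (8 * g')) = (128 * q) * y ^ (8 * g') := by ring
  have h5 : (128 * (q : ℝ)) * y ^ (8 * g') ≤ y ^ 6 * y ^ (8 * g') :=
    mul_le_mul_of_nonneg_right h128 (by positivity)
  have h6 : y ^ 6 * y ^ (8 * g') = y ^ (8 * g' + 6) := by ring
  rw [hE]
  have h7 : 3 * y ^ (17 * g' + 16) ≤ y * y ^ (17 * g' + 16) :=
    mul_le_mul_of_nonneg_right hy3 hT4
  linarith

/-- Choice of the number of slots in a block. -/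
theorem levels (q g B nm wP wI : ℕ) (hq : 1 ≤ q) (hg : 1 ≤ g) (hgq : g ≤ q) (hB : 0 < B)
    (hnm1 : B ≤ nm) (hnm2 : nm < 4 * B) (hwI : nm ≤ wI)
    (htot : wP + wI ≤ 2 * (256 * q ^ 2 + 1) ^ (g - 1) * nm) :
    ∃ l : ℕ, (8 * (q : ℝ)) * ((wI : ℝ) / B + 2 * g) ≤ ((2 ^ l : ℕ) : ℝ) ∧
      4 * B * 2 ^ l ≤ 256 * q ^ 2 * wI ∧
      ((2 ^ l : ℕ) : ℝ) + 2 ≤ ((q : ℝ) + 2) ^ (17 * g) := by
  have hBr : (0 : ℝ) < B := by exact_mod_cast hB
  have hqr : (1 : ℝ) ≤ q := by exact_mod_cast hq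
  have hgr : (1 : ℝ) ≤ g := by exact_mod_cast hg
  have hgqr : (g : ℝ) ≤ q := by exact_mod_cast hgq
  set X : ℝ := (8 * (q : ℝ)) * ((wI : ℝ) / B + 2 * g) with hX
  have hwIB : 0 ≤ (wI : ℝ) / B := by positivity
  have hX16 : 16 ≤ X := by
    rw [hX]
    have h1 : 2 ≤ (wI : ℝ) / B + 2 * g := by linarith
    nlinarith
  have hXpos : 0 ≤ X := by linarith
  set x := ⌈X⌉₊ with hx
  have hxX : X ≤ x := Nat.le_ceil X
  have hxX2 : (x : ℝ) < X + 1 := Nat.ceil_lt_add_one hXpos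
  have hx2 : 1 < x := by
    have : (1 : ℝ) < x := by linarith
    exact_mod_cast this
  have h2l : x ≤ 2 ^ Nat.clog 2 x := Nat.le_pow_clog (by norm_num) x
  have h2l2 : 2 ^ (Nat.clog 2 x).pred < x := Nat.pow_pred_clog_lt_self (by norm_num) hx2
  have hclog : 0 < Nat.clog 2 x := Nat.clog_pos (by norm_num) (by omega)
  have h2l3 : 2 ^ Nat.clog 2 x < 2 * x := by
    have hm : Nat.clog 2 x = (Nat.clog 2 x).pred + 1 := (Nat.succ_pred_eq_of_pos hclog).symm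
    rw [hm, pow_succ]
    omega
  refine ⟨Nat.clog 2 x, ?_, ?_, ?_⟩
  · have : (x : ℝ) ≤ ((2 ^ Nat.clog 2 x : ℕ) : ℝ) := by exact_mod_cast h2l
    linarith
  · have h1 : ((2 ^ Nat.clog 2 x : ℕ) : ℝ) < 2 * X + 2 := by
      have : ((2 ^ Nat.clog 2 x : ℕ) : ℝ) < 2 * (x : ℝ) := by exact_mod_cast h2l3
      linarith
    have hBw : (B : ℝ) ≤ wI := by exact_mod_cast le_trans hnm1 hwI
    have hwI0 : (0 : ℝ) ≤ wI := by positivity
    have h2 : (B : ℝ) * X = 8 * q * wI + 16 * q * g * B := by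
      rw [hX]
      field_simp
      ring
    have h3 : (4 * (B : ℝ)) * ((2 ^ Nat.clog 2 x : ℕ) : ℝ) ≤ 256 * (q : ℝ) ^ 2 * wI := by
      have h4 : (4 * (B : ℝ)) * ((2 ^ Nat.clog 2 x : ℕ) : ℝ) ≤ (4 * (B : ℝ)) * (2 * X + 2) :=
        mul_le_mul_of_nonneg_left h1.le (by positivity)
      have h5 : (4 * (B : ℝ)) * (2 * X + 2) = 8 * ((B : ℝ) * X) + 8 * B := by ring
      rw [h5, h2] at h4
      have h6 : (q : ℝ) * g * B ≤ (q : ℝ) * q * wI := by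
        apply mul_le_mul _ hBw hBr.le (by positivity)
        exact mul_le_mul_of_nonneg_left hgqr (by positivity)
      have h7 : (q : ℝ) * wI ≤ (q : ℝ) ^ 2 * wI := by
        apply mul_le_mul_of_nonneg_right _ hwI0
        nlinarith
      have h8 : (wI : ℝ) ≤ (q : ℝ) ^ 2 * wI := by
        have : (1 : ℝ) ≤ (q : ℝ) ^ 2 := by nlinarith
        nlinarith
      nlinarith
    have h9 : ((4 * B * 2 ^ Nat.clog 2 x : ℕ) : ℝ) ≤ ((256 * q ^ 2 * wI : ℕ) : ℝ) := by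
      push_cast
      push_cast at h3
      exact h3
    exact_mod_cast h9
  · -- the size of the slot count
    obtain ⟨g', rfl⟩ : ∃ g', g = g' + 1 := ⟨g - 1, by omega⟩
    simp only [Nat.add_sub_cancel] at htot
    have hw : (wI : ℝ) / B ≤ 8 * ((q : ℝ) + 2) ^ (8 * g') :=
      levels_aux1 q g' B nm wP wI hq hB hnm2 htot
    have h1 : ((2 ^ Nat.clog 2 x : ℕ) : ℝ) < 2 * X + 2 := by
      have : ((2 ^ Nat.clog 2 x : ℕ) : ℝ) < 2 * (x : ℝ) := by exact_mod_cast h2l3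
      linarith
    have h2 : 2 * X = 16 * (q : ℝ) * ((wI : ℝ) / B) + 32 * q * ((g' + 1 : ℕ) : ℝ) := by
      rw [hX]
      ring
    have h3 := levels_aux2 q g' hq hgq ((wI : ℝ) / B) hw
    linarith

/-- The per-group cost is linear in the number of types. -/
theorem T_bound {C : ℝ} (hC0 : 0 ≤ C) (g q : ℕ) (hg : 1 ≤ g) (hgq : g ≤ q) (Lr : ℝ) (hLr : 0 ≤ Lr)
    (hL : Lr + 2 ≤ ((q : ℝ) + 2) ^ (17 * g)) :
    (g : ℝ) / 2 + 9 + 4 * (4 * (C * (Real.sqrt g + Real.sqrt (Real.log (Lr + 2))))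
        + 1 / (2 * (8 * (q : ℝ)))) ^ 2
      ≤ g * (5000 * (C ^ 2 + 1) * Real.log ((q : ℝ) + 2)) := by
  have hgr : (1 : ℝ) ≤ g := by exact_mod_cast hg
  have hq1 : (1 : ℝ) ≤ q := by exact_mod_cast le_trans hg hgq
  set ly := Real.log ((q : ℝ) + 2) with hly
  have hly1 : 1 ≤ ly := by
    rw [hly, Real.le_log_iff_exp_le (by linarith)]
    have := Real.exp_one_lt_d9
    linarith
  have hlog0 : 0 ≤ Real.log (Lr + 2) := Real.log_nonneg (by linarith)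
  have hlog : Real.log (Lr + 2) ≤ 17 * g * ly := by
    have h1 := Real.log_le_log (by linarith) hL
    rw [Real.log_pow] at h1
    push_cast at h1
    exact h1
  set s1 := Real.sqrt g with hs1
  set s2 := Real.sqrt (Real.log (Lr + 2)) with hs2
  have hs1sq : s1 ^ 2 = g := Real.sq_sqrt (by positivity)
  have hs2sq : s2 ^ 2 = Real.log (Lr + 2) := Real.sq_sqrt hlog0
  have hs1n : 0 ≤ s1 := Real.sqrt_nonneg _
  have hs2n : 0 ≤ s2 := Real.sqrt_nonneg _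
  have hgl : (g : ℝ) ≤ g * ly := by nlinarith
  have h1 : (s1 + s2) ^ 2 ≤ 36 * (g * ly) := by
    have h2 : (s1 + s2) ^ 2 ≤ 2 * (s1 ^ 2 + s2 ^ 2) := by nlinarith [sq_nonneg (s1 - s2)]
    rw [hs1sq, hs2sq] at h2
    nlinarith
  set δ := 1 / (2 * (8 * (q : ℝ))) with hδ
  have hδ0 : 0 ≤ δ := by positivity
  have hδ1 : δ ≤ 1 / 16 := by
    rw [hδ]
    apply div_le_div_of_nonneg_left (by norm_num) (by norm_num)
    linarith
  set u := C * (s1 + s2) with hu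
  have hu2 : u ^ 2 ≤ C ^ 2 * (36 * (g * ly)) := by
    rw [hu, mul_pow]
    exact mul_le_mul_of_nonneg_left h1 (by positivity)
  have h3 : (4 * u + δ) ^ 2 ≤ 32 * u ^ 2 + 2 * δ ^ 2 := by nlinarith [sq_nonneg (4 * u - δ)]
  have h4 : δ ^ 2 ≤ 1 / 256 := by nlinarith
  have hgl0 : 0 ≤ (g : ℝ) * ly := by positivity
  have h5 : (g : ℝ) * ly ≥ 1 := by nlinarith
  have h6 : (g : ℝ) * (5000 * (C ^ 2 + 1) * ly) = 5000 * (C ^ 2 + 1) * (g * ly) := by ring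
  rw [h6]
  have h7 : 0 ≤ C ^ 2 * (g * ly) := by positivity
  nlinarith

end Vale.Agent.Lib.P262
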