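import Vale.Agent.Lib.P262.Compose
import Vale.Agent.Lib.P262.Levels

namespace Vale.Agent.Lib.P262

open Module

variable {E : Type*} [NormedAddCommGroup E] [InnerProductSpace ℝ E]
variable {ι : Type*} [DecidableEq ι]

set_option linter.unusedSectionVars false
set_option linter.unusedVariables false

theorem Good.mono {c : ι → E} {n : ι → ℕ} {T D : ℕ} {P : Finset ι} {Lab : ℕ → Option ι} {Bd Bd' : ℝ}
    (h : Good c n T D P Lab Bd) (hB : Bd ≤ Bd') : Good c n T D P Lab Bd' :=
  ⟨h.supp, h.count, fun m hm => le_trans (h.bound m hm) hB⟩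

/-- Greedy choice of the next group. -/
theorem greedy_aux (Rem : Finset ι) (n : ι → ℕ) (R w0 : ℕ) (i₀ : ι) :
    ∀ (t : ℕ) (I₀ : Finset ι), (Rem \ I₀).card = t → I₀ ⊆ Rem → i₀ ∈ I₀ →
      w0 + ∑ j ∈ I₀, n j ≤ 2 * (R + 1) ^ (I₀.card - 1) * n i₀ →
      ∃ I : Finset ι, I₀ ⊆ I ∧ I ⊆ Rem ∧ (∀ i ∈ Rem \ I, R * (w0 + ∑ j ∈ I, n j) ≤ n i) ∧
        w0 + ∑ j ∈ I, n j ≤ 2 * (R + 1) ^ (I.card - 1) * n i₀ := by
  intro t
  induction t with
  | zero =>
    intro I₀ h0 hsub hi hb
    refine ⟨I₀, subset_rfl, hsub, ?_, hb⟩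
    intro i hi'
    rw [Finset.card_eq_zero] at h0
    rw [h0] at hi'
    simp at hi'
  | succ t ih =>
    intro I₀ h0 hsub hi hb
    by_cases hstop : ∀ i ∈ Rem \ I₀, R * (w0 + ∑ j ∈ I₀, n j) ≤ n i
    · exact ⟨I₀, subset_rfl, hsub, hstop, hb⟩
    · push Not at hstop
      obtain ⟨i, hi1, hi2⟩ := hstop
      have hiR := (Finset.mem_sdiff.mp hi1).1
      have hiI := (Finset.mem_sdiff.mp hi1).2
      have hcard : (Rem \ insert i I₀).card = t := by
        have h1 : Rem \ insert i I₀ = (Rem \ I₀).erase i := by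
          ext x
          simp only [Finset.mem_sdiff, Finset.mem_insert, Finset.mem_erase]
          tauto
        rw [h1, Finset.card_erase_of_mem hi1, h0]
        rfl
      have hIc : 1 ≤ I₀.card := Finset.card_pos.mpr ⟨i₀, hi⟩
      obtain ⟨I, h1, h2, h3, h4⟩ := ih (insert i I₀) hcard
        (Finset.insert_subset hiR hsub) (Finset.mem_insert_of_mem hi) (by
          rw [Finset.sum_insert hiI, Finset.card_insert_of_notMem hiI]
          have h5 : w0 + (n i + ∑ j ∈ I₀, n j) ≤ (R + 1) * (w0 + ∑ j ∈ I₀, n j) := by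
            have : (R + 1) * (w0 + ∑ j ∈ I₀, n j) = R * (w0 + ∑ j ∈ I₀, n j) + (w0 + ∑ j ∈ I₀, n j) := by
              ring
            omega
          have h6 : (R + 1) * (w0 + ∑ j ∈ I₀, n j) ≤ (R + 1) * (2 * (R + 1) ^ (I₀.card - 1) * n i₀) :=
            Nat.mul_le_mul_left _ hb
          have h7 : (R + 1) * (2 * (R + 1) ^ (I₀.card - 1) * n i₀)
              = 2 * (R + 1) ^ (I₀.card + 1 - 1) * n i₀ := by
            have : I₀.card + 1 - 1 = (I₀.card - 1) + 1 := by omega
            rw [this, pow_succ]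
            ring
          omega)
      exact ⟨I, subset_trans (Finset.subset_insert _ _) h1, h2, h3, h4⟩

theorem greedy (Rem : Finset ι) (n : ι → ℕ) (R w0 : ℕ) (hR : 1 ≤ R) (i₀ : ι) (hi₀ : i₀ ∈ Rem)
    (hw0 : R * w0 ≤ n i₀) :
    ∃ I : Finset ι, I ⊆ Rem ∧ i₀ ∈ I ∧ (∀ i ∈ Rem \ I, R * (w0 + ∑ j ∈ I, n j) ≤ n i) ∧
      w0 + ∑ j ∈ I, n j ≤ 2 * (R + 1) ^ (I.card - 1) * n i₀ := by
  obtain ⟨I, h1, h2, h3, h4⟩ := greedy_aux Rem n R w0 i₀ _ {i₀} rfl
    (Finset.singleton_subset_iff.mpr hi₀) (Finset.mem_singleton_self _) (by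
      simp only [Finset.sum_singleton, Finset.card_singleton, Nat.sub_self, pow_zero, mul_one]
      have : w0 ≤ n i₀ := le_trans (Nat.le_mul_of_pos_left _ hR) hw0
      omega)
  exact ⟨I, h2, h1 (Finset.mem_singleton_self _), h3, h4⟩

/-- Powers of two for the time scales. -/
theorem pow_facts (b l J e : ℕ) (hJ : b + l + 1 ≤ J) (heb : e ≤ b) :
    2 ^ b * (2 ^ l * (2 * 2 ^ (J - (b + l + 1)))) = 2 ^ J ∧
      2 ^ l * (2 * 2 ^ (J - (b + l + 1))) ∣ 2 ^ (J - e) := by
  have h1 : 2 ^ l * (2 * 2 ^ (J - (b + l + 1))) = 2 ^ (J - b) := by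
    have : J - b = l + 1 + (J - (b + l + 1)) := by omega
    rw [this, pow_add, pow_add]
    ring
  constructor
  · rw [h1, ← pow_add]
    congr 1
    omega
  · rw [h1]
    exact pow_dvd_pow 2 (by omega)

/-- Bookkeeping of the bound. -/
theorem bd_step (p g q : ℕ) (hg : 1 ≤ g) (hq : 1 ≤ q) (γ A x : ℝ) (hA : 0 ≤ A)
    (hx : x ≤ g * γ) :
    (p : ℝ) * (γ + A / (8 * q)) + x + A / (8 * q)
      ≤ ((p + g : ℕ) : ℝ) * (γ + A / (8 * q)) := by
  have hgr : (1 : ℝ) ≤ g := by exact_mod_cast hg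
  have h0 : 0 ≤ A / (8 * (q : ℝ)) := by positivity
  push_cast
  nlinarith

theorem bd_le (p q : ℕ) (hp : p ≤ q) (hq : 1 ≤ q) (γ A : ℝ) (hγ : 0 ≤ γ) (hA : 0 ≤ A)
    (hAγ : q * γ + A / 8 ≤ A ^ 2) : (p : ℝ) * (γ + A / (8 * q)) ≤ A ^ 2 := by
  have hqr : (1 : ℝ) ≤ q := by exact_mod_cast hq
  have hpr : (p : ℝ) ≤ q := by exact_mod_cast hp
  have h0 : 0 ≤ γ + A / (8 * (q : ℝ)) := by positivity
  have h1 : (p : ℝ) * (γ + A / (8 * q)) ≤ q * (γ + A / (8 * q)) :=
    mul_le_mul_of_nonneg_right hpr h0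
  have h2 : (q : ℝ) * (γ + A / (8 * q)) = q * γ + A / 8 := by
    field_simp
  linarith

/-- The composition of all groups. -/
theorem compose {C : ℝ} (hC : BanaszczykOrdering C) (c : ι → E) (n : ι → ℕ) (q J : ℕ) (hq : 1 ≤ q)
    (A : ℝ) (hA0 : 0 ≤ A)
    (hAγ : q * (5000 * (C ^ 2 + 1) * Real.log ((q : ℝ) + 2)) + A / 8 ≤ A ^ 2) :
    ∀ (t : ℕ) (Rem P : Finset ι) (e : ℕ) (Lab : ℕ → Option ι), Rem.card = t → Disjoint P Rem →
      P.card + Rem.card ≤ q → e ≤ J → (∀ i ∈ P ∪ Rem, ‖c i‖ ≤ 1) → (∀ i ∈ Rem, 1 ≤ n i) →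
      256 * q ^ 2 * ∑ i ∈ P ∪ Rem, n i ≤ 2 ^ J → (∀ i ∈ Rem, 256 * q ^ 2 * ∑ j ∈ P, n j ≤ n i) →
      (e = 0 ∨ ∀ i ∈ Rem, 2 ^ (e + 1) ≤ n i) →
      Good c n (2 ^ J) (2 ^ (J - e)) P Lab
        ((P.card : ℝ) * (5000 * (C ^ 2 + 1) * Real.log ((q : ℝ) + 2) + A / (8 * q))) →
      ∃ (D : ℕ) (Lab' : ℕ → Option ι), Good c n (2 ^ J) D (P ∪ Rem) Lab'
        (((P.card + Rem.card : ℕ) : ℝ) * (5000 * (C ^ 2 + 1) * Real.log ((q : ℝ) + 2) + A / (8 * q))) := by
  classical
  have hqr : (1 : ℝ) ≤ q := by exact_mod_cast hq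
  have hC0 : 0 ≤ C := hC.nonneg
  set γ := 5000 * (C ^ 2 + 1) * Real.log ((q : ℝ) + 2) with hγdef
  have hγ0 : 0 ≤ γ := by
    have : 0 ≤ Real.log ((q : ℝ) + 2) := Real.log_nonneg (by linarith)
    positivity
  intro t
  induction t using Nat.strong_induction_on with
  | _ t ih =>
    intro Rem P e Lab hRem hdisj hcard heJ hcn hn1 hJ hmin he hgood
    by_cases hne : Rem = ∅
    · subst hne
      refine ⟨2 ^ (J - e), Lab, ?_⟩
      simpa using hgood
    · obtain ⟨i₀, hi₀, hmn⟩ := Finset.exists_min_image Rem n (Finset.nonempty_iff_ne_empty.mpr hne)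
      set nm := n i₀ with hnm
      have hnm1 : 1 ≤ nm := hn1 i₀ hi₀
      set b := Nat.log 2 (nm / 2) with hb
      set B := 2 ^ b with hBdef
      have hBpos : 0 < B := by positivity
      have hB1 : B ≤ nm := by
        by_cases h : nm / 2 = 0
        · rw [hBdef, hb, h]
          simpa using hnm1
        · have h3 : B ≤ nm / 2 := Nat.pow_log_le_self 2 h
          have h2 := Nat.div_le_self nm 2
          omega
      have hB2 : nm < 4 * B := by
        have h1 := Nat.lt_pow_succ_log_self (b := 2) (by norm_num) (nm / 2)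
        have h2 : 2 ^ (Nat.log 2 (nm / 2)).succ = 2 * B := by
          rw [hBdef, hb, pow_succ]
          ring
        rw [h2] at h1
        omega
      have heb : e ≤ b := by
        rcases he with h | h
        · omega
        · have h1 := h i₀ hi₀
          apply Nat.le_log_of_pow_le (by norm_num)
          rw [Nat.le_div_iff_mul_le (by norm_num)]
          rw [pow_succ] at h1
          exact h1
      set w0 := ∑ j ∈ P, n j with hw0
      have hRpos : 1 ≤ 256 * q ^ 2 := by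
        have : 1 ≤ q ^ 2 := Nat.one_le_pow _ _ hq
        omega
      obtain ⟨I, hIR, hi₀I, hstop, htot⟩ :=
        greedy Rem n (256 * q ^ 2) w0 hRpos i₀ hi₀ (hmin i₀ hi₀)
      have hgpos : 1 ≤ I.card := Finset.card_pos.mpr ⟨i₀, hi₀I⟩
      have hgq : I.card ≤ q := by
        have := Finset.card_le_card hIR
        omega
      set wI := ∑ j ∈ I, n j with hwI
      have hnmwI : nm ≤ wI := Finset.single_le_sum (f := n) (fun _ _ => Nat.zero_le _) hi₀I
      obtain ⟨l, hl1, hl2, hl3⟩ := levels q I.card B nm w0 wI hq hgpos hgq hBpos hB1 hB2 hnmwI htot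
      -- time scales
      have hwItot : wI ≤ ∑ i ∈ P ∪ Rem, n i :=
        Finset.sum_le_sum_of_subset (subset_trans hIR Finset.subset_union_right)
      have h4BL : 4 * B * 2 ^ l ≤ 2 ^ J :=
        le_trans hl2 (le_trans (Nat.mul_le_mul_left _ hwItot) hJ)
      have habJ : b + l + 1 + 1 ≤ J := by
        have h1 : 2 ^ (b + l + 1 + 1) ≤ 2 ^ J := by
          have : 2 ^ (b + l + 1 + 1) = 4 * B * 2 ^ l := by
            rw [hBdef, pow_succ, pow_succ, pow_add]
            ring
          omega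
        exact (Nat.pow_le_pow_iff_right (by norm_num)).mp h1
      obtain ⟨hT, hD⟩ := pow_facts b l J e (by omega) heb
      set V := 2 ^ (J - (b + l + 1)) with hV
      have hVpos : 0 < V := by positivity
      have hLpos : 0 < 2 ^ l := by positivity
      have hKge : (1 : ℝ) ≤ 8 * (q : ℝ) := by linarith
      have hIn : ∀ i ∈ I, B ≤ n i := fun i hi => le_trans hB1 (hmn i (hIR hi))
      have hw0B : ∑ i ∈ P, (n i : ℝ) ≤ B := by
        have h1 := hmin i₀ hi₀
        have h2 : 4 * w0 ≤ 256 * q ^ 2 * w0 := by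
          have : 4 ≤ 256 * q ^ 2 := by
            have : 1 ≤ q ^ 2 := Nat.one_le_pow _ _ hq
            omega
          exact Nat.mul_le_mul_right _ this
        have h3 : w0 ≤ B := by omega
        have h4 : ((w0 : ℕ) : ℝ) ≤ B := by exact_mod_cast h3
        rw [hw0] at h4
        push_cast at h4
        exact h4
      have hbdA : (P.card : ℝ) * (γ + A / (8 * q)) ≤ A ^ 2 :=
        bd_le P.card q (by omega) hq γ A hγ0 hA0 hAγ
      have hLK : (8 * (q : ℝ)) * ((∑ i ∈ I, (n i : ℝ)) / B + 2 * I.card) ≤ ((2 ^ l : ℕ) : ℝ) := by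
        have h1 : ((wI : ℕ) : ℝ) = ∑ i ∈ I, (n i : ℝ) := by
          rw [hwI]
          push_cast
          rfl
        rw [← h1]
        exact hl1
      have hcP : ∀ i ∈ P, ‖c i‖ ≤ 1 := fun i hi => hcn i (Finset.mem_union_left _ hi)
      have hcI : ∀ i ∈ I, ‖c i‖ ≤ 1 := fun i hi => hcn i (Finset.mem_union_right _ (hIR hi))
      have hdisjPI : Disjoint P I := Finset.disjoint_of_subset_right hIR hdisj
      rw [← hT] at hgood
      obtain ⟨Lab₁, hLab₁⟩ := good_step hC c n P I hdisjPI hcP hcI B (2 ^ l) V (2 ^ (J - e)) hBpos hLpos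
        hVpos hD hIn (8 * (q : ℝ)) hKge hLK hw0B A _ hA0 hbdA Lab hgood
      rw [hT] at hLab₁
      have hTb := T_bound hC0 I.card q hgpos hgq ((2 ^ l : ℕ) : ℝ) (by positivity) hl3
      have hgood₁ : Good c n (2 ^ J) V (P ∪ I) Lab₁ (((P.card + I.card : ℕ) : ℝ) * (γ + A / (8 * q))) :=
        hLab₁.mono (by
          have h := bd_step P.card I.card q hgpos hq γ A _ hA0 hTb
          linarith)
      -- recursion on the remaining types
      have hIc : (Rem \ I).card + I.card = Rem.card := Finset.card_sdiff_add_card_eq_card hIR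
      have hcardPI : (P ∪ I).card = P.card + I.card := Finset.card_union_of_disjoint hdisjPI
      have hunion : (P ∪ I) ∪ (Rem \ I) = P ∪ Rem := by
        ext x
        simp only [Finset.mem_union, Finset.mem_sdiff]
        constructor
        · rintro ((h | h) | ⟨h, -⟩)
          · exact Or.inl h
          · exact Or.inr (hIR h)
          · exact Or.inr h
        · rintro (h | h)
          · exact Or.inl (Or.inl h)
          · by_cases h' : x ∈ I
            · exact Or.inl (Or.inr h')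
            · exact Or.inr ⟨h, h'⟩
      have hsumPI : ∑ j ∈ P ∪ I, n j = w0 + wI := Finset.sum_union hdisjPI
      have hgood₂ : Good c n (2 ^ J) (2 ^ (J - (b + l + 1))) (P ∪ I) Lab₁
          (((P ∪ I).card : ℝ) * (γ + A / (8 * q))) := by
        rw [hcardPI]
        exact hgood₁
      obtain ⟨D', Lab', hfin⟩ := ih (Rem \ I).card (by omega) (Rem \ I) (P ∪ I) (b + l + 1) Lab₁ rfl
        (by
          rw [Finset.disjoint_union_left]
          exact ⟨Finset.disjoint_of_subset_right Finset.sdiff_subset hdisj, Finset.disjoint_sdiff⟩)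
        (by omega) (by omega)
        (by rw [hunion]; exact hcn)
        (fun i hi => hn1 i (Finset.mem_sdiff.mp hi).1)
        (by rw [hunion]; exact hJ)
        (by
          intro i hi
          rw [hsumPI]
          exact hstop i hi)
        (by
          right
          intro i hi
          have h1 := hstop i hi
          have h2 : 2 ^ (b + l + 1 + 1) = 4 * B * 2 ^ l := by
            rw [hBdef, pow_succ, pow_succ, pow_add]
            ring
          rw [h2]
          refine le_trans hl2 (le_trans (Nat.mul_le_mul_left _ ?_) h1)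
          omega)
        hgood₂
      refine ⟨D', Lab', ?_⟩
      rw [hunion] at hfin
      have h3 : (P ∪ I).card + (Rem \ I).card = P.card + Rem.card := by omega
      rw [h3] at hfin
      exact hfin

end Vale.Agent.Lib.P262
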