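import Mathlib

/-!
Statement-level definitions for P262 (Euclidean Steinitz constant).
-/

namespace Vale.Agent.Lib.P262

/-- The known theorem of Banaszczyk (2012), with absolute constant `C`, as listed in the
problem file: every zero-sum family of `N` vectors in the unit ball of Euclidean `ℝ^k`
has an ordering all of whose initial segment sums have norm at most
`C * (√k + √(log (N + 2)))`. -/
def BanaszczykOrdering (C : ℝ) : Prop :=
  ∀ (k N : ℕ) (v : Fin N → EuclideanSpace ℝ (Fin k)),
    (∀ i, ‖v i‖ ≤ 1) → ∑ i, v i = 0 →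
    ∃ π : Equiv.Perm (Fin N), ∀ m : ℕ, m ≤ N →
      ‖∑ i ∈ Finset.univ.filter (fun i : Fin N => i.val < m), v (π i)‖
        ≤ C * (Real.sqrt k + Real.sqrt (Real.log ((N : ℝ) + 2)))

end Vale.Agent.Lib.P262
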