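import Vale.Agent.Lib.P262.Compose2

namespace Vale.Agent.Lib.P262

open Module

variable {E : Type*} [NormedAddCommGroup E] [InnerProductSpace ℝ E]
variable {ι : Type*} [DecidableEq ι]

set_option linter.unusedSectionVars false
set_option linter.unusedVariables false

/-- The bound for `q` types. -/
noncomputable def Fq (C : ℝ) (q : ℕ) : ℝ :=
  Real.sqrt (2 * q * (5000 * (C ^ 2 + 1) * Real.log ((q : ℝ) + 2)) + 1)

theorem filterMap_range_count (f : ℕ → Option ι) (i : ι) (T : ℕ) :
    ((List.range T).filterMap f).count i = ∑ m ∈ Finset.range T, ind i (f m) := by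
  induction T with
  | zero => simp
  | succ T ih =>
    rw [List.range_succ, List.filterMap_append, List.count_append, ih, Finset.sum_range_succ]
    congr 1
    simp only [List.filterMap_cons, List.filterMap_nil]
    cases h : f T with
    | none => simp [ind]
    | some j =>
      simp only [ind, List.count_cons, List.count_nil, zero_add]
      by_cases hj : j = i
      · simp [hj]
      · simp [hj]

theorem filterMap_range_sum {α : Type*} (c : α → E) (f : ℕ → Option α) (T : ℕ) :
    (((List.range T).filterMap f).map c).sum = ∑ l ∈ Finset.range T,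
      (match f l with | none => 0 | some a => c a) := by
  induction T with
  | zero => simp
  | succ T ih =>
    rw [List.range_succ, List.filterMap_append, List.map_append, List.sum_append, ih,
      Finset.sum_range_succ]
    congr 1
    simp only [List.filterMap_cons, List.filterMap_nil]
    cases h : f T with
    | none => simp
    | some j => simp

theorem filterMap_range_take {α : Type*} (f : ℕ → Option α) (T x : ℕ) :
    ∃ m ≤ T, ((List.range T).filterMap f).take x = (List.range m).filterMap f := by
  induction T with
  | zero => exact ⟨0, le_rfl, by simp⟩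
  | succ T ih =>
    rw [List.range_succ, List.filterMap_append]
    by_cases hx : x ≤ ((List.range T).filterMap f).length
    · rw [List.take_append_of_le_length hx]
      obtain ⟨m, hm, h⟩ := ih
      exact ⟨m, by omega, h⟩
    · refine ⟨T + 1, le_rfl, ?_⟩
      rw [List.range_succ, List.filterMap_append]
      push Not at hx
      rw [List.take_append, List.take_of_length_le hx.le]
      congr 1
      simp only [List.filterMap_cons, List.filterMap_nil]
      cases h : f T with
      | none => simp
      | some a =>
        simp only [List.take_eq_self_iff, List.length_cons, List.length_nil]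
        omega

theorem Fq_nonneg (C : ℝ) (q : ℕ) : 0 ≤ Fq C q := Real.sqrt_nonneg _

/-- Few types, arbitrary multiplicities. -/
theorem few_types {C : ℝ} (hC : BanaszczykOrdering C) (I : Finset ι) (c : ι → E)
    (hc : ∀ i ∈ I, ‖c i‖ ≤ 1) (n : ι → ℕ) (h0 : ∑ i ∈ I, (n i : ℝ) • c i = 0) :
    ∃ w : List ι, (∀ i, w.count i = if i ∈ I then n i else 0) ∧
      ∀ x : ℕ, ‖((w.take x).map c).sum‖ ≤ Fq C I.card := by
  classical
  by_cases hI : I = ∅
  · subst hI
    refine ⟨[], by simp, fun x => ?_⟩
    simp only [List.take_nil, List.map_nil, List.sum_nil, norm_zero]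
    exact Fq_nonneg _ _
  have hq : 1 ≤ I.card := Finset.card_pos.mpr (Finset.nonempty_iff_ne_empty.mpr hI)
  set q := I.card with hqdef
  have hqr : (1 : ℝ) ≤ q := by exact_mod_cast hq
  set I' := I.filter (fun i => 1 ≤ n i) with hI'
  have hI'sub : I' ⊆ I := Finset.filter_subset _ _
  have hsum' : ∑ i ∈ I', (n i : ℝ) • c i = 0 := by
    rw [← h0, hI', Finset.sum_filter]
    apply Finset.sum_congr rfl
    intro i _
    by_cases h : 1 ≤ n i
    · simp [h]
    · have : n i = 0 := by omega
      simp [this]
  set γ := 5000 * (C ^ 2 + 1) * Real.log ((q : ℝ) + 2) with hγ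
  have hγ0 : 0 ≤ γ := by
    have : 0 ≤ Real.log ((q : ℝ) + 2) := Real.log_nonneg (by linarith)
    positivity
  set A := Fq C q with hA
  have hAsq : A ^ 2 = 2 * q * γ + 1 := by
    rw [hA, Fq]
    exact Real.sq_sqrt (by positivity)
  have hA0 : 0 ≤ A := Fq_nonneg _ _
  have hA1 : 1 ≤ A := by
    have h1 : 1 ≤ A ^ 2 := by
      rw [hAsq]
      have : 0 ≤ 2 * (q : ℝ) * γ := by positivity
      linarith
    by_contra h
    push Not at h
    nlinarith
  have hAγ : q * γ + A / 8 ≤ A ^ 2 := by
    rw [hAsq]
    have h2 : A ≤ A ^ 2 := by nlinarith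
    have h3 : 0 ≤ (q : ℝ) * γ := by positivity
    have h4 : A ≤ 2 * q * γ + 1 := by linarith
    linarith
  set J := Nat.clog 2 (256 * q ^ 2 * ∑ i ∈ I', n i) with hJ
  have hJle : 256 * q ^ 2 * ∑ i ∈ I', n i ≤ 2 ^ J := Nat.le_pow_clog (by norm_num) _
  have hstart : Good c n (2 ^ J) (2 ^ (J - 0)) ∅ (fun _ => none)
      (((∅ : Finset ι).card : ℝ) * (γ + A / (8 * q))) := by
    constructor
    · intro m i h
      simp at h
    · intro i hi
      simp at hi
    · intro m _
      simp [ev]
  obtain ⟨D, Lab, hgood⟩ := compose hC c n q J hq A hA0 hAγ I'.card I' ∅ 0 (fun _ => none) rfl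
    (Finset.disjoint_empty_left _)
    (by
      simp only [Finset.card_empty, zero_add]
      exact Finset.card_le_card hI'sub)
    (Nat.zero_le _)
    (by
      intro i hi
      simp only [Finset.empty_union] at hi
      exact hc i (hI'sub hi))
    (fun i hi => (Finset.mem_filter.mp hi).2)
    (by simpa using hJle)
    (by simp)
    (Or.inl rfl)
    hstart
  simp only [Finset.empty_union, Finset.card_empty, zero_add] at hgood
  refine ⟨(List.range (2 ^ J)).filterMap Lab, ?_, ?_⟩
  · intro i
    rw [filterMap_range_count]
    by_cases hi : i ∈ I'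
    · rw [hgood.count i hi, if_pos (hI'sub hi)]
    · have h1 : ∑ m ∈ Finset.range (2 ^ J), ind i (Lab m) = 0 := by
        apply Finset.sum_eq_zero
        intro m _
        apply ind_zero_of_ne
        intro j hj hji
        subst hji
        exact hi (hgood.supp m j hj).1
      rw [h1]
      by_cases hi2 : i ∈ I
      · rw [if_pos hi2]
        have : ¬ 1 ≤ n i := fun h => hi (Finset.mem_filter.mpr ⟨hi2, h⟩)
        omega
      · rw [if_neg hi2]
  · intro x
    obtain ⟨m, hm, hmt⟩ := filterMap_range_take Lab (2 ^ J) x
    rw [hmt, filterMap_range_sum]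
    have hev : ∀ l, (match Lab l with | none => 0 | some a => c a) = ev c (Lab l) := by
      intro l
      cases Lab l <;> rfl
    simp only [hev]
    cases m with
    | zero =>
      simp
      exact hA0
    | succ m =>
      have h1 := hgood.bound m (by omega)
      rw [hsum', smul_zero, sub_zero] at h1
      have h2 : (I'.card : ℝ) * (γ + A / (8 * q)) ≤ A ^ 2 :=
        bd_le I'.card q (Finset.card_le_card hI'sub) hq γ A hγ0 hA0 hAγ
      have h3 := le_trans h1 h2
      exact (pow_le_pow_iff_left₀ (norm_nonneg _) hA0 (by norm_num)).mp h3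

end Vale.Agent.Lib.P262
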