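import Mathlib

namespace Vale.Agent.Lib.P262

/-- A grid of small cells covering a ball of Euclidean space. -/
theorem grid (d : ℕ) (hd : 1 ≤ d) (R η : ℝ) (hR : 0 ≤ R) (hη : 0 < η) :
    ∃ (cell : EuclideanSpace ℝ (Fin d) → (Fin d → ℤ)) (Cs : Finset (Fin d → ℤ)),
      Cs.card ≤ (2 * ⌈R * Real.sqrt d / η⌉₊ + 3) ^ d ∧ (∀ x, ‖x‖ ≤ R → cell x ∈ Cs) ∧
      ∀ x y, cell x = cell y → ‖x - y‖ ≤ η := by
  have hdr : (0 : ℝ) < d := by exact_mod_cast hd
  have hsq : 0 < Real.sqrt d := Real.sqrt_pos.mpr hdr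
  set s := η / Real.sqrt d with hs
  have hspos : 0 < s := by positivity
  set M0 := ⌈R * Real.sqrt d / η⌉₊ with hM0
  set M : ℤ := (M0 : ℤ) + 1 with hM
  refine ⟨fun x j => ⌊x j / s⌋, Fintype.piFinset (fun _ => Finset.Icc (-M) M), ?_, ?_, ?_⟩
  · rw [Fintype.card_piFinset]
    simp only [Finset.prod_const, Finset.card_univ, Fintype.card_fin, Int.card_Icc]
    apply le_of_eq
    congr 1
    rw [hM]
    omega
  · intro x hx
    simp only [Fintype.mem_piFinset, Finset.mem_Icc]
    intro j
    have h1 : |x j| ≤ R := by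
      have := PiLp.norm_apply_le x j
      rw [Real.norm_eq_abs] at this
      linarith
    have h2 : |x j / s| ≤ R * Real.sqrt d / η := by
      rw [abs_div, abs_of_pos hspos, hs]
      rw [div_div_eq_mul_div]
      exact div_le_div_of_nonneg_right (mul_le_mul_of_nonneg_right h1 hsq.le) hη.le
    have h3 : R * Real.sqrt d / η ≤ M0 := Nat.le_ceil _
    have hMr : ((M : ℤ) : ℝ) = (M0 : ℝ) + 1 := by
      rw [hM]
      push_cast
      ring
    obtain ⟨h4, h5⟩ := abs_le.mp h2
    constructor
    · apply Int.le_floor.mpr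
      push_cast
      rw [hMr]
      linarith
    · have : (⌊x j / s⌋ : ℝ) ≤ M := by
        have := Int.floor_le (x j / s)
        rw [hMr]
        linarith
      exact_mod_cast this
  · intro x y hxy
    have h1 : ∀ j, ‖(x - y) j‖ ≤ s := by
      intro j
      have h2 : ⌊x j / s⌋ = ⌊y j / s⌋ := congrFun hxy j
      have h3 := Int.abs_sub_lt_one_of_floor_eq_floor h2
      have h4 : x j / s - y j / s = (x j - y j) / s := by ring
      rw [h4, abs_div, abs_of_pos hspos, div_lt_one hspos] at h3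
      simp only [PiLp.sub_apply, Real.norm_eq_abs]
      exact h3.le
    have h2 : ‖x - y‖ ^ 2 ≤ η ^ 2 := by
      rw [EuclideanSpace.norm_sq_eq]
      calc ∑ j, ‖(x - y) j‖ ^ 2 ≤ ∑ j : Fin d, s ^ 2 := by
            apply Finset.sum_le_sum
            intro j _
            exact pow_le_pow_left₀ (norm_nonneg _) (h1 j) 2
        _ = η ^ 2 := by
            simp only [Finset.sum_const, Finset.card_univ, Fintype.card_fin, nsmul_eq_mul]
            rw [hs, div_pow, Real.sq_sqrt hdr.le]
            field_simp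
    exact (pow_le_pow_iff_left₀ (norm_nonneg _) hη.le (by norm_num)).mp h2

end Vale.Agent.Lib.P262
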