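import Vale.Agent.Lib.P262.Slots

namespace Vale.Agent.Lib.P262

open Module

variable {E : Type*} [NormedAddCommGroup E] [InnerProductSpace ℝ E]
variable {ι : Type*} [DecidableEq ι]

/-- Vector of a label; blanks carry zero. -/
def ev (c : ι → E) : Option ι → E
  | none => 0
  | some i => c i

/-- Indicator of a type. -/
def ind (i : ι) : Option ι → ℕ
  | none => 0
  | some j => if j = i then 1 else 0

theorem mem_of_getD_eq_some {α : Type*} {w : List (Option α)} {j : ℕ} {a : α}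
    (h : w.getD j none = some a) : some a ∈ w := by
  induction w generalizing j with
  | nil => simp at h
  | cons b w ih =>
    cases j with
    | zero =>
      simp only [List.getD_cons_zero] at h
      rw [h]
      exact List.mem_cons_self
    | succ j =>
      simp only [List.getD_cons_succ] at h
      exact List.mem_cons_of_mem _ (ih h)

/-- Rounded counts at all block boundaries. -/
theorem rounding_family (I : Finset ι) (c : ι → E) (hc : ∀ i ∈ I, ‖c i‖ ≤ 1) (n : ι → ℕ)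
    (B : ℕ) (hB : 0 < B) (hn : ∀ i ∈ I, B ≤ n i) (Q' : ℕ → E) :
    ∃ z : ℕ → ι → ℕ, (∀ i ∈ I, z 0 i = 0) ∧ (∀ i ∈ I, z B i = n i) ∧
      (∀ k, ∀ i ∈ I, z k i ≤ z (k + 1) i) ∧
      (∀ k, ∀ i ∈ I, (z (k + 1) i : ℝ) - z k i ≤ (n i : ℝ) / B + 2) ∧
      ∀ k, inner ℝ (Q' k) (∑ i ∈ I, (z k i : ℝ) • c i - ((k : ℝ) / B) • ∑ i ∈ I, (n i : ℝ) • c i)
        + ‖∑ i ∈ I, (z k i : ℝ) • c i - ((k : ℝ) / B) • ∑ i ∈ I, (n i : ℝ) • c i‖ ^ 2
        ≤ (I.card : ℝ) / 4 := by
  have hBr : (0 : ℝ) < B := by exact_mod_cast hB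
  let x : ℕ → ι → ℝ := fun k i => (n i : ℝ) * k / B
  have hx : ∀ k i, x k i = (n i : ℝ) * k / B := fun _ _ => rfl
  have hx0 : ∀ k, ∀ i, 0 ≤ x k i := fun k i => by rw [hx]; positivity
  have hround := fun k : ℕ => rounding I (x k) (fun i _ => hx0 k i) c hc (Q' k)
  choose z hz hE using hround
  have hErN : ∀ k, ∑ i ∈ I, ((z k i : ℝ) - x k i) • c i
      = ∑ i ∈ I, (z k i : ℝ) • c i - ((k : ℝ) / B) • ∑ i ∈ I, (n i : ℝ) • c i := by
    intro k
    rw [Finset.smul_sum, ← Finset.sum_sub_distrib]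
    apply Finset.sum_congr rfl
    intro i _
    rw [sub_smul, smul_smul, hx]
    congr 2
    ring
  have hstep : ∀ k, ∀ i ∈ I, x (k + 1) i = x k i + (n i : ℝ) / B := by
    intro k i _
    rw [hx, hx]
    push_cast
    ring
  refine ⟨z, ?_, ?_, ?_, ?_, ?_⟩
  · intro i hi
    have := (hz 0 i hi).2
    simpa [hx] using this
  · intro i hi
    have hxB : x B i = n i := by
      rw [hx]
      field_simp
    have h1 := (hz B i hi).1
    have h2 := (hz B i hi).2
    rw [hxB, Nat.floor_natCast] at h1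
    rw [hxB, Nat.ceil_natCast] at h2
    omega
  · intro k i hi
    have h1 := (hz k i hi).2
    have h2 := (hz (k + 1) i hi).1
    have h3 : ⌈x k i⌉₊ ≤ ⌊x k i⌋₊ + 1 := Nat.ceil_le_floor_add_one _
    have h4 : ⌊x k i⌋₊ + 1 = ⌊x k i + 1⌋₊ := (Nat.floor_add_one (hx0 k i)).symm
    have h5 : ⌊x k i + 1⌋₊ ≤ ⌊x (k + 1) i⌋₊ := by
      apply Nat.floor_mono
      rw [hstep k i hi]
      have h6 : (B : ℝ) ≤ n i := by exact_mod_cast hn i hi
      have : 1 ≤ (n i : ℝ) / B := (one_le_div hBr).mpr h6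
      linarith
    omega
  · intro k i hi
    have h1 : (z (k + 1) i : ℝ) ≤ ⌈x (k + 1) i⌉₊ := by exact_mod_cast (hz (k + 1) i hi).2
    have h2 : ((⌈x (k + 1) i⌉₊ : ℕ) : ℝ) < x (k + 1) i + 1 := Nat.ceil_lt_add_one (hx0 _ _)
    have h3 : ((⌊x k i⌋₊ : ℕ) : ℝ) ≤ z k i := by exact_mod_cast (hz k i hi).1
    have h4 : x k i < ((⌊x k i⌋₊ : ℕ) : ℝ) + 1 := Nat.lt_floor_add_one _
    have h5 := hstep k i hi
    linarith
  · intro k
    rw [← hErN]
    exact hE k

/-- Arranged blocks. -/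
theorem word_family {C : ℝ} (hC : BanaszczykOrdering C) (I : Finset ι) (c : ι → E)
    (hc : ∀ i ∈ I, ‖c i‖ ≤ 1) (b : ℕ → ι → ℕ) (B L : ℕ) (hL : 0 < L)
    (hbL : ∀ k, ∑ i ∈ I, b k i ≤ L) (Q' : ℕ → E) :
    ∃ word : ℕ → List (Option ι), (∀ k, ¬ k < B → word k = []) ∧
      (∀ k, k < B → (word k).Perm (blkList I (b k) L)) ∧
      ∀ k, k < B → ∀ J ≤ L,
        inner ℝ (Q' k) ((((word k).take J).map (ev c)).sum
          - ((J : ℝ) / L) • ∑ i ∈ I, (b k i : ℝ) • c i) ≤ 0 ∧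
        ‖((((word k).take J).map (ev c))).sum - ((J : ℝ) / L) • ∑ i ∈ I, (b k i : ℝ) • c i‖
          ≤ 4 * (C * (Real.sqrt I.card + Real.sqrt (Real.log ((L : ℝ) + 2)))) := by
  classical
  have hC0 : 0 ≤ C := hC.nonneg
  let W : Submodule ℝ E := Submodule.span ℝ ((I.image c : Finset E) : Set E)
  have : FiniteDimensional ℝ W := FiniteDimensional.span_finset ℝ _
  have hWcard : finrank ℝ W ≤ I.card :=
    le_trans (finrank_span_finset_le_card _) Finset.card_image_le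
  let blk : ℕ → List (Option ι) := fun k => blkList I (b k) L
  have hblklen : ∀ k, (blk k).length = L := fun k => length_blkList I (b k) L (hbL k)
  have hg0 : ev c none = 0 := rfl
  have hgW : ∀ k, ∀ y ∈ blk k, ev c y ∈ W := by
    intro k y hy
    rcases mem_blkList hy with rfl | ⟨i, hi, rfl⟩
    · exact W.zero_mem
    · apply Submodule.subset_span
      simp only [Finset.coe_image, Set.mem_image, Finset.mem_coe]
      exact ⟨i, hi, rfl⟩
  have hg1 : ∀ k, ∀ y ∈ blk k, ‖ev c y‖ ≤ 1 := by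
    intro k y hy
    rcases mem_blkList hy with rfl | ⟨i, hi, rfl⟩
    · simp [hg0]
    · exact hc i hi
  have hLen : ∀ k, 0 < (blk k).length := fun k => by rw [hblklen]; exact hL
  have harr := fun k : ℕ => block_arrange hC W (blk k) (ev c) (hgW k) (hg1 k) (hLen k) (Q' k)
  choose word0 hword0 hwordb using harr
  have hs : ∀ k, ((blk k).map (ev c)).sum = ∑ i ∈ I, (b k i : ℝ) • c i := by
    intro k
    simp only [blk]
    rw [sum_blkList (ev c) hg0]
    apply Finset.sum_congr rfl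
    intro i _
    rw [← Nat.cast_smul_eq_nsmul ℝ]
    rfl
  refine ⟨fun k => if k < B then word0 k else [], ?_, ?_, ?_⟩
  · intro k hk
    simp [hk]
  · intro k hk
    simp only [hk, if_true]
    exact hword0 k
  · intro k hk J hJ
    simp only [hk, if_true]
    have h := hwordb k J (by rw [hblklen]; exact hJ)
    rw [hblklen, hs] at h
    refine ⟨h.1, le_trans h.2 ?_⟩
    have h1 : Real.sqrt (finrank ℝ W) ≤ Real.sqrt I.card := by
      apply Real.sqrt_le_sqrt
      exact_mod_cast hWcard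
    have h2 : C * (Real.sqrt (finrank ℝ W) + Real.sqrt (Real.log ((L : ℝ) + 2)))
        ≤ C * (Real.sqrt I.card + Real.sqrt (Real.log ((L : ℝ) + 2))) :=
      mul_le_mul_of_nonneg_left (by linarith) hC0
    linarith

/-- Time arithmetic for a time below the end. -/
theorem time_facts (m B L V : ℕ) (hL : 0 < L) (hV : 0 < V) (hm : m < B * (L * (2 * V))) :
    m / (L * (2 * V)) < B ∧ (m % (L * (2 * V)) + V) / (2 * V) ≤ L ∧
    (m + 1 + V - 1) / (2 * V) = (m / (L * (2 * V))) * L + (m % (L * (2 * V)) + V) / (2 * V) ∧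
    |(((m % (L * (2 * V)) + V) / (2 * V) : ℕ) : ℝ) / L - ((m % (L * (2 * V)) : ℕ) : ℝ) / ((L * (2 * V) : ℕ) : ℝ)|
      ≤ 1 / (2 * L) := by
  have hU : 0 < L * (2 * V) := by positivity
  have hDpos : 0 < 2 * V := by omega
  have hLr : (0 : ℝ) < L := by exact_mod_cast hL
  have hVr : (0 : ℝ) < V := by exact_mod_cast hV
  generalize hUdef : L * (2 * V) = U at *
  have hmdiv : U * (m / U) + m % U = m := Nat.div_add_mod m U
  have hrU : m % U < U := Nat.mod_lt m hU
  generalize m / U = k at *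
  generalize m % U = r at *
  generalize hJ : (r + V) / (2 * V) = J
  have hJmul1 : J * (2 * V) ≤ r + V := by rw [← hJ]; exact Nat.div_mul_le_self _ _
  have hJmul2 : r + V < (J + 1) * (2 * V) := by
    have h9 := Nat.div_add_mod (r + V) (2 * V)
    have h10 := Nat.mod_lt (r + V) hDpos
    rw [hJ] at h9
    rw [add_mul, one_mul, mul_comm]
    omega
  refine ⟨?_, ?_, ?_, ?_⟩
  · by_contra h
    push Not at h
    have h1 : B * U ≤ U * k := by
      rw [mul_comm B U]
      exact Nat.mul_le_mul_left _ h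
    omega
  · have h1 : r + V < (L + 1) * (2 * V) := by
      have : (L + 1) * (2 * V) = U + 2 * V := by rw [← hUdef]; ring
      omega
    have h2 := (Nat.div_lt_iff_lt_mul hDpos).mpr h1
    omega
  · have e : m + 1 + V - 1 = (r + V) + (k * L) * (2 * V) := by
      have : U * k = (k * L) * (2 * V) := by rw [← hUdef]; ring
      omega
    rw [e, Nat.add_mul_div_right _ _ hDpos, hJ]
    omega
  · have h1 : ((J : ℝ)) * (2 * V) ≤ r + V := by exact_mod_cast hJmul1
    have h2 : (r : ℝ) + V < ((J : ℝ) + 1) * (2 * V) := by exact_mod_cast hJmul2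
    have hUeq : (U : ℝ) = L * (2 * V) := by
      rw [← hUdef]
      push_cast
      ring
    have e : (J : ℝ) / L - (r : ℝ) / (U : ℝ) = ((J : ℝ) * (2 * V) - r) / (L * (2 * V)) := by
      rw [hUeq]
      field_simp
    rw [e, abs_div, abs_of_pos (by positivity : (0 : ℝ) < L * (2 * V))]
    rw [div_le_div_iff₀ (by positivity) (by positivity)]
    have h3 : |(J : ℝ) * (2 * V) - r| ≤ V := by
      rw [abs_le]
      constructor <;> nlinarith
    have h4 : 0 < (L : ℝ) * (2 * V) := by positivity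
    nlinarith

/-- Event sums at a time below the end. -/
theorem lab_sum {α : Type*} {A' : Type*} [AddCommMonoid A'] (g' : Option α → A') (hg' : g' none = 0)
    (word : ℕ → List (Option α)) (m B L V : ℕ) (hL : 0 < L) (hV : 0 < V)
    (hm : m < B * (L * (2 * V))) (hlen : ∀ k < B, (word k).length = L) :
    ∑ l ∈ Finset.range (m + 1), g' (slotLab V (blockSlot L word) l)
      = ∑ k' ∈ Finset.range (m / (L * (2 * V))), ((word k').map g').sum +
        (((word (m / (L * (2 * V)))).take ((m % (L * (2 * V)) + V) / (2 * V))).map g').sum := by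
  obtain ⟨h1, h2, h3, -⟩ := time_facts m B L V hL hV hm
  rw [sum_slotLab g' hg' V hV, h3]
  exact sum_blockSlot g' hg' L hL word _ _ h2 (fun k' hk' => hlen k' (by omega))

/-- Event sums up to the end. -/
theorem lab_sum_total {α : Type*} {A' : Type*} [AddCommMonoid A'] (g' : Option α → A')
    (hg' : g' none = 0) (word : ℕ → List (Option α)) (B L V : ℕ) (hL : 0 < L) (hV : 0 < V)
    (hlen : ∀ k < B, (word k).length = L) :
    ∑ l ∈ Finset.range (B * (L * (2 * V))), g' (slotLab V (blockSlot L word) l)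
      = ∑ k' ∈ Finset.range B, ((word k').map g').sum := by
  have hDpos : 0 < 2 * V := by omega
  have hTeq : (B * (L * (2 * V)) + V - 1) / (2 * V) = B * L := by
    have e : B * (L * (2 * V)) + V - 1 = (V - 1) + (B * L) * (2 * V) := by
      have : B * (L * (2 * V)) = (B * L) * (2 * V) := by ring
      omega
    rw [e, Nat.add_mul_div_right _ _ hDpos, Nat.div_eq_of_lt (by omega), zero_add]
  rw [sum_slotLab g' hg' V hV, hTeq]
  have := sum_blockSlot g' hg' L hL word B 0 (by omega) hlen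
  simp only [add_zero, List.take_zero, List.map_nil, List.sum_nil] at this
  exact this

/-- The Hilbert space estimate in one block, with everything abstract. -/
theorem core_bound {Qm Q0 Q1 Nk Nk1 pref S : E} {k θ B Jr Lr K A q Tw : ℝ}
    (hθ0 : 0 ≤ θ) (hθ1 : θ ≤ 1) (hq1 : ‖Qm - Q0‖ ≤ 1) (hq2 : ‖Qm - Q1‖ ≤ 2)
    (hE0 : inner ℝ Q0 (Nk - (k / B) • S) + ‖Nk - (k / B) • S‖ ^ 2 ≤ q / 4)
    (hE1 : inner ℝ Q1 (Nk1 - ((k + 1) / B) • S) + ‖Nk1 - ((k + 1) / B) • S‖ ^ 2 ≤ q / 4)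
    (hw1 : inner ℝ Q0 (pref - (Jr / Lr) • (Nk1 - Nk)) ≤ 0)
    (hw2 : ‖pref - (Jr / Lr) • (Nk1 - Nk)‖ ≤ Tw)
    (hdiff : |Jr / Lr - θ| * ‖Nk1 - Nk‖ ≤ 1 / (2 * K))
    (hA : ‖Q0‖ ≤ A) (hK : 0 < K) :
    ‖Qm + (Nk + pref - ((k + θ) / B) • S)‖ ^ 2
      ≤ ‖Qm‖ ^ 2 + q / 2 + 9 + 4 * (Tw + 1 / (2 * K)) ^ 2 + A / K := by
  have hdev : Nk + pref - ((k + θ) / B) • S
      = ((1 - θ) • (Nk - (k / B) • S) + θ • (Nk1 - ((k + 1) / B) • S)) + (pref - θ • (Nk1 - Nk)) := by
    module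
  rw [hdev]
  have hI : pref - θ • (Nk1 - Nk) = (pref - (Jr / Lr) • (Nk1 - Nk)) + (Jr / Lr - θ) • (Nk1 - Nk) := by
    module
  have hextra : ‖(Jr / Lr - θ) • (Nk1 - Nk)‖ ≤ 1 / (2 * K) := by
    rw [norm_smul, Real.norm_eq_abs]
    exact hdiff
  have hIinner : inner ℝ Q0 (pref - θ • (Nk1 - Nk)) ≤ ‖Q0‖ * (1 / (2 * K)) := by
    rw [hI, inner_add_right]
    have h1 : inner ℝ Q0 ((Jr / Lr - θ) • (Nk1 - Nk)) ≤ ‖Q0‖ * ‖(Jr / Lr - θ) • (Nk1 - Nk)‖ :=
      real_inner_le_norm _ _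
    have h2 : ‖Q0‖ * ‖(Jr / Lr - θ) • (Nk1 - Nk)‖ ≤ ‖Q0‖ * (1 / (2 * K)) :=
      mul_le_mul_of_nonneg_left hextra (norm_nonneg _)
    linarith
  have hInorm : ‖pref - θ • (Nk1 - Nk)‖ ≤ Tw + 1 / (2 * K) := by
    rw [hI]
    exact le_trans (norm_add_le _ _) (by linarith)
  have hfin := block_ineq hθ0 hθ1 hq1 hq2 hE0 hE1 hIinner hInorm
  refine le_trans hfin ?_
  have h3 : 2 * (‖Q0‖ * (1 / (2 * K))) ≤ A / K := by
    have : 2 * (‖Q0‖ * (1 / (2 * K))) = ‖Q0‖ / K := by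
      field_simp
    rw [this]
    exact div_le_div_of_nonneg_right hA hK.le
  linarith

end Vale.Agent.Lib.P262
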