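import Vale.Agent.Lib.P262.GroupStep

namespace Vale.Agent.Lib.P262

open Module

variable {E : Type*} [NormedAddCommGroup E] [InnerProductSpace ℝ E]
variable {ι : Type*} [DecidableEq ι]

/-- Support of the labels built from words. -/
theorem lab_support (I : Finset ι) (word : ℕ → List (Option ι)) (b : ℕ → ι → ℕ) (B L V : ℕ)
    (hL : 0 < L) (hV : 0 < V) (hw0 : ∀ k, ¬ k < B → word k = [])
    (hwp : ∀ k, k < B → (word k).Perm (blkList I (b k) L)) (m : ℕ) (i : ι)
    (h : slotLab V (blockSlot L word) m = some i) :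
    i ∈ I ∧ m < B * (L * (2 * V)) ∧ m % (2 * V) = V := by
  have hDpos : 0 < 2 * V := by omega
  obtain ⟨h1, h2⟩ := slotLab_time h
  unfold blockSlot at h2
  have h3 := mem_of_getD_eq_some h2
  generalize hy : m / (2 * V) = y at *
  have h4 : y / L < B := by
    by_contra hcon
    rw [hw0 _ hcon] at h3
    simp at h3
  have h5 : some i ∈ blkList I (b (y / L)) L := (hwp _ h4).mem_iff.mp h3
  refine ⟨?_, ?_, h1⟩
  · rcases mem_blkList h5 with h6 | ⟨j, hj, h6⟩
    · simp at h6
    · rw [Option.some.injEq] at h6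
      rw [h6]
      exact hj
  · have h6 : y < B * L := (Nat.div_lt_iff_lt_mul hL).mp h4
    have h7 : m < (y + 1) * (2 * V) := by
      have h9 := Nat.div_add_mod m (2 * V)
      have h10 := Nat.mod_lt m hDpos
      rw [add_mul, one_mul, mul_comm, ← hy]
      omega
    have h8 : (y + 1) * (2 * V) ≤ B * (L * (2 * V)) := by
      have : B * (L * (2 * V)) = (B * L) * (2 * V) := by ring
      rw [this]
      exact Nat.mul_le_mul_right _ h6
    omega

theorem lab_count (I : Finset ι) (word : ℕ → List (Option ι)) (z : ℕ → ι → ℕ) (n : ι → ℕ)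
    (B L V : ℕ) (hL : 0 < L) (hV : 0 < V)
    (hwp : ∀ k, k < B → (word k).Perm (blkList I (fun i => z (k + 1) i - z k i) L))
    (hwlen : ∀ k < B, (word k).length = L)
    (hz0 : ∀ i ∈ I, z 0 i = 0) (hzB : ∀ i ∈ I, z B i = n i)
    (hmono : ∀ k, ∀ i ∈ I, z k i ≤ z (k + 1) i) (i : ι) (hi : i ∈ I) :
    ∑ m ∈ Finset.range (B * (L * (2 * V))), ind i (slotLab V (blockSlot L word) m) = n i := by
  rw [lab_sum_total (ind i) rfl word B L V hL hV hwlen]
  have h1 : ∀ k' ∈ Finset.range B, ((word k').map (ind i)).sum = z (k' + 1) i - z k' i := by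
    intro k' hk'
    rw [((hwp k' (Finset.mem_range.mp hk')).map (ind i)).sum_eq]
    rw [sum_blkList (ind i) rfl, Finset.sum_eq_single i]
    · simp [ind]
    · intro j _ hj
      simp [ind, hj]
    · intro h
      exact absurd hi h
  rw [Finset.sum_congr rfl h1]
  have h2 : ∀ K' : ℕ, ∑ k' ∈ Finset.range K', (z (k' + 1) i - z k' i) = z K' i - z 0 i := by
    intro K'
    induction K' with
    | zero => simp
    | succ K' ih =>
      rw [Finset.sum_range_succ, ih]
      have h3 : z 0 i ≤ z K' i := by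
        clear ih
        induction K' with
        | zero => exact le_rfl
        | succ K' ih2 => exact le_trans ih2 (hmono K' i hi)
      have h4 := hmono K' i hi
      omega
  rw [h2, hzB i hi, hz0 i hi]
  rfl

theorem group_step {C : ℝ} (hC : BanaszczykOrdering C) (I : Finset ι) (c : ι → E)
    (hc : ∀ i ∈ I, ‖c i‖ ≤ 1) (n : ι → ℕ) (B L V : ℕ) (hB : 0 < B) (hL : 0 < L) (hV : 0 < V)
    (hn : ∀ i ∈ I, B ≤ n i) (K : ℝ) (hK : 1 ≤ K)
    (hLK : K * ((∑ i ∈ I, (n i : ℝ)) / B + 2 * I.card) ≤ L)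
    (Q : ℕ → E) (A : ℝ) (hQA : ∀ m ≤ B * (L * (2 * V)), ‖Q m‖ ≤ A)
    (hQ1 : ∀ k < B, ∀ m, k * (L * (2 * V)) ≤ m → m < (k + 1) * (L * (2 * V)) →
      ‖Q m - Q (k * (L * (2 * V)))‖ ≤ 1 ∧ ‖Q m - Q ((k + 1) * (L * (2 * V)))‖ ≤ 2) :
    ∃ Lab : ℕ → Option ι,
      (∀ m i, Lab m = some i → i ∈ I ∧ m < B * (L * (2 * V)) ∧ m % (2 * V) = V) ∧
      (∀ i ∈ I, ∑ m ∈ Finset.range (B * (L * (2 * V))), ind i (Lab m) = n i) ∧
      ∀ m ≤ B * (L * (2 * V)),
        ‖Q m + (∑ l ∈ Finset.range (m + 1), ev c (Lab l)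
          - ((m : ℝ) / ((B * (L * (2 * V)) : ℕ) : ℝ)) • ∑ i ∈ I, (n i : ℝ) • c i)‖ ^ 2
        ≤ ‖Q m‖ ^ 2 + (I.card : ℝ) / 2 + 9 +
          4 * (4 * (C * (Real.sqrt I.card + Real.sqrt (Real.log ((L : ℝ) + 2)))) + 1 / (2 * K)) ^ 2
          + A / K := by
  classical
  have hK0 : 0 < K := by linarith
  have hBr : (0 : ℝ) < B := by exact_mod_cast hB
  have hLr : (0 : ℝ) < L := by exact_mod_cast hL
  have hU : 0 < L * (2 * V) := by positivity
  obtain ⟨z, hz0, hzB, hmono, hsize, hE⟩ :=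
    rounding_family I c hc n B hB hn (fun k => Q (k * (L * (2 * V))))
  let b : ℕ → ι → ℕ := fun k i => z (k + 1) i - z k i
  have hbcast : ∀ k, ∀ i ∈ I, (b k i : ℝ) = (z (k + 1) i : ℝ) - z k i := by
    intro k i hi
    simp only [b]
    rw [Nat.cast_sub (hmono k i hi)]
  have hbsum : ∀ k, (∑ i ∈ I, (b k i : ℝ)) ≤ (∑ i ∈ I, (n i : ℝ)) / B + 2 * I.card := by
    intro k
    calc ∑ i ∈ I, (b k i : ℝ) ≤ ∑ i ∈ I, ((n i : ℝ) / B + 2) := by
          apply Finset.sum_le_sum
          intro i hi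
          rw [hbcast k i hi]
          exact hsize k i hi
      _ = (∑ i ∈ I, (n i : ℝ)) / B + 2 * I.card := by
          rw [Finset.sum_add_distrib, Finset.sum_div]
          simp
          ring
  have hbL' : ∀ k, K * (∑ i ∈ I, (b k i : ℝ)) ≤ L := fun k =>
    le_trans (mul_le_mul_of_nonneg_left (hbsum k) hK0.le) hLK
  have hbL : ∀ k, ∑ i ∈ I, b k i ≤ L := by
    intro k
    have h1 : (∑ i ∈ I, (b k i : ℝ)) ≤ L := by
      have h2 := hbL' k
      have h3 : (0 : ℝ) ≤ ∑ i ∈ I, (b k i : ℝ) := by positivity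
      nlinarith
    exact_mod_cast h1
  obtain ⟨word, hw0, hwp, hwb⟩ :=
    word_family hC I c hc b B L hL hbL (fun k => Q (k * (L * (2 * V))))
  have hwlen : ∀ k < B, (word k).length = L := fun k hk => by
    rw [(hwp k hk).length_eq, length_blkList I (b k) L (hbL k)]
  let N : ℕ → E := fun k => ∑ i ∈ I, (z k i : ℝ) • c i
  have hs : ∀ k, ∑ i ∈ I, (b k i : ℝ) • c i = N (k + 1) - N k := by
    intro k
    simp only [N]
    rw [← Finset.sum_sub_distrib]
    apply Finset.sum_congr rfl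
    intro i hi
    rw [hbcast k i hi, sub_smul]
  have hwords : ∀ k < B, ((word k).map (ev c)).sum = N (k + 1) - N k := by
    intro k hk
    rw [((hwp k hk).map (ev c)).sum_eq, sum_blkList (ev c) rfl, ← hs]
    apply Finset.sum_congr rfl
    intro i _
    rw [← Nat.cast_smul_eq_nsmul ℝ]
    rfl
  have hN0 : N 0 = 0 := by
    simp only [N]
    apply Finset.sum_eq_zero
    intro i hi
    rw [hz0 i hi]
    simp
  have hNB : N B = ∑ i ∈ I, (n i : ℝ) • c i := by
    simp only [N]
    apply Finset.sum_congr rfl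
    intro i hi
    rw [hzB i hi]
  have hsumN : ∀ k, k ≤ B → ∑ k' ∈ Finset.range k, ((word k').map (ev c)).sum = N k := by
    intro k hk
    induction k with
    | zero => simp [hN0]
    | succ k ih =>
      rw [Finset.sum_range_succ, ih (by omega), hwords k (by omega)]
      abel
  have hsupport := lab_support I word b B L V hL hV hw0 hwp
  refine ⟨slotLab V (blockSlot L word), hsupport, ?_, ?_⟩
  · exact lab_count I word z n B L V hL hV hwp hwlen hz0 hzB hmono
  · intro m hmT
    have hA0 : 0 ≤ A := le_trans (norm_nonneg _) (hQA 0 (Nat.zero_le _))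
    have hT : 0 < B * (L * (2 * V)) := by positivity
    have hTr : (0 : ℝ) < ((B * (L * (2 * V)) : ℕ) : ℝ) := by exact_mod_cast hT
    by_cases hm : m = B * (L * (2 * V))
    · have hLabT : slotLab V (blockSlot L word) (B * (L * (2 * V))) = none := by
        by_contra hne
        obtain ⟨i, hi⟩ := Option.ne_none_iff_exists'.mp hne
        have := (hsupport _ i hi).2.1
        omega
      have h1 : ∑ l ∈ Finset.range (B * (L * (2 * V)) + 1), ev c (slotLab V (blockSlot L word) l)
          = ∑ i ∈ I, (n i : ℝ) • c i := by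
        rw [Finset.sum_range_succ, hLabT, lab_sum_total (ev c) rfl word B L V hL hV hwlen,
          hsumN B le_rfl, hNB]
        simp [ev]
      rw [hm, h1, div_self hTr.ne', one_smul, sub_self, add_zero]
      have h2 : 0 ≤ (I.card : ℝ) / 2 := by positivity
      have h3 : 0 ≤ A / K := by positivity
      have h4 : 0 ≤ 4 * (4 * (C * (Real.sqrt I.card + Real.sqrt (Real.log ((L : ℝ) + 2)))) + 1 / (2 * K)) ^ 2 := by
        positivity
      linarith
    · have hmlt : m < B * (L * (2 * V)) := lt_of_le_of_ne hmT hm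
      have hsumev := lab_sum (ev c) rfl word m B L V hL (by omega) hmlt hwlen
      obtain ⟨hkB, hJL, -, hdiff⟩ := time_facts m B L V hL (by omega) hmlt
      have hmdiv : (L * (2 * V)) * (m / (L * (2 * V))) + m % (L * (2 * V)) = m := Nat.div_add_mod m _
      have hrU : m % (L * (2 * V)) < L * (2 * V) := Nat.mod_lt m hU
      rw [hsumN _ hkB.le] at hsumev
      rw [hsumev]
      generalize hk : m / (L * (2 * V)) = k at *
      generalize hr : m % (L * (2 * V)) = r at *
      generalize hJ : (r + V) / (2 * V) = J at *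
      have hUr : (0 : ℝ) < ((L * (2 * V) : ℕ) : ℝ) := by exact_mod_cast hU
      have hrUr : (r : ℝ) < ((L * (2 * V) : ℕ) : ℝ) := by exact_mod_cast hrU
      have hθ0 : 0 ≤ (r : ℝ) / ((L * (2 * V) : ℕ) : ℝ) := by positivity
      have hθ1 : (r : ℝ) / ((L * (2 * V) : ℕ) : ℝ) ≤ 1 := by
        rw [div_le_one hUr]
        exact hrUr.le
      have hmr : (m : ℝ) = ((L * (2 * V) : ℕ) : ℝ) * k + r := by exact_mod_cast hmdiv.symm
      have hTreq : ((B * (L * (2 * V)) : ℕ) : ℝ) = B * ((L * (2 * V) : ℕ) : ℝ) := by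
        push_cast
        ring
      have hmT' : (m : ℝ) / ((B * (L * (2 * V)) : ℕ) : ℝ)
          = ((k : ℝ) + (r : ℝ) / ((L * (2 * V) : ℕ) : ℝ)) / B := by
        rw [hmr, hTreq]
        field_simp
      rw [hmT']
      have hm1 : k * (L * (2 * V)) ≤ m := by
        rw [← hmdiv, mul_comm (L * (2 * V)) k]
        omega
      have hm2 : m < (k + 1) * (L * (2 * V)) := by
        have : (k + 1) * (L * (2 * V)) = (L * (2 * V)) * k + L * (2 * V) := by ring
        omega
      obtain ⟨hq1, hq2⟩ := hQ1 k hkB m hm1 hm2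
      have hwb2 := hwb k hkB J hJL
      rw [hs] at hwb2
      have hsnorm : ‖N (k + 1) - N k‖ ≤ L / K := by
        rw [← hs]
        have h2 : ‖∑ i ∈ I, (b k i : ℝ) • c i‖ ≤ ∑ i ∈ I, (b k i : ℝ) := by
          refine le_trans (norm_sum_le _ _) ?_
          apply Finset.sum_le_sum
          intro i hi
          rw [norm_smul, Real.norm_of_nonneg (by positivity)]
          have := hc i hi
          have h3 : (0 : ℝ) ≤ b k i := by positivity
          nlinarith
        have h3 := hbL' k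
        rw [le_div_iff₀ hK0]
        nlinarith
      have hprod : |(J : ℝ) / L - (r : ℝ) / ((L * (2 * V) : ℕ) : ℝ)| * ‖N (k + 1) - N k‖
          ≤ 1 / (2 * K) := by
        calc |(J : ℝ) / L - (r : ℝ) / ((L * (2 * V) : ℕ) : ℝ)| * ‖N (k + 1) - N k‖
            ≤ 1 / (2 * L) * (L / K) := mul_le_mul hdiff hsnorm (norm_nonneg _) (by positivity)
          _ = 1 / (2 * K) := by field_simp
      have hA1 : ‖Q (k * (L * (2 * V)))‖ ≤ A := by
        apply hQA
        have h5 : (k + 1) * (L * (2 * V)) ≤ B * (L * (2 * V)) := Nat.mul_le_mul_right _ hkB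
        have h3 : (k + 1) * (L * (2 * V)) = k * (L * (2 * V)) + L * (2 * V) := by ring
        omega
      have hE0 := hE k
      have hE1 := hE (k + 1)
      push_cast at hE1
      exact core_bound hθ0 hθ1 hq1 hq2 hE0 hE1 hwb2.1 hwb2.2 hprod hA1 hK0

end Vale.Agent.Lib.P262
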