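import Vale.Agent.Lib.P262.Numeric

namespace Vale.Agent.Lib.P262

open Module

set_option linter.unusedSectionVars false
set_option linter.unusedVariables false

variable {E : Type*} [NormedAddCommGroup E] [InnerProductSpace ℝ E]

theorem OrdBound.mono {n : ℕ} {X X' : ℝ} (h : OrdBound E n X) (hX : X ≤ X') : OrdBound E n X' := by
  intro l h1 h2 h3
  obtain ⟨l', hp, hb⟩ := h l h1 h2 h3
  exact ⟨l', hp, fun t => le_trans (hb t) hX⟩

theorem OrdBound.trivial (n : ℕ) : OrdBound E n n := by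
  intro l h1 h2 h3
  refine ⟨l, List.Perm.refl _, fun t => ?_⟩
  have h4 := norm_sum_le_length (fun x : E => x) (l.take t) (fun x hx => h2 x (List.mem_of_mem_take hx))
  simp only [List.map_id'] at h4
  refine le_trans h4 ?_
  have h5 : (l.take t).length ≤ n := by
    rw [List.length_take]
    omega
  exact_mod_cast h5

/-- The fixed point of the reduction. -/
theorem ord_fixed {C : ℝ} (hC : BanaszczykOrdering C) {d : ℕ} (hd : 1 ≤ d) (n : ℕ) :
    OrdBound (EuclideanSpace ℝ (Fin d)) n (2 * B0 C d) := by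
  have hC0 := hC.nonneg
  have hB0 : 7 / 2 ≤ B0 C d := by
    unfold B0
    have h1 : 0 ≤ Fq C (d + 1) := Fq_nonneg _ _
    have h2 : 0 ≤ 2 * C * Real.sqrt d := by positivity
    have h3 : 0 ≤ 2 * C * Real.sqrt (d * Real.log (945 * ((d : ℝ) + 1) ^ 4 * ((d : ℝ) + 1 + 2 * Fq C (d + 1)))) := by
      positivity
    have h4 : 0 ≤ (2 * C * Real.sqrt d) * Real.sqrt (Real.log (2 * C * Real.sqrt d + 2)) := by
      positivity
    linarith
  set X₀ := 2 * B0 C d with hX₀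
  have hX₀pos : 0 < X₀ := by linarith
  have hiter : ∀ k : ℕ, OrdBound (EuclideanSpace ℝ (Fin d)) n (max X₀ ((3 / 4 : ℝ) ^ k * n)) := by
    intro k
    induction k with
    | zero =>
      apply (OrdBound.trivial n).mono
      simp
    | succ k ih =>
      set X := max X₀ ((3 / 4 : ℝ) ^ k * n) with hX
      have hX0 : 0 ≤ X := le_trans hX₀pos.le (le_max_left _ _)
      have h1 := reduction_step hC hd hX0 ih
      apply h1.mono
      have h2 := PhiB_le hC0 d hd X hX0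
      refine le_trans h2 ?_
      have h3 : B0 C d = X₀ / 2 := by rw [hX₀]; ring
      rw [h3]
      by_cases hcase : (3 / 4 : ℝ) ^ k * n ≤ X₀
      · have : X = X₀ := max_eq_left hcase
        rw [this]
        refine le_trans ?_ (le_max_left _ _)
        linarith
      · push Not at hcase
        have h4 : X = (3 / 4 : ℝ) ^ k * n := max_eq_right hcase.le
        rw [h4]
        refine le_trans ?_ (le_max_right _ _)
        rw [pow_succ]
        nlinarith
  obtain ⟨k, hk⟩ := exists_pow_lt_of_lt_one (show 0 < X₀ / ((n : ℝ) + 1) by positivity)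
    (show (3 / 4 : ℝ) < 1 by norm_num)
  have h1 := hiter k
  apply h1.mono
  apply max_le le_rfl
  have h2 : (3 / 4 : ℝ) ^ k * n ≤ X₀ / ((n : ℝ) + 1) * n :=
    mul_le_mul_of_nonneg_right hk.le (by positivity)
  refine le_trans h2 ?_
  rw [div_mul_eq_mul_div, div_le_iff₀ (by positivity)]
  have : 0 ≤ X₀ := hX₀pos.le
  nlinarith

/-- The explicit constant. -/
noncomputable def KC (C : ℝ) : ℝ :=
  2 * (4 * C + 2 * C * Real.sqrt (Real.log (400000 * (C + 1)) + 5)
    + 2 * C * Real.sqrt (Real.log (2 * C + 2) + 1) + 7 / 2 + 1608 * (C + 1))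

theorem log_ge_one_of (d : ℕ) (hd : 1 ≤ d) : 1 ≤ Real.log ((d : ℝ) + 2) := by
  have hdr : (1 : ℝ) ≤ d := by exact_mod_cast hd
  rw [Real.le_log_iff_exp_le (by linarith)]
  have := Real.exp_one_lt_d9
  linarith

/-- Comparison of the bound for few types with the target. -/
theorem Fq_le {C : ℝ} (hC0 : 0 ≤ C) (d : ℕ) (hd : 1 ≤ d) :
    Fq C (d + 1) ≤ 201 * (C + 1) * Real.sqrt (d * Real.log ((d : ℝ) + 2)) := by
  have hdr : (1 : ℝ) ≤ d := by exact_mod_cast hd
  set l := Real.log ((d : ℝ) + 2) with hl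
  have hl1 : 1 ≤ l := log_ge_one_of d hd
  have hW : Real.sqrt (d * l) ^ 2 = d * l := Real.sq_sqrt (by positivity)
  unfold Fq
  apply Real.sqrt_le_iff.mpr
  refine ⟨by positivity, ?_⟩
  rw [mul_pow, hW]
  have hlog : Real.log (((d + 1 : ℕ) : ℝ) + 2) ≤ 2 * l := by
    have h1 : ((d + 1 : ℕ) : ℝ) + 2 ≤ ((d : ℝ) + 2) ^ 2 := by
      push_cast
      nlinarith
    have h2 := Real.log_le_log (by positivity) h1
    rw [Real.log_pow] at h2
    have e : ((2 : ℕ) : ℝ) = 2 := by norm_num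
    rw [e] at h2
    exact h2
  have hdl : 1 ≤ (d : ℝ) * l := by nlinarith
  have hC2 : C ^ 2 + 1 ≤ (C + 1) ^ 2 := by nlinarith
  have hC21 : 1 ≤ C ^ 2 + 1 := by nlinarith [sq_nonneg C]
  have hlogn : 0 ≤ Real.log (((d + 1 : ℕ) : ℝ) + 2) := Real.log_nonneg (by push_cast; linarith)
  have h3 : (2 * ((d + 1 : ℕ) : ℝ)) * (5000 * (C ^ 2 + 1) * Real.log (((d + 1 : ℕ) : ℝ) + 2))
      ≤ (4 * (d : ℝ)) * (5000 * (C ^ 2 + 1) * (2 * l)) := by
    apply mul_le_mul
    · push_cast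
      linarith
    · apply mul_le_mul_of_nonneg_left hlog (by positivity)
    · positivity
    · positivity
  have h4 : (4 * (d : ℝ)) * (5000 * (C ^ 2 + 1) * (2 * l)) = 40000 * ((C ^ 2 + 1) * ((d : ℝ) * l)) := by
    ring
  have h5 : (C ^ 2 + 1) * ((d : ℝ) * l) ≤ (C + 1) ^ 2 * ((d : ℝ) * l) :=
    mul_le_mul_of_nonneg_right hC2 (by positivity)
  have h6 : 1 ≤ (C ^ 2 + 1) * ((d : ℝ) * l) := by nlinarith
  have h7 : (201 * (C + 1)) ^ 2 * ((d : ℝ) * l) = 40401 * ((C + 1) ^ 2 * ((d : ℝ) * l)) := by ring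
  rw [h7]
  linarith

theorem B0_le {C : ℝ} (hC0 : 0 ≤ C) (d : ℕ) (hd : 1 ≤ d) :
    2 * B0 C d ≤ KC C * Real.sqrt (d * Real.log ((d : ℝ) + 2)) := by
  have hdr : (1 : ℝ) ≤ d := by exact_mod_cast hd
  set l := Real.log ((d : ℝ) + 2) with hl
  have hl1 : 1 ≤ l := log_ge_one_of d hd
  set W := Real.sqrt (d * l) with hWdef
  have hW2 : W ^ 2 = d * l := Real.sq_sqrt (by positivity)
  have hW0 : 0 ≤ W := Real.sqrt_nonneg _
  have hW1 : 1 ≤ W := by
    rw [hWdef]
    apply Real.one_le_sqrt.mpr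
    nlinarith
  have hsd : Real.sqrt d ≤ W := Real.sqrt_le_sqrt (by nlinarith)
  have hsd0 : 0 ≤ Real.sqrt d := Real.sqrt_nonneg _
  have hd1 : (1 : ℝ) ≤ (d : ℝ) + 1 := by linarith
  have hsqd : Real.sqrt d ≤ (d : ℝ) + 1 := by
    rw [Real.sqrt_le_left (by positivity)]
    nlinarith
  have hld1 : Real.log ((d : ℝ) + 1) ≤ l :=
    Real.log_le_log (by linarith) (by linarith)
  have hld0 : 0 ≤ Real.log ((d : ℝ) + 1) := Real.log_nonneg hd1
  have hWd : W ≤ (d : ℝ) + 1 := by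
    rw [hWdef]
    rw [Real.sqrt_le_left (by positivity)]
    have h1 : l ≤ (d : ℝ) + 1 := by
      have := Real.log_le_sub_one_of_pos (show 0 < (d : ℝ) + 2 by linarith)
      rw [hl]
      linarith
    nlinarith
  have hF := Fq_le hC0 d hd
  rw [← hl, ← hWdef] at hF
  have hF0 : 0 ≤ Fq C (d + 1) := Fq_nonneg _ _
  set F := Fq C (d + 1) with hFdef
  -- the second term
  set c₁ := Real.log (400000 * (C + 1)) + 5 with hc₁
  have hC1 : (1 : ℝ) ≤ C + 1 := by linarith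
  have hc₁0 : 0 ≤ c₁ := by
    have : 0 ≤ Real.log (400000 * (C + 1)) := Real.log_nonneg (by linarith)
    rw [hc₁]
    linarith
  have hRad : (d : ℝ) + 1 + 2 * F ≤ 403 * (C + 1) * ((d : ℝ) + 1) := by
    have h1 : F ≤ 201 * (C + 1) * ((d : ℝ) + 1) :=
      le_trans hF (mul_le_mul_of_nonneg_left hWd (by positivity))
    have h2 : (d : ℝ) + 1 ≤ (C + 1) * ((d : ℝ) + 1) := by nlinarith
    have h3 : 201 * (C + 1) * ((d : ℝ) + 1) = 201 * ((C + 1) * ((d : ℝ) + 1)) := by ring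
    have h4 : 403 * (C + 1) * ((d : ℝ) + 1) = 403 * ((C + 1) * ((d : ℝ) + 1)) := by ring
    rw [h3] at h1
    rw [h4]
    linarith
  have hL2 : Real.log (945 * ((d : ℝ) + 1) ^ 4 * ((d : ℝ) + 1 + 2 * F)) ≤ c₁ * l := by
    have h1 : 945 * ((d : ℝ) + 1) ^ 4 * ((d : ℝ) + 1 + 2 * F)
        ≤ (400000 * (C + 1)) * ((d : ℝ) + 1) ^ 5 := by
      have h2 : 945 * ((d : ℝ) + 1) ^ 4 * ((d : ℝ) + 1 + 2 * F)
          ≤ 945 * ((d : ℝ) + 1) ^ 4 * (403 * (C + 1) * ((d : ℝ) + 1)) :=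
        mul_le_mul_of_nonneg_left hRad (by positivity)
      have h3 : 945 * ((d : ℝ) + 1) ^ 4 * (403 * (C + 1) * ((d : ℝ) + 1))
          = 380835 * ((C + 1) * ((d : ℝ) + 1) ^ 5) := by ring
      have h4 : (400000 * (C + 1)) * ((d : ℝ) + 1) ^ 5 = 400000 * ((C + 1) * ((d : ℝ) + 1) ^ 5) := by
        ring
      have h5 : 0 ≤ (C + 1) * ((d : ℝ) + 1) ^ 5 := by positivity
      rw [h3] at h2
      rw [h4]
      linarith
    have hpos : 0 < 945 * ((d : ℝ) + 1) ^ 4 * ((d : ℝ) + 1 + 2 * F) := by positivity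
    have h2 := Real.log_le_log hpos h1
    have e : Real.log ((400000 * (C + 1)) * ((d : ℝ) + 1) ^ 5)
        = Real.log (400000 * (C + 1)) + 5 * Real.log ((d : ℝ) + 1) := by
      rw [Real.log_mul (by positivity) (by positivity), Real.log_pow]
      norm_num
    rw [e] at h2
    refine le_trans h2 ?_
    have h3 : 0 ≤ Real.log (400000 * (C + 1)) := Real.log_nonneg (by linarith)
    rw [hc₁]
    nlinarith
  have hT2 : Real.sqrt (d * Real.log (945 * ((d : ℝ) + 1) ^ 4 * ((d : ℝ) + 1 + 2 * F)))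
      ≤ Real.sqrt c₁ * W := by
    rw [hWdef, ← Real.sqrt_mul hc₁0]
    apply Real.sqrt_le_sqrt
    have h1 : (d : ℝ) * Real.log (945 * ((d : ℝ) + 1) ^ 4 * ((d : ℝ) + 1 + 2 * F)) ≤ d * (c₁ * l) :=
      mul_le_mul_of_nonneg_left hL2 (by positivity)
    have h2 : (d : ℝ) * (c₁ * l) = c₁ * (d * l) := by ring
    rw [h2] at h1
    exact h1
  -- the third term
  set c₂ := Real.log (2 * C + 2) + 1 with hc₂
  have hlogC : 0 ≤ Real.log (2 * C + 2) := Real.log_nonneg (by linarith)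
  have hc₂0 : 0 ≤ c₂ := by
    rw [hc₂]
    linarith
  set a := 2 * C * Real.sqrt d with ha
  have ha0 : 0 ≤ a := by positivity
  have hLa : Real.log (a + 2) ≤ c₂ * l := by
    have h1 : a + 2 ≤ (2 * C + 2) * ((d : ℝ) + 1) := by
      rw [ha]
      have h2 : C * Real.sqrt d ≤ C * ((d : ℝ) + 1) := mul_le_mul_of_nonneg_left hsqd hC0
      nlinarith
    have h2 := Real.log_le_log (by linarith) h1
    rw [Real.log_mul (by linarith) (by linarith)] at h2
    refine le_trans h2 ?_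
    rw [hc₂]
    nlinarith
  have hT3 : a * Real.sqrt (Real.log (a + 2)) ≤ 2 * C * Real.sqrt c₂ * W := by
    have h1 : Real.sqrt (Real.log (a + 2)) ≤ Real.sqrt c₂ * Real.sqrt l := by
      rw [← Real.sqrt_mul hc₂0]
      exact Real.sqrt_le_sqrt hLa
    have h2 : W = Real.sqrt d * Real.sqrt l := by
      rw [hWdef, Real.sqrt_mul (by positivity)]
    rw [h2, ha]
    have h3 := mul_le_mul_of_nonneg_left h1 (by positivity : 0 ≤ 2 * C * Real.sqrt d)
    calc 2 * C * Real.sqrt d * Real.sqrt (Real.log (2 * C * Real.sqrt d + 2))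
        ≤ 2 * C * Real.sqrt d * (Real.sqrt c₂ * Real.sqrt l) := h3
      _ = 2 * C * Real.sqrt c₂ * (Real.sqrt d * Real.sqrt l) := by ring
  unfold B0 KC
  rw [← hFdef, ← ha, ← hc₁, ← hc₂]
  have hT1 : a ≤ 2 * C * W := by
    rw [ha]
    exact mul_le_mul_of_nonneg_left hsd (by positivity)
  have hT2' : 2 * C * Real.sqrt (d * Real.log (945 * ((d : ℝ) + 1) ^ 4 * ((d : ℝ) + 1 + 2 * F)))
      ≤ 2 * C * (Real.sqrt c₁ * W) := mul_le_mul_of_nonneg_left hT2 (by positivity)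
  have hF8 : 8 * F ≤ 1608 * ((C + 1) * W) := by
    have : 201 * (C + 1) * W = 201 * ((C + 1) * W) := by ring
    rw [this] at hF
    linarith
  have hexp : 2 * (4 * C + 2 * C * Real.sqrt c₁ + 2 * C * Real.sqrt c₂ + 7 / 2 + 1608 * (C + 1)) * W
      = 2 * (2 * C * W + 2 * C * (Real.sqrt c₁ * W) + 2 * C * Real.sqrt c₂ * W + 2 * C * W
        + 7 / 2 * W + 1608 * ((C + 1) * W)) := by ring
  rw [hexp]
  linarith

end Vale.Agent.Lib.P262
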