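import Vale.Agent.Lib.P262.Reduction

namespace Vale.Agent.Lib.P262

set_option linter.unusedSectionVars false
set_option linter.unusedVariables false

theorem sqrt_add_le' (x y : ℝ) (hx : 0 ≤ x) (hy : 0 ≤ y) :
    Real.sqrt (x + y) ≤ Real.sqrt x + Real.sqrt y := by
  rw [Real.sqrt_le_iff]
  refine ⟨by positivity, ?_⟩
  have h1 := Real.sq_sqrt hx
  have h2 := Real.sq_sqrt hy
  have h3 : 0 ≤ Real.sqrt x * Real.sqrt y := by positivity
  nlinarith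

/-- The inequality used to solve the fixed point. -/
theorem log_sqrt_key (a Y : ℝ) (ha : 0 ≤ a) (hY : 1 ≤ Y) :
    a * Real.sqrt (Real.log Y) ≤ a * Real.sqrt (Real.log (a + 2)) + Y / 4 + a + 2 := by
  have ha2 : 0 < a + 2 := by linarith
  have hs0 : 0 ≤ Real.sqrt (Real.log (a + 2)) := Real.sqrt_nonneg _
  have hla : 0 ≤ Real.log (a + 2) := Real.log_nonneg (by linarith)
  by_cases hcase : Y ≤ a + 2
  · have h1 : Real.log Y ≤ Real.log (a + 2) := Real.log_le_log (by linarith) hcase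
    have h2 := Real.sqrt_le_sqrt h1
    have h3 := mul_le_mul_of_nonneg_left h2 ha
    linarith
  · push Not at hcase
    set u := Y / (a + 2) with hu
    have hu1 : 1 < u := by
      rw [hu, lt_div_iff₀ ha2]
      linarith
    have hY2 : Y = (a + 2) * u := by
      rw [hu]
      field_simp
    have hlog : Real.log Y = Real.log (a + 2) + Real.log u := by
      rw [hY2, Real.log_mul ha2.ne' (by linarith)]
    have hlu0 : 0 ≤ Real.log u := Real.log_nonneg hu1.le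
    have h1 : Real.sqrt (Real.log Y) ≤ Real.sqrt (Real.log (a + 2)) + Real.sqrt (Real.log u) := by
      rw [hlog]
      exact sqrt_add_le' _ _ hla hlu0
    have h2 : Real.sqrt (Real.log u) ≤ u / 4 + 1 := by
      rw [Real.sqrt_le_iff]
      refine ⟨by linarith, ?_⟩
      have h3 := Real.log_le_sub_one_of_pos (by linarith : 0 < u)
      nlinarith [sq_nonneg (u / 4 - 1)]
    have h3 : a * Real.sqrt (Real.log Y) ≤ a * Real.sqrt (Real.log (a + 2)) + a * (u / 4 + 1) := by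
      have := mul_le_mul_of_nonneg_left (le_trans h1 (add_le_add le_rfl h2)) ha
      linarith
    have h4 : a * (u / 4) ≤ Y / 4 := by
      rw [hY2]
      nlinarith
    nlinarith

theorem ceil_bound1 (d : ℕ) (hd : 1 ≤ d) (X : ℝ) (hX : 0 ≤ X) :
    ((2 * ⌈1 * Real.sqrt d / (1 / (8 * ((d : ℝ) + 1) * (X + 1)))⌉₊ + 3 : ℕ) : ℝ)
      ≤ 21 * ((d : ℝ) + 1) ^ 2 * (X + 1) := by
  have hdr : (1 : ℝ) ≤ d := by exact_mod_cast hd
  have hsq : Real.sqrt d ≤ (d : ℝ) + 1 := by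
    rw [Real.sqrt_le_left (by positivity)]
    nlinarith
  have hsq0 : 0 ≤ Real.sqrt d := Real.sqrt_nonneg _
  set Y := X + 1 with hY
  have hY1 : 1 ≤ Y := by linarith
  set z : ℝ := 1 * Real.sqrt d / (1 / (8 * ((d : ℝ) + 1) * Y)) with hz
  have hz0 : 0 ≤ z := by positivity
  have hz2 : z = 8 * (Real.sqrt d * ((d : ℝ) + 1)) * Y := by
    rw [hz]
    field_simp
  have h1 : (⌈z⌉₊ : ℝ) < z + 1 := Nat.ceil_lt_add_one hz0
  push_cast
  have h4 : Real.sqrt d * ((d : ℝ) + 1) ≤ ((d : ℝ) + 1) ^ 2 := by nlinarith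
  have h2 : z ≤ 8 * ((d : ℝ) + 1) ^ 2 * Y := by
    rw [hz2]
    exact mul_le_mul_of_nonneg_right (by linarith) (by linarith)
  have hd2 : (1 : ℝ) ≤ ((d : ℝ) + 1) ^ 2 := by nlinarith
  have h3 : (1 : ℝ) ≤ ((d : ℝ) + 1) ^ 2 * Y := by nlinarith
  have h5 : 21 * ((d : ℝ) + 1) ^ 2 * Y = 16 * (((d : ℝ) + 1) ^ 2 * Y) + 5 * (((d : ℝ) + 1) ^ 2 * Y) := by
    ring
  have h6 : 8 * ((d : ℝ) + 1) ^ 2 * Y = 8 * (((d : ℝ) + 1) ^ 2 * Y) := by ring
  rw [h5]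
  rw [h6] at h2
  linarith

theorem ceil_bound2 (d : ℕ) (hd : 1 ≤ d) (Rad : ℝ) (hRad : 1 ≤ Rad) :
    ((2 * ⌈Rad * Real.sqrt d / (1 / 2)⌉₊ + 3 : ℕ) : ℝ) ≤ 9 * Rad * ((d : ℝ) + 1) := by
  have hdr : (1 : ℝ) ≤ d := by exact_mod_cast hd
  have hsq : Real.sqrt d ≤ (d : ℝ) + 1 := by
    rw [Real.sqrt_le_left (by positivity)]
    nlinarith
  have hsq0 : 0 ≤ Real.sqrt d := Real.sqrt_nonneg _
  set z' : ℝ := Rad * Real.sqrt d / (1 / 2) with hz'
  have hz'0 : 0 ≤ z' := by positivity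
  have hz'2 : z' = 2 * Rad * Real.sqrt d := by
    rw [hz']
    ring
  have h1 : (⌈z'⌉₊ : ℝ) < z' + 1 := Nat.ceil_lt_add_one hz'0
  push_cast
  have h2 : z' ≤ 2 * Rad * ((d : ℝ) + 1) := by
    rw [hz'2]
    exact mul_le_mul_of_nonneg_left hsq (by positivity)
  have h3 : (1 : ℝ) ≤ Rad * ((d : ℝ) + 1) := by nlinarith
  have h5 : 9 * Rad * ((d : ℝ) + 1) = 4 * (Rad * ((d : ℝ) + 1)) + 5 * (Rad * ((d : ℝ) + 1)) := by ring
  have h6 : 2 * Rad * ((d : ℝ) + 1) = 2 * (Rad * ((d : ℝ) + 1)) := by ring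
  rw [h5]
  rw [h6] at h2
  linarith

theorem product_bound (d : ℕ) (hd : 1 ≤ d) (P P' A1 A2 : ℝ) (hP : 1 ≤ P) (hP' : 1 ≤ P')
    (hA1 : 1 ≤ A1) (hA2 : 1 ≤ A2) (h1 : P ≤ A1 ^ d) (h2 : P' ≤ A2 ^ d) :
    P * (2 * P' + ((d : ℝ) + 1)) + 2 ≤ (A1 * A2 * (5 * ((d : ℝ) + 1))) ^ d := by
  have hdr : (1 : ℝ) ≤ d := by exact_mod_cast hd
  set A3 : ℝ := 5 * ((d : ℝ) + 1) with hA3
  have hA31 : 1 ≤ A3 := by
    rw [hA3]
    linarith
  have hA3d : A3 ≤ A3 ^ d := le_self_pow₀ hA31 (by omega)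
  rw [mul_pow, mul_pow]
  have h3 : 1 ≤ P * P' := by nlinarith
  have h4 : P ≤ P * P' := by nlinarith
  have h5 : P * (2 * P' + ((d : ℝ) + 1)) + 2 ≤ P * P' * A3 := by
    have h6 : P * (2 * P' + ((d : ℝ) + 1)) = 2 * (P * P') + ((d : ℝ) + 1) * P := by ring
    have h7 : ((d : ℝ) + 1) * P ≤ ((d : ℝ) + 1) * (P * P') :=
      mul_le_mul_of_nonneg_left h4 (by linarith)
    rw [h6, hA3]
    have h8 : P * P' * (5 * ((d : ℝ) + 1)) = 5 * (P * P') + 5 * ((d : ℝ) * (P * P')) := by ring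
    have h9 : ((d : ℝ) + 1) * (P * P') = (d : ℝ) * (P * P') + P * P' := by ring
    have h10 : 0 ≤ (d : ℝ) * (P * P') := by positivity
    rw [h8]
    linarith
  have h6 : P * P' ≤ A1 ^ d * A2 ^ d := mul_le_mul h1 h2 (by linarith) (by positivity)
  have h7 : P * P' * A3 ≤ A1 ^ d * A2 ^ d * A3 ^ d :=
    mul_le_mul h6 hA3d (by linarith) (by positivity)
  linarith

/-- A bound on the logarithm of the number of chunks. -/
theorem log_NTop_le (C : ℝ) (d : ℕ) (hd : 1 ≤ d) (X : ℝ) (hX : 0 ≤ X) :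
    Real.log ((NTop C d X : ℝ) + 2)
      ≤ d * Real.log (945 * ((d : ℝ) + 1) ^ 4 * ((d : ℝ) + 1 + 2 * Fq C (d + 1)))
        + d * Real.log (X + 1) := by
  have hdr : (1 : ℝ) ≤ d := by exact_mod_cast hd
  have hF0 : 0 ≤ Fq C (d + 1) := Fq_nonneg _ _
  have hRad1 : 1 ≤ (d : ℝ) + 1 + 2 * Fq C (d + 1) := by linarith
  have hY1 : 1 ≤ X + 1 := by linarith
  have hb1 := ceil_bound1 d hd X hX
  have hb2 := ceil_bound2 d hd _ hRad1
  generalize hz : ⌈1 * Real.sqrt d / (1 / (8 * ((d : ℝ) + 1) * (X + 1)))⌉₊ = z at hb1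
  generalize hz' : ⌈((d : ℝ) + 1 + 2 * Fq C (d + 1)) * Real.sqrt d / (1 / 2)⌉₊ = z' at hb2
  have hNT : (NTop C d X : ℝ) = ((2 * z + 3 : ℕ) : ℝ) ^ d *
      (2 * ((2 * z' + 3 : ℕ) : ℝ) ^ d + ((d : ℝ) + 1)) := by
    unfold NTop
    rw [hz, hz']
    push_cast
    rfl
  generalize (d : ℝ) + 1 + 2 * Fq C (d + 1) = Rad at *
  have hd1 : (1 : ℝ) ≤ (d : ℝ) + 1 := by linarith
  have hd2 : (1 : ℝ) ≤ ((d : ℝ) + 1) ^ 2 := by nlinarith
  have hA11 : 1 ≤ 21 * ((d : ℝ) + 1) ^ 2 * (X + 1) := by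
    have : 1 ≤ ((d : ℝ) + 1) ^ 2 * (X + 1) := by nlinarith
    linarith
  have hA21 : 1 ≤ 9 * Rad * ((d : ℝ) + 1) := by
    have : 1 ≤ Rad * ((d : ℝ) + 1) := by nlinarith
    linarith
  have hM1 : (1 : ℝ) ≤ ((2 * z + 3 : ℕ) : ℝ) ^ d := by
    apply one_le_pow₀
    push_cast
    have : (0 : ℝ) ≤ (z : ℝ) := by positivity
    linarith
  have hM'1 : (1 : ℝ) ≤ ((2 * z' + 3 : ℕ) : ℝ) ^ d := by
    apply one_le_pow₀
    push_cast
    have : (0 : ℝ) ≤ (z' : ℝ) := by positivity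
    linarith
  have hMle : ((2 * z + 3 : ℕ) : ℝ) ^ d ≤ (21 * ((d : ℝ) + 1) ^ 2 * (X + 1)) ^ d :=
    pow_le_pow_left₀ (by positivity) hb1 d
  have hM'le : ((2 * z' + 3 : ℕ) : ℝ) ^ d ≤ (9 * Rad * ((d : ℝ) + 1)) ^ d :=
    pow_le_pow_left₀ (by positivity) hb2 d
  have hmain := product_bound d hd _ _ _ _ hM1 hM'1 hA11 hA21 hMle hM'le
  rw [← hNT] at hmain
  have hlogm := Real.log_le_log (by positivity) hmain
  rw [Real.log_pow] at hlogm
  have hprod : 21 * ((d : ℝ) + 1) ^ 2 * (X + 1) * (9 * Rad * ((d : ℝ) + 1)) * (5 * ((d : ℝ) + 1))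
      = (945 * ((d : ℝ) + 1) ^ 4 * Rad) * (X + 1) := by
    ring
  have hRpos : 0 < Rad := by linarith
  rw [hprod, Real.log_mul (by positivity) (by positivity), mul_add] at hlogm
  exact hlogm

/-- The constant part of the fixed point bound. -/
noncomputable def B0 (C : ℝ) (d : ℕ) : ℝ :=
  2 * C * Real.sqrt d
    + 2 * C * Real.sqrt (d * Real.log (945 * ((d : ℝ) + 1) ^ 4 * ((d : ℝ) + 1 + 2 * Fq C (d + 1))))
    + (2 * C * Real.sqrt d) * Real.sqrt (Real.log (2 * C * Real.sqrt d + 2))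
    + 2 * C * Real.sqrt d + 7 / 2 + 8 * Fq C (d + 1)

theorem PhiB_le {C : ℝ} (hC0 : 0 ≤ C) (d : ℕ) (hd : 1 ≤ d) (X : ℝ) (hX : 0 ≤ X) :
    PhiB C d X ≤ X / 4 + B0 C d := by
  have hdr : (1 : ℝ) ≤ d := by exact_mod_cast hd
  set F := Fq C (d + 1) with hF
  have hF0 : 0 ≤ F := Fq_nonneg _ _
  set L2 := Real.log (945 * ((d : ℝ) + 1) ^ 4 * ((d : ℝ) + 1 + 2 * F)) with hL2
  have hL20 : 0 ≤ L2 := by
    apply Real.log_nonneg
    have h1 : (1 : ℝ) ≤ ((d : ℝ) + 1) ^ 4 := one_le_pow₀ (by linarith)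
    have h2 : (1 : ℝ) ≤ (d : ℝ) + 1 + 2 * F := by linarith
    nlinarith [mul_le_mul h1 h2 (by norm_num) (by linarith)]
  set Y := X + 1 with hY
  have hY1 : 1 ≤ Y := by linarith
  have hlY : 0 ≤ Real.log Y := Real.log_nonneg hY1
  have h1 := log_NTop_le C d hd X hX
  rw [← hF, ← hL2, ← hY] at h1
  have h2 : Real.sqrt (Real.log ((NTop C d X : ℝ) + 2))
      ≤ Real.sqrt (d * L2) + Real.sqrt d * Real.sqrt (Real.log Y) := by
    have h3 := Real.sqrt_le_sqrt h1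
    refine le_trans h3 (le_trans (sqrt_add_le' _ _ (by positivity) (by positivity)) ?_)
    rw [Real.sqrt_mul (by positivity : (0 : ℝ) ≤ d) (Real.log Y)]
  set a := 2 * C * Real.sqrt d with ha
  have ha0 : 0 ≤ a := by positivity
  have h4 := log_sqrt_key a Y ha0 hY1
  unfold PhiB B0
  rw [← hF, ← hL2, ← ha]
  have h5 : 2 * (C * (Real.sqrt d + Real.sqrt (Real.log ((NTop C d X : ℝ) + 2))))
      = a + 2 * C * Real.sqrt (Real.log ((NTop C d X : ℝ) + 2)) := by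
    rw [ha]
    ring
  rw [h5]
  have h6 : 2 * C * Real.sqrt (Real.log ((NTop C d X : ℝ) + 2))
      ≤ 2 * C * Real.sqrt (d * L2) + a * Real.sqrt (Real.log Y) := by
    have := mul_le_mul_of_nonneg_left h2 (by positivity : 0 ≤ 2 * C)
    rw [ha]
    linarith
  rw [hY] at h4
  rw [hY] at h6
  linarith

end Vale.Agent.Lib.P262
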