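import Vale.Agent.Lib.P262.FewTypes
import Vale.Agent.Lib.P262.Grid
import Vale.Agent.Lib.P262.Chain

namespace Vale.Agent.Lib.P262

open Module

variable {E : Type*} [NormedAddCommGroup E] [InnerProductSpace ℝ E]
variable {κ : Type*} [DecidableEq κ]

set_option linter.unusedSectionVars false
set_option linter.unusedVariables false

theorem sum_map_count {A' : Type*} [AddCommMonoid A'] (g : κ → A') (D : Finset κ) (τ : List κ)
    (h : ∀ i ∈ τ, i ∈ D) : (τ.map g).sum = ∑ i ∈ D, τ.count i • g i := by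
  induction τ with
  | nil => simp
  | cons j τ ih =>
    have hj : j ∈ D := h j List.mem_cons_self
    rw [List.map_cons, List.sum_cons, ih (fun i hi => h i (List.mem_cons_of_mem _ hi))]
    have h1 : ∀ i, (j :: τ).count i • g i = τ.count i • g i + (if i = j then g i else 0) := by
      intro i
      rw [List.count_cons, add_smul]
      by_cases hij : i = j
      · subst hij
        simp
      · have : ¬ j = i := fun h => hij h.symm
        simp [hij, this]
    simp only [h1]
    rw [Finset.sum_add_distrib, Finset.sum_ite_eq', if_pos hj, add_comm]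

theorem norm_sum_le_length {α : Type*} (g : α → E) (u : List α) (h : ∀ x ∈ u, ‖g x‖ ≤ 1) :
    ‖(u.map g).sum‖ ≤ u.length := by
  induction u with
  | nil => simp
  | cons a u ih =>
    simp only [List.map_cons, List.sum_cons, List.length_cons]
    push_cast
    have h2 := ih (fun x hx => h x (List.mem_cons_of_mem _ hx))
    have h3 := h a List.mem_cons_self
    have := norm_add_le (g a) (u.map g).sum
    linarith

theorem Fq_mono (C : ℝ) {q q' : ℕ} (hq : 1 ≤ q') (h : q ≤ q') : Fq C q ≤ Fq C q' := by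
  unfold Fq
  apply Real.sqrt_le_sqrt
  have h1 : (q : ℝ) ≤ q' := by exact_mod_cast h
  have h2 : Real.log ((q : ℝ) + 2) ≤ Real.log ((q' : ℝ) + 2) :=
    Real.log_le_log (by positivity) (by linarith)
  have h3 : 0 ≤ Real.log ((q : ℝ) + 2) := Real.log_nonneg (by
    have : (0 : ℝ) ≤ q := by positivity
    linarith)
  have h4 : 0 ≤ C ^ 2 + 1 := by positivity
  have h5 : (5000 * (C ^ 2 + 1)) * Real.log ((q : ℝ) + 2) ≤ (5000 * (C ^ 2 + 1)) * Real.log ((q' : ℝ) + 2) :=
    mul_le_mul_of_nonneg_left h2 (by positivity)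
  have h6 : 0 ≤ (5000 * (C ^ 2 + 1)) * Real.log ((q : ℝ) + 2) := by positivity
  have h7 : (q : ℝ) * ((5000 * (C ^ 2 + 1)) * Real.log ((q : ℝ) + 2))
      ≤ (q' : ℝ) * ((5000 * (C ^ 2 + 1)) * Real.log ((q' : ℝ) + 2)) :=
    mul_le_mul h1 h5 h6 (by positivity)
  nlinarith

/-- An ordering of the types of one ray staying in a tube around the segment to its total. -/
theorem tube {C : ℝ} (hC : BanaszczykOrdering C) (D : Finset κ) (μ : κ → E)
    (hμ : ∀ i ∈ D, ‖μ i‖ ≤ 1) (a : κ → ℕ) (hN : 0 < ∑ i ∈ D, a i) :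
    ∃ τ : List κ, (∀ i, τ.count i = if i ∈ D then a i else 0) ∧ τ.length = ∑ i ∈ D, a i ∧
      ∀ x ≤ ∑ i ∈ D, a i, ‖((τ.take x).map μ).sum
        - ((x : ℝ) / ((∑ i ∈ D, a i : ℕ) : ℝ)) • ∑ i ∈ D, (a i : ℝ) • μ i‖ ≤ 2 * Fq C D.card := by
  classical
  set N := ∑ i ∈ D, a i with hNdef
  set s := ∑ i ∈ D, (a i : ℝ) • μ i with hs
  have hNr : (0 : ℝ) < N := by exact_mod_cast hN
  have hsn : ‖s‖ ≤ N := by
    have h1 : ‖s‖ ≤ ∑ i ∈ D, (a i : ℝ) := by
      refine le_trans (norm_sum_le _ _) ?_
      apply Finset.sum_le_sum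
      intro i hi
      rw [norm_smul, Real.norm_of_nonneg (by positivity)]
      have := hμ i hi
      have h3 : (0 : ℝ) ≤ a i := by positivity
      nlinarith
    have h2 : ((N : ℕ) : ℝ) = ∑ i ∈ D, (a i : ℝ) := by
      rw [hNdef]
      push_cast
      rfl
    rw [h2]
    exact h1
  set v : E := ((1 : ℝ) / N) • s with hv
  have hvn : ‖v‖ ≤ 1 := by
    rw [hv, norm_smul, Real.norm_of_nonneg (by positivity), div_mul_eq_mul_div, one_mul]
    exact (div_le_one hNr).mpr hsn
  set c' : κ → E := fun i => ((1 : ℝ) / 2) • (μ i - v) with hc'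
  have hc'1 : ∀ i ∈ D, ‖c' i‖ ≤ 1 := by
    intro i hi
    simp only [hc']
    rw [norm_smul, Real.norm_of_nonneg (by norm_num)]
    have := norm_sub_le (μ i) v
    have := hμ i hi
    linarith
  have hzero : ∑ i ∈ D, (a i : ℝ) • c' i = 0 := by
    have h1 : ∀ i, (a i : ℝ) • c' i = ((1 : ℝ) / 2) • ((a i : ℝ) • μ i - (a i : ℝ) • v) := by
      intro i
      simp only [hc']
      rw [smul_comm, smul_sub]
    simp only [h1]
    rw [← Finset.smul_sum, Finset.sum_sub_distrib, ← Finset.sum_smul, ← hs]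
    have h2 : ∑ i ∈ D, (a i : ℝ) = N := by
      rw [hNdef]
      push_cast
      rfl
    rw [h2, hv, smul_smul, mul_one_div_cancel hNr.ne', one_smul, sub_self, smul_zero]
  obtain ⟨τ, hcount, hbd⟩ := few_types hC D c' hc'1 a hzero
  have hmem : ∀ i ∈ τ, i ∈ D := by
    intro i hi
    by_contra hiD
    have h1 := hcount i
    rw [if_neg hiD] at h1
    exact (List.count_pos_iff.mpr hi).ne' h1
  have hlen : τ.length = N := by
    have h1 := sum_map_count (fun _ => 1) D τ hmem
    simp only [List.map_const', List.sum_replicate, smul_eq_mul, mul_one] at h1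
    rw [h1, hNdef]
    apply Finset.sum_congr rfl
    intro i hi
    rw [hcount i, if_pos hi]
  refine ⟨τ, hcount, hlen, ?_⟩
  intro x hx
  have hlt : (τ.take x).length = x := by
    rw [List.length_take, hlen]
    omega
  have h1 : ((τ.take x).map c').sum = ((1 : ℝ) / 2) • (((τ.take x).map μ).sum - (x : ℝ) • v) := by
    have := sum_map_shift μ ((1 : ℝ) / 2) v (τ.take x)
    rw [hlt] at this
    exact this
  have h2 : ((τ.take x).map μ).sum - ((x : ℝ) / N) • s = (2 : ℝ) • ((τ.take x).map c').sum := by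
    rw [h1, hv]
    module
  rw [h2, norm_smul, Real.norm_of_nonneg (by norm_num)]
  have := hbd x
  linarith


/-- A chunk whose two ends are close stays near its start. -/
theorem chunk_interior (τ : List κ) (μ : κ → E) (N : ℕ) (s : E) (G : ℝ) (hN : 0 < N)
    (htube : ∀ x ≤ N, ‖((τ.take x).map μ).sum - ((x : ℝ) / N) • s‖ ≤ G)
    (ch : List κ) (s' : ℕ) (hs' : s' + ch.length ≤ N) (hch : ch = (τ.drop s').take ch.length)
    (hcase : ‖((τ.take (s' + ch.length)).map μ).sum - ((τ.take s').map μ).sum‖ ≤ 1 / 2) :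
    ‖(ch.map μ).sum‖ ≤ 1 / 2 ∧ ∀ t, ‖((ch.take t).map μ).sum‖ ≤ 1 / 2 + 4 * G := by
  have hNr : (0 : ℝ) < N := by exact_mod_cast hN
  have hP : ∀ u ≤ ch.length, ((ch.take u).map μ).sum
      = ((τ.take (s' + u)).map μ).sum - ((τ.take s').map μ).sum := by
    intro u hu
    have h1 : ch.take u = (τ.drop s').take u := by
      conv_lhs => rw [hch]
      rw [List.take_take, min_eq_left hu]
    rw [h1, List.take_add, List.map_append, List.sum_append]
    abel
  have hwhole : (ch.map μ).sum = ((τ.take (s' + ch.length)).map μ).sum - ((τ.take s').map μ).sum := by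
    have := hP ch.length le_rfl
    rwa [List.take_length] at this
  have hG : 0 ≤ G := le_trans (norm_nonneg _) (htube 0 (Nat.zero_le _))
  have hscale : ‖((ch.length : ℝ) / N) • s‖ ≤ 1 / 2 + 2 * G := by
    have h1 := htube (s' + ch.length) hs'
    have h2 := htube s' (by omega)
    have e : ((ch.length : ℝ) / N) • s = (((τ.take (s' + ch.length)).map μ).sum - ((τ.take s').map μ).sum)
        - (((τ.take (s' + ch.length)).map μ).sum - (((s' + ch.length : ℕ) : ℝ) / N) • s)
        + (((τ.take s').map μ).sum - ((s' : ℝ) / N) • s) := by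
      push_cast
      module
    rw [e]
    refine le_trans (norm_add_le _ _) ?_
    have h3 := norm_sub_le (((τ.take (s' + ch.length)).map μ).sum - ((τ.take s').map μ).sum)
      (((τ.take (s' + ch.length)).map μ).sum - (((s' + ch.length : ℕ) : ℝ) / N) • s)
    linarith
  have hmain : ∀ u ≤ ch.length, ‖((ch.take u).map μ).sum‖ ≤ 1 / 2 + 4 * G := by
    intro u hu
    rw [hP u hu]
    have h1 := htube (s' + u) (by omega)
    have h2 := htube s' (by omega)
    have h3 : ‖((u : ℝ) / N) • s‖ ≤ 1 / 2 + 2 * G := by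
      refine le_trans ?_ hscale
      rw [norm_smul, norm_smul, Real.norm_of_nonneg (by positivity), Real.norm_of_nonneg (by positivity)]
      apply mul_le_mul_of_nonneg_right _ (norm_nonneg _)
      apply div_le_div_of_nonneg_right _ hNr.le
      exact_mod_cast hu
    have e : ((τ.take (s' + u)).map μ).sum - ((τ.take s').map μ).sum
        = (((τ.take (s' + u)).map μ).sum - (((s' + u : ℕ) : ℝ) / N) • s)
        - (((τ.take s').map μ).sum - ((s' : ℝ) / N) • s) + ((u : ℝ) / N) • s := by
      push_cast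
      module
    rw [e]
    refine le_trans (norm_add_le _ _) ?_
    have h4 := norm_sub_le (((τ.take (s' + u)).map μ).sum - (((s' + u : ℕ) : ℝ) / N) • s)
      (((τ.take s').map μ).sum - ((s' : ℝ) / N) • s)
    linarith
  constructor
  · rw [hwhole]
    exact hcase
  · intro t
    by_cases ht : t ≤ ch.length
    · exact hmain t ht
    · have h1 := hmain ch.length le_rfl
      rw [List.take_of_length_le (by omega)]
      rwa [List.take_length] at h1

/-- The chunks of one ray. -/
theorem ray_chunks {C : ℝ} (hC : BanaszczykOrdering C) {d : ℕ} (hd : 1 ≤ d) (D : Finset κ)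
    (μ : κ → EuclideanSpace ℝ (Fin d)) (hμ : ∀ i ∈ D, ‖μ i‖ ≤ 1) (w : κ → ℝ) (hw : ∀ i, 0 ≤ w i)
    (hDcard : D.card ≤ d + 1) (hwout : ∀ i, i ∉ D → w i = 0) (h0 : ∑ i ∈ D, w i • μ i = 0) :
    ∃ chs : List (List κ),
      chs.length ≤ 2 * (2 * ⌈((d : ℝ) + 1 + 2 * Fq C (d + 1)) * Real.sqrt d / (1 / 2)⌉₊ + 3) ^ d ∧
      (∀ i, chs.flatten.count i = ⌊w i⌋₊) ∧
      ∀ ch ∈ chs, (∀ i ∈ ch, i ∈ D) ∧ (‖(ch.map μ).sum‖ ≤ 1 / 2 ∨ ch.length ≤ 1) ∧
        ∀ t, ‖((ch.take t).map μ).sum‖ ≤ 1 + 8 * Fq C (d + 1) := by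
  classical
  set F := Fq C (d + 1) with hF
  have hF0 : 0 ≤ F := Fq_nonneg _ _
  set a : κ → ℕ := fun i => ⌊w i⌋₊ with ha
  have haout : ∀ i, i ∉ D → a i = 0 := by
    intro i hi
    simp only [ha]
    rw [hwout i hi]
    simp
  by_cases hN : ∑ i ∈ D, a i = 0
  · refine ⟨[], by simp, ?_, by simp⟩
    intro i
    simp only [List.flatten_nil, List.count_nil]
    by_cases hi : i ∈ D
    · have := (Finset.sum_eq_zero_iff.mp hN) i hi
      simp only [ha] at this
      omega
    · have := haout i hi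
      simp only [ha] at this
      omega
  have hNpos : 0 < ∑ i ∈ D, a i := Nat.pos_of_ne_zero hN
  obtain ⟨τ, hcount, hlen, htube⟩ := tube hC D μ hμ a hNpos
  set N := ∑ i ∈ D, a i with hNdef
  set s := ∑ i ∈ D, (a i : ℝ) • μ i with hs
  have hNr : (0 : ℝ) < N := by exact_mod_cast hNpos
  have hsn : ‖s‖ ≤ d + 1 := by
    have h1 : s = ∑ i ∈ D, ((a i : ℝ) - w i) • μ i := by
      have h2 : ∑ i ∈ D, ((a i : ℝ) - w i) • μ i = s - ∑ i ∈ D, w i • μ i := by
        rw [hs, ← Finset.sum_sub_distrib]
        apply Finset.sum_congr rfl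
        intro i _
        rw [sub_smul]
      rw [h2, h0, sub_zero]
    rw [h1]
    refine le_trans (norm_sum_le _ _) ?_
    have h2 : ∑ i ∈ D, ‖((a i : ℝ) - w i) • μ i‖ ≤ ∑ i ∈ D, (1 : ℝ) := by
      apply Finset.sum_le_sum
      intro i hi
      rw [norm_smul, Real.norm_eq_abs]
      have h3 : |(a i : ℝ) - w i| ≤ 1 := by
        simp only [ha]
        rw [abs_le]
        have h4 := Nat.floor_le (hw i)
        have h5 := Nat.lt_floor_add_one (w i)
        constructor <;> linarith
      have h4 := hμ i hi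
      have h5 := abs_nonneg ((a i : ℝ) - w i)
      nlinarith
    refine le_trans h2 ?_
    simp only [Finset.sum_const, nsmul_eq_mul, mul_one]
    exact_mod_cast hDcard
  have hFD : Fq C D.card ≤ F := Fq_mono C (by omega) hDcard
  have htube2 : ∀ x ≤ N, ‖((τ.take x).map μ).sum - ((x : ℝ) / N) • s‖ ≤ 2 * F := by
    intro x hx
    have := htube x hx
    linarith
  set Rad : ℝ := (d : ℝ) + 1 + 2 * F with hRad
  have hRad0 : 0 ≤ Rad := by positivity
  have hP : ∀ x ≤ N, ‖((τ.take x).map μ).sum‖ ≤ Rad := by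
    intro x hx
    have h1 := htube2 x hx
    have h2 : ‖((x : ℝ) / N) • s‖ ≤ d + 1 := by
      rw [norm_smul, Real.norm_of_nonneg (by positivity)]
      have h3 : (x : ℝ) / N ≤ 1 := by
        rw [div_le_one hNr]
        exact_mod_cast hx
      have h4 : 0 ≤ (x : ℝ) / N := by positivity
      have h5 := norm_nonneg s
      nlinarith
    have h3 : ((τ.take x).map μ).sum
        = (((τ.take x).map μ).sum - ((x : ℝ) / N) • s) + ((x : ℝ) / N) • s := by abel
    rw [h3]
    refine le_trans (norm_add_le _ _) ?_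
    rw [hRad]
    linarith
  obtain ⟨cell, Cs', hcard, hcover, hdiam⟩ := grid d hd Rad (1 / 2) hRad0 (by norm_num)
  obtain ⟨L, hL1, hL2, hL3⟩ := chain_cut τ (fun x => cell ((τ.take x).map μ).sum) Cs'.card Cs' 0 rfl
    (Nat.zero_le _) (by
      intro m _ hm
      apply hcover
      apply hP
      omega)
  rw [List.drop_zero] at hL1
  have hmem : ∀ i ∈ τ, i ∈ D := by
    intro i hi
    by_contra hiD
    have h1 := hcount i
    rw [if_neg hiD] at h1
    exact (List.count_pos_iff.mpr hi).ne' h1
  refine ⟨L, le_trans hL2 (Nat.mul_le_mul_left _ hcard), ?_, ?_⟩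
  · intro i
    rw [hL1, hcount]
    by_cases hi : i ∈ D
    · rw [if_pos hi]
    · rw [if_neg hi]
      have := haout i hi
      simp only [ha] at this
      omega
  · intro ch hchL
    obtain ⟨s', hs'1, hs'2, hs'3⟩ := hL3 ch hchL
    have hs'N : s' + ch.length ≤ N := by rw [← hlen]; exact hs'1
    have hchsub : ∀ i ∈ ch, i ∈ τ := by
      intro i hi
      rw [hs'2] at hi
      exact List.mem_of_mem_drop (List.mem_of_mem_take hi)
    refine ⟨fun i hi => hmem i (hchsub i hi), ?_, ?_⟩
    · rcases hs'3 with h | h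
      · exact Or.inr h
      · left
        exact (chunk_interior τ μ N s (2 * F) hNpos htube2 ch s' hs'N hs'2 (by
          have h6 := hdiam _ _ h
          rw [norm_sub_rev]
          exact h6)).1
    · intro t
      rcases hs'3 with h | h
      · have h1 : ‖((ch.take t).map μ).sum‖ ≤ (ch.take t).length := by
          apply norm_sum_le_length
          intro i hi
          exact hμ i (hmem i (hchsub i (List.mem_of_mem_take hi)))
        have h2 : ((ch.take t).length : ℝ) ≤ 1 := by
          have : (ch.take t).length ≤ 1 := by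
            rw [List.length_take]
            omega
          exact_mod_cast this
        linarith
      · have h1 := (chunk_interior τ μ N s (2 * F) hNpos htube2 ch s' hs'N hs'2 (by
          have h6 := hdiam _ _ h
          rw [norm_sub_rev]
          exact h6)).2 t
        linarith

end Vale.Agent.Lib.P262
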