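import Mathlib

namespace Vale.Agent.Lib.P262

open Module

variable {E : Type*} [NormedAddCommGroup E] [InnerProductSpace ℝ E] [FiniteDimensional ℝ E]
variable {κ : Type*} [DecidableEq κ]

/-- Caratheodory: a positive dependency contains one with few vectors. -/
theorem ray_support (J : Finset κ) (μ : κ → E) (m : κ → ℝ) (hm : ∀ i ∈ J, 0 < m i)
    (hJ : J.Nonempty) (h0 : ∑ i ∈ J, m i • μ i = 0) :
    ∃ (D : Finset κ) (y : κ → ℝ), D ⊆ J ∧ D.Nonempty ∧ D.card ≤ finrank ℝ E + 1 ∧
      (∀ i ∈ D, 0 < y i) ∧ (∀ i, i ∉ D → y i = 0) ∧ ∑ i ∈ D, y i • μ i = 0 := by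
  classical
  have hS : 0 < ∑ i ∈ J, m i := Finset.sum_pos hm hJ
  have hmem : (0 : E) ∈ convexHull ℝ (μ '' (J : Set κ)) := by
    have h1 := (convex_convexHull ℝ (μ '' (J : Set κ))).sum_mem (t := J)
      (w := fun i => m i / ∑ j ∈ J, m j) (z := μ)
      (fun i hi => div_nonneg (hm i hi).le hS.le)
      (by rw [← Finset.sum_div]; exact div_self hS.ne')
      (fun i hi => subset_convexHull ℝ _ ⟨i, hi, rfl⟩)
    have h2 : ∑ i ∈ J, (m i / ∑ j ∈ J, m j) • μ i = (1 / ∑ j ∈ J, m j) • ∑ i ∈ J, m i • μ i := by
      rw [Finset.smul_sum]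
      apply Finset.sum_congr rfl
      intro i _
      rw [smul_smul]
      congr 1
      ring
    rw [h2, h0, smul_zero] at h1
    exact h1
  obtain ⟨ι', _, z, w, hz, hai, hw, hw1, hsum⟩ := eq_pos_convex_span_of_mem_convexHull hmem
  have hex : ∀ j, ∃ i, i ∈ J ∧ μ i = z j := by
    intro j
    obtain ⟨i, hi, h⟩ := hz ⟨j, rfl⟩
    exact ⟨i, hi, h⟩
  choose f hfJ hfz using hex
  have hinj : Function.Injective f := by
    intro a b hab
    apply hai.injective
    rw [← hfz a, ← hfz b, hab]
  have hne : Nonempty ι' := by
    by_contra hcon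
    rw [not_nonempty_iff] at hcon
    simp at hw1
  refine ⟨Finset.univ.image f, Function.extend f w 0, ?_, ?_, ?_, ?_, ?_, ?_⟩
  · intro i hi
    obtain ⟨j, -, rfl⟩ := Finset.mem_image.mp hi
    exact hfJ j
  · exact ⟨f hne.some, Finset.mem_image_of_mem _ (Finset.mem_univ _)⟩
  · refine le_trans Finset.card_image_le ?_
    rw [Finset.card_univ]
    refine le_trans hai.card_le_finrank_succ ?_
    have := Submodule.finrank_le (vectorSpan ℝ (Set.range z))
    omega
  · intro i hi
    obtain ⟨j, -, rfl⟩ := Finset.mem_image.mp hi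
    rw [hinj.extend_apply]
    exact hw j
  · intro i hi
    apply Function.extend_apply'
    rintro ⟨j, rfl⟩
    exact hi (Finset.mem_image_of_mem _ (Finset.mem_univ _))
  · rw [Finset.sum_image (fun a _ b _ h => hinj h)]
    simp only [hinj.extend_apply, hfz]
    exact hsum

/-- Decomposition of a nonnegative dependency into few rays with few vectors each. -/
theorem ray_decomp (Cs : Finset κ) (μ : κ → E) :
    ∀ (t : ℕ) (m : κ → ℝ), (Cs.filter (fun i => 0 < m i)).card = t → (∀ i, 0 ≤ m i) →
      ∑ i ∈ Cs, m i • μ i = 0 →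
      ∃ rays : List (κ → ℝ), rays.length ≤ t ∧ (∀ i ∈ Cs, (rays.map (fun w => w i)).sum = m i) ∧
        ∀ w ∈ rays, (∀ i, 0 ≤ w i) ∧ (∑ i ∈ Cs, w i • μ i = 0) ∧
          ∃ D : Finset κ, D ⊆ Cs ∧ D.card ≤ finrank ℝ E + 1 ∧ ∀ i, i ∉ D → w i = 0 := by
  intro t
  induction t using Nat.strong_induction_on with
  | _ t ih =>
    intro m ht hm0 h0
    set J := Cs.filter (fun i => 0 < m i) with hJ
    by_cases hJe : J = ∅
    · refine ⟨[], by simp, ?_, by simp⟩
      intro i hi
      simp only [List.map_nil, List.sum_nil]
      have : i ∉ J := by rw [hJe]; simp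
      rw [hJ, Finset.mem_filter] at this
      push Not at this
      exact le_antisymm (hm0 i) (this hi)
    · have hJne : J.Nonempty := Finset.nonempty_iff_ne_empty.mpr hJe
      have hJpos : ∀ i ∈ J, 0 < m i := fun i hi => (Finset.mem_filter.mp hi).2
      have hJsum : ∑ i ∈ J, m i • μ i = 0 := by
        rw [← h0, hJ, Finset.sum_filter]
        apply Finset.sum_congr rfl
        intro i _
        by_cases h : 0 < m i
        · simp [h]
        · have : m i = 0 := le_antisymm (not_lt.mp h) (hm0 i)
          simp [this]
      obtain ⟨D, y, hDJ, hDne, hDcard, hypos, hyout, hysum⟩ := ray_support J μ m hJpos hJne hJsum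
      have hDCs : D ⊆ Cs := fun i hi => (Finset.mem_filter.mp (hDJ hi)).1
      obtain ⟨i₁, hi₁, hmin⟩ := Finset.exists_min_image D (fun i => m i / y i) hDne
      set t₀ := m i₁ / y i₁ with ht₀
      have ht₀pos : 0 < t₀ := div_pos (hJpos _ (hDJ hi₁)) (hypos _ hi₁)
      set m' : κ → ℝ := fun i => m i - t₀ * y i with hm'
      have hm'0 : ∀ i, 0 ≤ m' i := by
        intro i
        simp only [hm']
        by_cases hi : i ∈ D
        · have h1 := hmin i hi
          have h2 := hypos i hi
          have h3 : t₀ * y i ≤ m i := by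
            rw [le_div_iff₀ h2] at h1
            exact h1
          linarith
        · rw [hyout i hi]
          have := hm0 i
          simpa using this
      have hm'i₁ : m' i₁ = 0 := by
        simp only [hm', ht₀]
        have := (hypos _ hi₁).ne'
        field_simp
        ring
      have hsub : (Cs.filter (fun i => 0 < m' i)) ⊆ J.erase i₁ := by
        intro i hi
        obtain ⟨h1, h2⟩ := Finset.mem_filter.mp hi
        rw [Finset.mem_erase]
        constructor
        · rintro rfl
          rw [hm'i₁] at h2
          exact lt_irrefl _ h2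
        · rw [hJ, Finset.mem_filter]
          refine ⟨h1, ?_⟩
          by_cases hiD : i ∈ D
          · exact (Finset.mem_filter.mp (hDJ hiD)).2
          · simp only [hm'] at h2
            rw [hyout i hiD] at h2
            simpa using h2
      have hcard' : (Cs.filter (fun i => 0 < m' i)).card < t := by
        have h1 := Finset.card_le_card hsub
        rw [Finset.card_erase_of_mem (hDJ hi₁)] at h1
        have h2 : 0 < J.card := Finset.card_pos.mpr hJne
        omega
      have hyCs : ∑ i ∈ Cs, y i • μ i = 0 := by
        rw [← hysum]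
        symm
        apply Finset.sum_subset hDCs
        intro i _ hi
        rw [hyout i hi, zero_smul]
      have hm'sum : ∑ i ∈ Cs, m' i • μ i = 0 := by
        have : ∀ i, m' i • μ i = m i • μ i - t₀ • (y i • μ i) := by
          intro i
          simp only [hm']
          rw [sub_smul, smul_smul]
        simp only [this]
        rw [Finset.sum_sub_distrib, ← Finset.smul_sum, h0, hyCs, smul_zero, sub_zero]
      obtain ⟨rays, hr1, hr2, hr3⟩ := ih _ hcard' m' rfl hm'0 hm'sum
      refine ⟨(fun i => t₀ * y i) :: rays, ?_, ?_, ?_⟩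
      · simp only [List.length_cons]
        omega
      · intro i hi
        simp only [List.map_cons, List.sum_cons]
        rw [hr2 i hi]
        simp only [hm']
        ring
      · intro w hw
        rcases List.mem_cons.mp hw with rfl | hw
        · refine ⟨?_, ?_, D, hDCs, hDcard, ?_⟩
          · intro i
            by_cases hi : i ∈ D
            · exact (mul_pos ht₀pos (hypos i hi)).le
            · show 0 ≤ t₀ * y i
              rw [hyout i hi]
              simp
          · have : ∀ i, (t₀ * y i) • μ i = t₀ • (y i • μ i) := fun i => by rw [smul_smul]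
            simp only [this]
            rw [← Finset.smul_sum, hyCs, smul_zero]
          · intro i hi
            show t₀ * y i = 0
            rw [hyout i hi]
            simp
        · exact hr3 w hw

end Vale.Agent.Lib.P262
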