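import Vale.Agent.Lib.P262.PerRay

namespace Vale.Agent.Lib.P262

open Module

variable {κ : Type*} [DecidableEq κ]

set_option linter.unusedSectionVars false
set_option linter.unusedVariables false

theorem cons_eq_add_singleton {E : Type*} (S : Multiset E) (b : E) : b ::ₘ S = S + {b} := by
  rw [add_comm, Multiset.singleton_add]

section Alg

variable {E : Type*} [AddCommGroup E]

/-- Replacing each type by the next element of its list. -/
def realize (a : κ → ℕ → E) : (κ → ℕ) → List κ → List E
  | _, [] => []
  | x, i :: τ => a i (x i) :: realize a (Function.update x i (x i + 1)) τ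

/-- Sum of the first `y` elements of the list of type `i`. -/
def Pre (a : κ → ℕ → E) (i : κ) (y : ℕ) : E := ∑ u ∈ Finset.range y, a i u

theorem length_realize (a : κ → ℕ → E) (τ : List κ) (x : κ → ℕ) :
    (realize a x τ).length = τ.length := by
  induction τ generalizing x with
  | nil => rfl
  | cons j τ ih => simp [realize, ih]

theorem realize_take_sum (a : κ → ℕ → E) (D : Finset κ) (τ : List κ) (hτ : ∀ i ∈ τ, i ∈ D)
    (x : κ → ℕ) (t : ℕ) :
    ((realize a x τ).take t).sum
      = ∑ i ∈ D, (Pre a i (x i + (τ.take t).count i) - Pre a i (x i)) := by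
  induction τ generalizing x t with
  | nil => simp [realize]
  | cons j τ ih =>
    have hj : j ∈ D := hτ j List.mem_cons_self
    cases t with
    | zero => simp
    | succ t =>
      simp only [realize, List.take_succ_cons, List.sum_cons]
      rw [ih (fun i hi => hτ i (List.mem_cons_of_mem _ hi))]
      have h1 : ∀ i, Pre a i (x i + (j :: τ.take t).count i) - Pre a i (x i)
          = (Pre a i (Function.update x j (x j + 1) i + (τ.take t).count i)
              - Pre a i (Function.update x j (x j + 1) i))
            + (if i = j then a j (x j) else 0) := by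
        intro i
        by_cases hij : i = j
        · subst hij
          simp only [Function.update_self, if_true, List.count_cons_self]
          have e : x i + ((τ.take t).count i + 1) = x i + 1 + (τ.take t).count i := by ring
          rw [e]
          have e2 : Pre a i (x i + 1) = Pre a i (x i) + a i (x i) := by
            unfold Pre
            rw [Finset.sum_range_succ]
          rw [e2]
          abel
        · have hji : ¬ j = i := fun h => hij h.symm
          rw [Function.update_of_ne hij, if_neg hij, add_zero]
          rw [List.count_cons_of_ne hji]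
      simp only [h1]
      rw [Finset.sum_add_distrib, Finset.sum_ite_eq', if_pos hj, add_comm]

theorem realize_multiset (a : κ → ℕ → E) (D : Finset κ) (τ : List κ) (hτ : ∀ i ∈ τ, i ∈ D)
    (x : κ → ℕ) :
    ((realize a x τ : List E) : Multiset E)
      = ∑ i ∈ D, (((List.range (τ.count i)).map (fun u => a i (x i + u)) : List E) : Multiset E) := by
  induction τ generalizing x with
  | nil => simp [realize]
  | cons j τ ih =>
    have hj : j ∈ D := hτ j List.mem_cons_self
    simp only [realize]
    rw [← Multiset.cons_coe, ih (fun i hi => hτ i (List.mem_cons_of_mem _ hi))]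
    have h1 : ∀ i, (((List.range ((j :: τ).count i)).map (fun u => a i (x i + u)) : List E) : Multiset E)
        = (((List.range (τ.count i)).map
            (fun u => a i (Function.update x j (x j + 1) i + u)) : List E) : Multiset E)
          + (if i = j then ({a j (x j)} : Multiset E) else 0) := by
      intro i
      by_cases hij : i = j
      · subst hij
        simp only [Function.update_self, if_true, List.count_cons_self]
        rw [List.range_succ_eq_map, List.map_cons, List.map_map]
        have e : (fun u => a i (x i + u)) ∘ Nat.succ = fun u => a i (x i + 1 + u) := by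
          ext u
          simp only [Function.comp]
          congr 1
          omega
        rw [e, ← Multiset.cons_coe]
        exact cons_eq_add_singleton _ _
      · have hji : ¬ j = i := fun h => hij h.symm
        rw [Function.update_of_ne hij, if_neg hij, add_zero, List.count_cons_of_ne hji]
    simp only [h1]
    rw [Finset.sum_add_distrib, Finset.sum_ite_eq', if_pos hj]
    exact cons_eq_add_singleton _ _

theorem realize_append (a : κ → ℕ → E) (l₁ l₂ : List κ) (x : κ → ℕ) :
    realize a x (l₁ ++ l₂) = realize a x l₁ ++ realize a (fun i => x i + l₁.count i) l₂ := by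
  induction l₁ generalizing x with
  | nil => simp [realize]
  | cons j l₁ ih =>
    have hf : (fun i => Function.update x j (x j + 1) i + l₁.count i)
        = (fun i => x i + (j :: l₁).count i) := by
      funext i
      by_cases hij : i = j
      · subst hij
        simp only [Function.update_self, List.count_cons_self]
        omega
      · have hji : ¬ j = i := fun h => hij h.symm
        rw [Function.update_of_ne hij, List.count_cons_of_ne hji]
    simp only [List.cons_append, realize, ih, hf]

/-- Chunk-wise version. -/
def realizeChunks (a : κ → ℕ → E) : (κ → ℕ) → List (List κ) → List (List E)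
  | _, [] => []
  | x, ch :: chs => realize a x ch :: realizeChunks a (fun i => x i + ch.count i) chs

theorem flatten_realizeChunks (a : κ → ℕ → E) (chs : List (List κ)) (x : κ → ℕ) :
    (realizeChunks a x chs).flatten = realize a x chs.flatten := by
  induction chs generalizing x with
  | nil => rfl
  | cons ch chs ih =>
    simp only [realizeChunks, List.flatten_cons, ih, realize_append]

theorem length_realizeChunks (a : κ → ℕ → E) (chs : List (List κ)) (x : κ → ℕ) :
    (realizeChunks a x chs).length = chs.length := by
  induction chs generalizing x with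
  | nil => rfl
  | cons ch chs ih => simp [realizeChunks, ih]

end Alg

section Hilbert

variable {E : Type*} [NormedAddCommGroup E] [InnerProductSpace ℝ E]

/-- The actual chunk follows its type chunk, up to a small error per type present. -/
theorem realize_error (a : κ → ℕ → E) (μ : κ → E) (m : κ → ℕ) (δ : ℝ) (D : Finset κ)
    (he : ∀ i ∈ D, ∀ y ≤ m i, ‖Pre a i y - (y : ℝ) • μ i‖ ≤ δ)
    (ch : List κ) (hch : ∀ i ∈ ch, i ∈ D) (x : κ → ℕ) (hx : ∀ i, x i + ch.count i ≤ m i) (t : ℕ) :
    ‖((realize a x ch).take t).sum - ((ch.take t).map μ).sum‖ ≤ D.card * (2 * δ) := by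
  have hsub : ∀ i ∈ ch.take t, i ∈ D := fun i hi => hch i (List.mem_of_mem_take hi)
  rw [realize_take_sum a D ch hch x t, sum_map_count μ D (ch.take t) hsub, ← Finset.sum_sub_distrib]
  refine le_trans (norm_sum_le _ _) ?_
  have hbd : ∀ i ∈ D, ‖Pre a i (x i + (ch.take t).count i) - Pre a i (x i)
      - (ch.take t).count i • μ i‖ ≤ 2 * δ := by
    intro i hi
    have h1 : (ch.take t).count i ≤ ch.count i := (List.take_sublist _ _).count_le _
    have h2 := he i hi (x i + (ch.take t).count i) (by have := hx i; omega)
    have h3 := he i hi (x i) (by have := hx i; omega)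
    have e : Pre a i (x i + (ch.take t).count i) - Pre a i (x i) - (ch.take t).count i • μ i
        = (Pre a i (x i + (ch.take t).count i) - ((x i + (ch.take t).count i : ℕ) : ℝ) • μ i)
          - (Pre a i (x i) - (x i : ℝ) • μ i) := by
      rw [← Nat.cast_smul_eq_nsmul ℝ]
      push_cast
      module
    rw [e]
    refine le_trans (norm_sub_le _ _) ?_
    linarith
  calc ∑ i ∈ D, ‖Pre a i (x i + (ch.take t).count i) - Pre a i (x i) - (ch.take t).count i • μ i‖
      ≤ ∑ i ∈ D, (2 * δ) := Finset.sum_le_sum hbd
    _ = D.card * (2 * δ) := by simp

/-- All chunks at once. -/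
theorem realizeChunks_spec (a : κ → ℕ → E) (μ : κ → E) (m : κ → ℕ) (δ : ℝ) (hδ : 0 ≤ δ) (Cs : Finset κ)
    (he : ∀ i ∈ Cs, ∀ y ≤ m i, ‖Pre a i y - (y : ℝ) • μ i‖ ≤ δ) (d0 : ℕ)
    (chs : List (List κ))
    (hD : ∀ ch ∈ chs, ∃ D : Finset κ, D ⊆ Cs ∧ D.card ≤ d0 ∧ ∀ i ∈ ch, i ∈ D)
    (x : κ → ℕ) (hx : ∀ i, x i + chs.flatten.count i ≤ m i) :
    ∀ seg ∈ realizeChunks a x chs, ∃ ch ∈ chs, ∀ t,
      ‖(seg.take t).sum - ((ch.take t).map μ).sum‖ ≤ d0 * (2 * δ) := by
  induction chs generalizing x with
  | nil => simp [realizeChunks]
  | cons ch chs ih =>
    intro seg hseg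
    simp only [realizeChunks, List.mem_cons] at hseg
    have hx1 : ∀ i, x i + ch.count i ≤ m i := by
      intro i
      have := hx i
      simp only [List.flatten_cons, List.count_append] at this
      omega
    have hx2 : ∀ i, (x i + ch.count i) + chs.flatten.count i ≤ m i := by
      intro i
      have := hx i
      simp only [List.flatten_cons, List.count_append] at this
      omega
    rcases hseg with rfl | hseg
    · refine ⟨ch, List.mem_cons_self, fun t => ?_⟩
      obtain ⟨D, hD1, hD2, hD3⟩ := hD ch List.mem_cons_self
      have h1 := realize_error a μ m δ D (fun i hi => he i (hD1 hi)) ch hD3 x hx1 t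
      refine le_trans h1 ?_
      apply mul_le_mul_of_nonneg_right _ (by positivity)
      exact_mod_cast hD2
    · obtain ⟨ch', hch', h⟩ := ih (fun c hc => hD c (List.mem_cons_of_mem _ hc)) _ hx2 seg hseg
      exact ⟨ch', List.mem_cons_of_mem _ hch', h⟩

/-- Flattening a well arranged list of chunks. -/
theorem flatten_bound (L : List (List E)) (Y T : ℝ) (hY : ∀ seg ∈ L, ∀ t, ‖(seg.take t).sum‖ ≤ Y)
    (hT : 0 ≤ Y) (u : E) (h : ∀ k, ‖u + ((L.take k).map List.sum).sum‖ ≤ T) (m : ℕ) :
    ‖u + (L.flatten.take m).sum‖ ≤ T + Y := by
  induction L generalizing u m with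
  | nil =>
    have := h 0
    simp only [List.take_zero, List.map_nil, List.sum_nil, add_zero] at this
    simp only [List.flatten_nil, List.take_nil, List.sum_nil, add_zero]
    linarith
  | cons seg L ih =>
    simp only [List.flatten_cons]
    by_cases hm : m ≤ seg.length
    · rw [List.take_append_of_le_length hm]
      have h0 := h 0
      simp only [List.take_zero, List.map_nil, List.sum_nil, add_zero] at h0
      refine le_trans (norm_add_le _ _) ?_
      have := hY seg List.mem_cons_self m
      linarith
    · push Not at hm
      rw [List.take_append, List.take_of_length_le hm.le, List.sum_append, ← add_assoc]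
      apply ih (fun s hs => hY s (List.mem_cons_of_mem _ hs))
      intro k
      have := h (k + 1)
      simp only [List.take_succ_cons, List.map_cons, List.sum_cons] at this
      rw [add_assoc]
      exact this

end Hilbert

end Vale.Agent.Lib.P262
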