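import Vale.Agent.Lib.P262.TypeChunks

namespace Vale.Agent.Lib.P262

open Module

set_option linter.unusedSectionVars false
set_option linter.unusedVariables false

/-- The number of chunks met in the reduction. -/
noncomputable def NTop (C : ℝ) (d : ℕ) (X : ℝ) : ℕ :=
  (2 * ⌈1 * Real.sqrt d / (1 / (8 * ((d : ℝ) + 1) * (X + 1)))⌉₊ + 3) ^ d *
    (2 * (2 * ⌈((d : ℝ) + 1 + 2 * Fq C (d + 1)) * Real.sqrt d / (1 / 2)⌉₊ + 3) ^ d + (d + 1))

/-- The bound obtained from the reduction. -/
noncomputable def PhiB (C : ℝ) (d : ℕ) (X : ℝ) : ℝ :=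
  2 * (C * (Real.sqrt d + Real.sqrt (Real.log ((NTop C d X : ℝ) + 2))))
    + ((1 + 8 * Fq C (d + 1)) + 1 / 4)

theorem sum_map_smul' {α E : Type*} [AddCommGroup E] [Module ℝ E] (g : α → E) (a : ℝ) (u : List α) :
    (u.map (fun x => a • g x)).sum = a • (u.map g).sum := by
  induction u with
  | nil => simp
  | cons x u ih =>
    simp only [List.map_cons, List.sum_cons, ih, smul_add]

/-- One step of the self-reduction. -/
theorem reduction_step {C : ℝ} (hC : BanaszczykOrdering C) {d : ℕ} (hd : 1 ≤ d) {n : ℕ} {X : ℝ}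
    (hX0 : 0 ≤ X) (hOrd : OrdBound (EuclideanSpace ℝ (Fin d)) n X) :
    OrdBound (EuclideanSpace ℝ (Fin d)) n (PhiB C d X) := by
  classical
  intro l hlen hl1 hl0
  have hC0 := hC.nonneg
  have hdr : (0 : ℝ) ≤ d := by positivity
  set η : ℝ := 1 / (8 * ((d : ℝ) + 1) * (X + 1)) with hη
  have hηpos : 0 < η := by positivity
  obtain ⟨cell, Cs, hcard, hcover, hdiam⟩ := grid d hd 1 η (by norm_num) hηpos
  obtain ⟨μ, m, a, hμ, hsum, hPre, hms⟩ :=
    cluster_data hOrd l hlen hl1 hl0 η hηpos cell Cs hcover hdiam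
  obtain ⟨chs, hchs1, hchs2, hchs3, hchs4⟩ := type_chunks hC hd Cs μ hμ m hsum
  set segs := realizeChunks a (fun _ => 0) chs with hsegs
  have hflat : segs.flatten = realize a (fun _ => 0) chs.flatten := flatten_realizeChunks a chs _
  have hmem : ∀ i ∈ chs.flatten, i ∈ Cs := by
    intro i hi
    by_contra hn
    exact (List.count_pos_iff.mpr hi).ne' (hchs3 i hn)
  have hmulti : ((segs.flatten : List (EuclideanSpace ℝ (Fin d))) : Multiset (EuclideanSpace ℝ (Fin d)))
      = (l : Multiset (EuclideanSpace ℝ (Fin d))) := by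
    rw [hflat, realize_multiset a Cs chs.flatten hmem, ← hms]
    apply Finset.sum_congr rfl
    intro i hi
    rw [hchs2 i hi]
    simp only [zero_add]
  have hperm : segs.flatten.Perm l := Multiset.coe_eq_coe.mp hmulti
  have hx : ∀ i, (fun _ => 0) i + chs.flatten.count i ≤ m i := by
    intro i
    by_cases hi : i ∈ Cs
    · simp [hchs2 i hi]
    · simp [hchs3 i hi]
  have hspec := realizeChunks_spec a μ m (η * X) (by positivity) Cs (fun i _ => hPre i) (d + 1) chs
    (fun ch hch => (hchs4 ch hch).1) (fun _ => 0) hx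
  have hErr : ((d + 1 : ℕ) : ℝ) * (2 * (η * X)) ≤ 1 / 4 := by
    have h1 : ((d + 1 : ℕ) : ℝ) * (2 * (η * X)) = X / (4 * (X + 1)) := by
      rw [hη]
      push_cast
      field_simp
      ring
    rw [h1, div_le_iff₀ (by positivity)]
    linarith
  set F := Fq C (d + 1) with hF
  have hF0 : 0 ≤ F := Fq_nonneg _ _
  set Y : ℝ := (1 + 8 * F) + 1 / 4 with hY
  have hY0 : 0 ≤ Y := by positivity
  have hsegY : ∀ seg ∈ segs, ∀ t, ‖(seg.take t).sum‖ ≤ Y := by
    intro seg hseg t
    obtain ⟨ch, hch, h⟩ := hspec seg hseg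
    have h1 := h t
    have h2 := (hchs4 ch hch).2.2 t
    have e : (seg.take t).sum = ((seg.take t).sum - ((ch.take t).map μ).sum) + ((ch.take t).map μ).sum := by
      abel
    rw [e]
    refine le_trans (norm_add_le _ _) ?_
    rw [hY]
    linarith
  have hseg2 : ∀ seg ∈ segs, ‖seg.sum‖ ≤ 2 := by
    intro seg hseg
    obtain ⟨ch, hch, h⟩ := hspec seg hseg
    have h1 := h (seg.length + ch.length)
    rw [List.take_of_length_le (by omega), List.take_of_length_le (by omega)] at h1
    have h2 := (hchs4 ch hch).2.1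
    have e : seg.sum = (seg.sum - (ch.map μ).sum) + (ch.map μ).sum := by abel
    rw [e]
    refine le_trans (norm_add_le _ _) ?_
    linarith
  have hW : finrank ℝ (⊤ : Submodule ℝ (EuclideanSpace ℝ (Fin d))) = d := by
    rw [finrank_top, finrank_euclideanSpace_fin]
  have hs0 : (segs.map (fun seg => ((1 : ℝ) / 2) • seg.sum)).sum = 0 := by
    rw [sum_map_smul' List.sum (1 / 2) segs, ← List.sum_flatten, hperm.sum_eq, hl0, smul_zero]
  obtain ⟨segs', hperm', hb⟩ := hyp_list hC (⊤ : Submodule ℝ (EuclideanSpace ℝ (Fin d))) segs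
    (fun seg => ((1 : ℝ) / 2) • seg.sum) (fun _ _ => Submodule.mem_top)
    (by
      intro seg hseg
      rw [norm_smul, Real.norm_of_nonneg (by norm_num)]
      have := hseg2 seg hseg
      linarith) hs0
  rw [hW] at hb
  have hlenseg : (segs.length : ℝ) ≤ NTop C d X := by
    have h1 : segs.length = chs.length := length_realizeChunks a chs _
    have h2 : chs.length ≤ NTop C d X := by
      refine le_trans hchs1 (Nat.mul_le_mul_right _ ?_)
      exact hcard
    rw [h1]
    exact_mod_cast h2
  set T : ℝ := C * (Real.sqrt d + Real.sqrt (Real.log ((NTop C d X : ℝ) + 2))) with hT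
  have hbT : ∀ k, ‖((segs'.take k).map (fun seg => ((1 : ℝ) / 2) • seg.sum)).sum‖ ≤ T := by
    intro k
    refine le_trans (hb k) ?_
    rw [hT]
    apply mul_le_mul_of_nonneg_left _ hC0
    have h1 : Real.log ((segs.length : ℝ) + 2) ≤ Real.log ((NTop C d X : ℝ) + 2) :=
      Real.log_le_log (by positivity) (by linarith)
    have h2 := Real.sqrt_le_sqrt h1
    linarith
  refine ⟨segs'.flatten, (List.Perm.flatten hperm').trans hperm, fun t => ?_⟩
  have hfin := flatten_bound segs' Y (2 * T) (fun seg hseg t' => hsegY seg (hperm'.mem_iff.mp hseg) t')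
    hY0 0 (by
      intro k
      rw [zero_add]
      have h1 := hbT k
      rw [sum_map_smul' List.sum (1 / 2) (segs'.take k), norm_smul,
        Real.norm_of_nonneg (by norm_num)] at h1
      linarith) t
  rw [zero_add] at hfin
  exact hfin

end Vale.Agent.Lib.P262
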