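import Vale.Agent.Lib.P262.Basic

namespace Vale.Agent.Lib.P262

variable {E : Type*} [NormedAddCommGroup E] [InnerProductSpace ℝ E]

/-- One rounding step: between the two rounded values one keeps the potential
`⟪Q, u⟫ + ‖u‖²` from growing by more than `1/4`. -/
theorem round_step (Q w c : E) (hc : ‖c‖ ≤ 1) (f : ℝ) (hf0 : 0 ≤ f) (hf1 : f ≤ 1) :
    (inner ℝ Q (w - f • c) + ‖w - f • c‖ ^ 2 ≤ inner ℝ Q w + ‖w‖ ^ 2 + 1 / 4) ∨
    (0 < f ∧ inner ℝ Q (w + (1 - f) • c) + ‖w + (1 - f) • c‖ ^ 2 ≤ inner ℝ Q w + ‖w‖ ^ 2 + 1 / 4) := by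
  have hD : ‖c‖ ^ 2 ≤ 1 := by
    have := norm_nonneg c
    nlinarith
  have h0 : inner ℝ Q (w - f • c) + ‖w - f • c‖ ^ 2
      = inner ℝ Q w + ‖w‖ ^ 2 - f * (inner ℝ Q c + 2 * inner ℝ w c) + f ^ 2 * ‖c‖ ^ 2 := by
    rw [norm_sub_sq_real, inner_sub_right, inner_smul_right, inner_smul_right, norm_smul,
      Real.norm_of_nonneg hf0]
    ring
  have h1 : inner ℝ Q (w + (1 - f) • c) + ‖w + (1 - f) • c‖ ^ 2
      = inner ℝ Q w + ‖w‖ ^ 2 + (1 - f) * (inner ℝ Q c + 2 * inner ℝ w c) + (1 - f) ^ 2 * ‖c‖ ^ 2 := by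
    rw [norm_add_sq_real, inner_add_right, inner_smul_right, inner_smul_right, norm_smul,
      Real.norm_of_nonneg (by linarith : 0 ≤ 1 - f)]
    ring
  rw [h0, h1]
  set A := inner ℝ Q c + 2 * inner ℝ w c with hA
  set P := inner ℝ Q w + ‖w‖ ^ 2 with hP
  set D := ‖c‖ ^ 2 with hDD
  have hD0 : 0 ≤ D := by positivity
  by_cases hle : 0 ≤ A
  · -- moving down is fine when `f * A` is nonnegative, as long as `f² D ≤ 1/4`; otherwise compare
    by_cases h : P - f * A + f ^ 2 * D ≤ P + 1 / 4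
    · exact Or.inl h
    · right
      push Not at h
      have hfpos : 0 < f := by
        rcases hf0.lt_or_eq with h' | h'
        · exact h'
        · exfalso
          rw [← h'] at h
          simp at h
          linarith
      refine ⟨hfpos, ?_⟩
      by_contra h2
      push Not at h2
      have hw : (1 - f) * (P - f * A + f ^ 2 * D) + f * (P + (1 - f) * A + (1 - f) ^ 2 * D)
          = P + f * (1 - f) * D := by ring
      have h3 : f * (1 - f) * D ≤ 1 / 4 := by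
        have : f * (1 - f) ≤ 1 / 4 := by nlinarith [sq_nonneg (f - 1 / 2)]
        have h5 : 0 ≤ f * (1 - f) := mul_nonneg hf0 (by linarith)
        nlinarith
      have h4 : (1 - f) * (P - f * A + f ^ 2 * D) + f * (P + (1 - f) * A + (1 - f) ^ 2 * D)
          > (1 - f) * (P + 1 / 4) + f * (P + 1 / 4) := by
        have h6 : (0:ℝ) ≤ 1 - f := by linarith
        have h7 := mul_lt_mul_of_pos_left h2 hfpos
        have h8 := mul_le_mul_of_nonneg_left h.le h6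
        linarith
      rw [hw] at h4
      nlinarith
  · push Not at hle
    by_cases hfz : f = 0
    · left
      rw [hfz]
      simp only [zero_mul, sub_zero]
      norm_num
    · have hfpos : 0 < f := lt_of_le_of_ne hf0 (Ne.symm hfz)
      by_cases h : P - f * A + f ^ 2 * D ≤ P + 1 / 4
      · exact Or.inl h
      · right
        push Not at h
        refine ⟨hfpos, ?_⟩
        by_contra h2
        push Not at h2
        have hw : (1 - f) * (P - f * A + f ^ 2 * D) + f * (P + (1 - f) * A + (1 - f) ^ 2 * D)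
            = P + f * (1 - f) * D := by ring
        have h3 : f * (1 - f) * D ≤ 1 / 4 := by
          have : f * (1 - f) ≤ 1 / 4 := by nlinarith [sq_nonneg (f - 1 / 2)]
          have h5 : 0 ≤ f * (1 - f) := mul_nonneg hf0 (by linarith)
          nlinarith
        have h4 : (1 - f) * (P - f * A + f ^ 2 * D) + f * (P + (1 - f) * A + (1 - f) ^ 2 * D)
            > (1 - f) * (P + 1 / 4) + f * (P + 1 / 4) := by
          have h6 : (0:ℝ) ≤ 1 - f := by linarith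
          have h7 := mul_lt_mul_of_pos_left h2 hfpos
          have h8 := mul_le_mul_of_nonneg_left h.le h6
          linarith
        rw [hw] at h4
        nlinarith

/-- Rounding lemma: nonnegative real counts can be rounded to integers so that the
rounding error `u` satisfies `⟪Q, u⟫ + ‖u‖² ≤ |I| / 4`. -/
theorem rounding {ι : Type*} [DecidableEq ι] (I : Finset ι) (x : ι → ℝ) (hx : ∀ i ∈ I, 0 ≤ x i)
    (c : ι → E) (hc : ∀ i ∈ I, ‖c i‖ ≤ 1) (Q : E) :
    ∃ z : ι → ℕ, (∀ i ∈ I, ⌊x i⌋₊ ≤ z i ∧ z i ≤ ⌈x i⌉₊) ∧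
      inner ℝ Q (∑ i ∈ I, ((z i : ℝ) - x i) • c i) + ‖∑ i ∈ I, ((z i : ℝ) - x i) • c i‖ ^ 2
        ≤ (I.card : ℝ) / 4 := by
  induction I using Finset.induction_on with
  | empty =>
    exact ⟨fun _ => 0, by simp, by simp⟩
  | insert a s ha ih =>
    obtain ⟨z, hz, hb⟩ := ih (fun i hi => hx i (Finset.mem_insert_of_mem hi))
      (fun i hi => hc i (Finset.mem_insert_of_mem hi))
    have hxa := hx a (Finset.mem_insert_self _ _)
    have hca := hc a (Finset.mem_insert_self _ _)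
    set f := x a - ⌊x a⌋₊ with hf
    have hf0 : 0 ≤ f := by
      have := Nat.floor_le hxa
      linarith
    have hf1 : f ≤ 1 := by
      have := Nat.lt_floor_add_one (x a)
      linarith
    set w := ∑ i ∈ s, ((z i : ℝ) - x i) • c i with hw
    have hcard : ((insert a s).card : ℝ) / 4 = (s.card : ℝ) / 4 + 1 / 4 := by
      rw [Finset.card_insert_of_notMem ha]
      push_cast
      ring
    have hsum : ∀ t : ℕ, ∑ i ∈ insert a s, (((Function.update z a t) i : ℝ) - x i) • c i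
        = ((t : ℝ) - x a) • c a + w := by
      intro t
      rw [Finset.sum_insert ha]
      simp only [Function.update_self]
      congr 1
      apply Finset.sum_congr rfl
      intro i hi
      have : i ≠ a := fun h => ha (h ▸ hi)
      simp [Function.update_of_ne this]
    rcases round_step Q w (c a) hca f hf0 hf1 with h | ⟨hfpos, h⟩
    · refine ⟨Function.update z a ⌊x a⌋₊, ?_, ?_⟩
      · intro i hi
        by_cases hia : i = a
        · subst hia
          simp only [Function.update_self]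
          exact ⟨le_rfl, Nat.floor_le_ceil _⟩
        · simp only [Function.update_of_ne hia]
          exact hz i ((Finset.mem_insert.mp hi).resolve_left hia)
      · rw [hsum, hcard]
        have e : (((⌊x a⌋₊ : ℕ) : ℝ) - x a) • c a + w = w - f • c a := by
          rw [hf]; module
        rw [e]
        linarith
    · refine ⟨Function.update z a (⌊x a⌋₊ + 1), ?_, ?_⟩
      · intro i hi
        by_cases hia : i = a
        · subst hia
          simp only [Function.update_self]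
          refine ⟨by omega, ?_⟩
          -- since `f > 0`, the ceiling is the floor plus one
          have h1 : (⌊x i⌋₊ : ℝ) < x i := by linarith
          have h2 : ⌊x i⌋₊ < ⌈x i⌉₊ := by
            have : (⌊x i⌋₊ : ℝ) < ⌈x i⌉₊ := lt_of_lt_of_le h1 (Nat.le_ceil _)
            exact_mod_cast this
          omega
        · simp only [Function.update_of_ne hia]
          exact hz i ((Finset.mem_insert.mp hi).resolve_left hia)
      · rw [hsum, hcard]
        have e : (((⌊x a⌋₊ + 1 : ℕ) : ℝ) - x a) • c a + w = w + (1 - f) • c a := by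
          rw [hf]; push_cast; module
        rw [e]
        linarith

/-- The Hilbert space inequality governing one group inside one block. -/
theorem block_ineq {Q Q₀ Q₁ E₀ E₁ J : E} {θ q δ T : ℝ} (hθ0 : 0 ≤ θ) (hθ1 : θ ≤ 1)
    (hQ0 : ‖Q - Q₀‖ ≤ 1) (hQ1 : ‖Q - Q₁‖ ≤ 2)
    (h0 : inner ℝ Q₀ E₀ + ‖E₀‖ ^ 2 ≤ q / 4) (h1 : inner ℝ Q₁ E₁ + ‖E₁‖ ^ 2 ≤ q / 4)
    (hI : inner ℝ Q₀ J ≤ δ) (hJ : ‖J‖ ≤ T) :
    ‖Q + (((1 - θ) • E₀ + θ • E₁) + J)‖ ^ 2 ≤ ‖Q‖ ^ 2 + q / 2 + 9 + 4 * T ^ 2 + 2 * δ := by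
  set e₀ := ‖E₀‖ with he₀
  set e₁ := ‖E₁‖ with he₁
  set t := ‖J‖ with ht
  have he₀n : 0 ≤ e₀ := norm_nonneg _
  have he₁n : 0 ≤ e₁ := norm_nonneg _
  have htn : 0 ≤ t := norm_nonneg _
  have hT0 : 0 ≤ T := le_trans htn hJ
  have hθ' : 0 ≤ 1 - θ := by linarith
  have hi0 : inner ℝ Q E₀ ≤ q / 4 - e₀ ^ 2 + e₀ := by
    have h2 : inner ℝ (Q - Q₀) E₀ ≤ ‖Q - Q₀‖ * e₀ := real_inner_le_norm _ _
    have h3 : ‖Q - Q₀‖ * e₀ ≤ 1 * e₀ := mul_le_mul_of_nonneg_right hQ0 he₀n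
    have h4 : inner ℝ Q E₀ = inner ℝ Q₀ E₀ + inner ℝ (Q - Q₀) E₀ := by
      rw [← inner_add_left, add_sub_cancel]
    rw [h4]
    linarith
  have hi1 : inner ℝ Q E₁ ≤ q / 4 - e₁ ^ 2 + 2 * e₁ := by
    have h2 : inner ℝ (Q - Q₁) E₁ ≤ ‖Q - Q₁‖ * e₁ := real_inner_le_norm _ _
    have h3 : ‖Q - Q₁‖ * e₁ ≤ 2 * e₁ := mul_le_mul_of_nonneg_right hQ1 he₁n
    have h4 : inner ℝ Q E₁ = inner ℝ Q₁ E₁ + inner ℝ (Q - Q₁) E₁ := by
      rw [← inner_add_left, add_sub_cancel]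
    rw [h4]
    linarith
  have hiJ : inner ℝ Q J ≤ δ + t := by
    have h2 : inner ℝ (Q - Q₀) J ≤ ‖Q - Q₀‖ * t := real_inner_le_norm _ _
    have h3 : ‖Q - Q₀‖ * t ≤ 1 * t := mul_le_mul_of_nonneg_right hQ0 htn
    have h4 : inner ℝ Q J = inner ℝ Q₀ J + inner ℝ (Q - Q₀) J := by
      rw [← inner_add_left, add_sub_cancel]
    rw [h4]
    linarith
  set M := (1 - θ) • E₀ + θ • E₁ with hM
  have hMn : ‖M‖ ≤ (1 - θ) * e₀ + θ * e₁ := by
    have := norm_add_le ((1 - θ) • E₀) (θ • E₁)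
    rw [norm_smul, norm_smul, Real.norm_of_nonneg hθ', Real.norm_of_nonneg hθ0] at this
    exact this
  have hMsq : ‖M‖ ^ 2 ≤ (1 - θ) * e₀ ^ 2 + θ * e₁ ^ 2 := by
    have h2 : ((1 - θ) * e₀ + θ * e₁) ^ 2 ≤ (1 - θ) * e₀ ^ 2 + θ * e₁ ^ 2 := by
      have h8 : 0 ≤ (1 - θ) * θ * (e₀ - e₁) ^ 2 := mul_nonneg (mul_nonneg hθ' hθ0) (sq_nonneg _)
      have h9 : (1 - θ) * e₀ ^ 2 + θ * e₁ ^ 2 - ((1 - θ) * e₀ + θ * e₁) ^ 2
          = (1 - θ) * θ * (e₀ - e₁) ^ 2 := by ring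
      linarith
    have h3 : ‖M‖ ^ 2 ≤ ((1 - θ) * e₀ + θ * e₁) ^ 2 :=
      pow_le_pow_left₀ (norm_nonneg _) hMn 2
    linarith
  have hiM : inner ℝ Q M = (1 - θ) * inner ℝ Q E₀ + θ * inner ℝ Q E₁ := by
    rw [hM, inner_add_right, inner_smul_right, inner_smul_right]
  have hsq : ‖M + J‖ ^ 2 ≤ 3 / 2 * ‖M‖ ^ 2 + 3 * t ^ 2 := by
    have h2 := norm_add_le M J
    have h3 : ‖M + J‖ ^ 2 ≤ (‖M‖ + t) ^ 2 := pow_le_pow_left₀ (norm_nonneg _) h2 2
    have h4 := sq_nonneg (‖M‖ - 2 * t)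
    have h5 : (‖M‖ + t) ^ 2 = ‖M‖ ^ 2 + 2 * ‖M‖ * t + t ^ 2 := by ring
    have h6 : (‖M‖ - 2 * t) ^ 2 = ‖M‖ ^ 2 - 4 * ‖M‖ * t + 4 * t ^ 2 := by ring
    rw [h6] at h4
    linarith
  have hexp : ‖Q + (M + J)‖ ^ 2 = ‖Q‖ ^ 2 + 2 * inner ℝ Q M + 2 * inner ℝ Q J + ‖M + J‖ ^ 2 := by
    rw [norm_add_sq_real, inner_add_right]
    ring
  rw [hexp, hiM]
  have hi0' := mul_le_mul_of_nonneg_left hi0 hθ'
  have hi1' := mul_le_mul_of_nonneg_left hi1 hθ0
  have h5 : (1 - θ) * (- (1 / 2) * e₀ ^ 2 + 2 * e₀) ≤ (1 - θ) * 2 :=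
    mul_le_mul_of_nonneg_left (by nlinarith [sq_nonneg (e₀ - 2)]) hθ'
  have h6 : θ * (- (1 / 2) * e₁ ^ 2 + 4 * e₁) ≤ θ * 8 :=
    mul_le_mul_of_nonneg_left (by nlinarith [sq_nonneg (e₁ - 4)]) hθ0
  have htT : t ^ 2 ≤ T ^ 2 := pow_le_pow_left₀ htn hJ 2
  have h7 : 2 * t ≤ t ^ 2 + 1 := by nlinarith [sq_nonneg (t - 1)]
  linarith

end Vale.Agent.Lib.P262
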