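import Vale.Agent.Lib.P262.Round

namespace Vale.Agent.Lib.P262

variable {α : Type*}

/-- Events sit at the odd multiples of `V`. -/
def slotLab (V : ℕ) (Y : ℕ → Option α) (m : ℕ) : Option α :=
  if m % (2 * V) = V then Y (m / (2 * V)) else none

theorem slotLab_time {V : ℕ} {Y : ℕ → Option α} {m : ℕ} {a : α} (h : slotLab V Y m = some a) :
    m % (2 * V) = V ∧ Y (m / (2 * V)) = some a := by
  unfold slotLab at h
  split_ifs at h with h1
  exact ⟨h1, h⟩

theorem sum_slotLab {A : Type*} [AddCommMonoid A] (g : Option α → A) (hg : g none = 0)
    (V : ℕ) (hV : 0 < V) (Y : ℕ → Option α) (m : ℕ) :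
    ∑ l ∈ Finset.range m, g (slotLab V Y l)
      = ∑ x ∈ Finset.range ((m + V - 1) / (2 * V)), g (Y x) := by
  induction m with
  | zero =>
    have : (0 + V - 1) / (2 * V) = 0 := Nat.div_eq_of_lt (by omega)
    rw [this]
    simp
  | succ m ih =>
    rw [Finset.sum_range_succ, ih]
    have hD : 0 < 2 * V := by omega
    set D := 2 * V with hDdef
    have hm := Nat.div_add_mod m D
    have hr := Nat.mod_lt m hD
    set q := m / D with hq
    set r := m % D with hr'
    set a := D * q with ha
    have hq1 : (q + 1) * D = a + D := by rw [ha]; ring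
    have hq2 : (q + 1 + 1) * D = a + D + D := by rw [ha]; ring
    have hq0 : q * D = a := by rw [ha]; ring
    have e : m + 1 + V - 1 = m + V := by omega
    rw [e]
    unfold slotLab
    by_cases h : r = V
    · rw [if_pos h]
      have h1 : (m + V - 1) / D = q := Nat.div_eq_of_lt_le (by omega) (by omega)
      have h2 : (m + V) / D = q + 1 := Nat.div_eq_of_lt_le (by omega) (by omega)
      rw [h1, h2, Finset.sum_range_succ]
    · rw [if_neg h, hg, add_zero]
      congr 2
      by_cases h3 : r < V
      · have h1 : (m + V - 1) / D = q := Nat.div_eq_of_lt_le (by omega) (by omega)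
        have h2 : (m + V) / D = q := Nat.div_eq_of_lt_le (by omega) (by omega)
        rw [h1, h2]
      · have h1 : (m + V - 1) / D = q + 1 := Nat.div_eq_of_lt_le (by omega) (by omega)
        have h2 : (m + V) / D = q + 1 := Nat.div_eq_of_lt_le (by omega) (by omega)
        rw [h1, h2]

/-- Reading consecutive words. -/
def blockSlot (L : ℕ) (word : ℕ → List (Option α)) (x : ℕ) : Option α :=
  (word (x / L)).getD (x % L) none

theorem sum_getD {A : Type*} [AddCommMonoid A] (g : Option α → A) (hg : g none = 0)
    (w : List (Option α)) (J : ℕ) :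
    ∑ j ∈ Finset.range J, g (w.getD j none) = ((w.take J).map g).sum := by
  induction w generalizing J with
  | nil =>
    simp [hg]
  | cons a w ih =>
    cases J with
    | zero => simp
    | succ J =>
      rw [Finset.sum_range_succ', List.take_succ_cons, List.map_cons, List.sum_cons]
      simp only [List.getD_cons_zero, List.getD_cons_succ]
      rw [ih, add_comm]

theorem sum_blockSlot {A : Type*} [AddCommMonoid A] (g : Option α → A) (hg : g none = 0)
    (L : ℕ) (hL : 0 < L) (word : ℕ → List (Option α)) (k J : ℕ) (hJ : J ≤ L)
    (hlen : ∀ k' < k, (word k').length = L) :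
    ∑ x ∈ Finset.range (k * L + J), g (blockSlot L word x)
      = ∑ k' ∈ Finset.range k, ((word k').map g).sum + (((word k).take J).map g).sum := by
  have hstep : ∀ (k' J' : ℕ), J' ≤ L → ∑ x ∈ Finset.range J', g (blockSlot L word (k' * L + x))
      = (((word k').take J').map g).sum := by
    intro k' J' hJ'
    rw [← sum_getD g hg]
    apply Finset.sum_congr rfl
    intro x hx
    have hx' : x < L := lt_of_lt_of_le (Finset.mem_range.mp hx) hJ'
    unfold blockSlot
    have h1 : (k' * L + x) / L = k' := by
      rw [mul_comm, Nat.mul_add_div hL, Nat.div_eq_of_lt hx', add_zero]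
    have h2 : (k' * L + x) % L = x := by
      rw [mul_comm, Nat.mul_add_mod, Nat.mod_eq_of_lt hx']
    rw [h1, h2]
  rw [Finset.sum_range_add, hstep k J hJ]
  congr 1
  induction k with
  | zero => simp
  | succ k ih =>
    rw [Finset.sum_range_succ, ← ih (fun k' hk' => hlen k' (by omega))]
    rw [Nat.succ_mul, Finset.sum_range_add, hstep k L le_rfl]
    rw [List.take_of_length_le (by rw [hlen k (by omega)])]

/-- A list with prescribed numbers of occurrences, padded with blanks. -/
noncomputable def blkList [DecidableEq α] (I : Finset α) (b : α → ℕ) (L : ℕ) : List (Option α) :=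
  (I.toList.flatMap fun i => List.replicate (b i) (some i)) ++
    List.replicate (L - ∑ i ∈ I, b i) none

theorem length_blkList [DecidableEq α] (I : Finset α) (b : α → ℕ) (L : ℕ)
    (h : ∑ i ∈ I, b i ≤ L) : (blkList I b L).length = L := by
  have key : ∀ t : List α, (t.flatMap fun i => List.replicate (b i) (some i)).length
      = (t.map b).sum := by
    intro t
    induction t with
    | nil => simp
    | cons a t ih => simp [List.flatMap_cons, ih]
  unfold blkList
  rw [List.length_append, key, List.length_replicate, Finset.sum_map_toList]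
  have e : I.sum b = ∑ i ∈ I, b i := rfl
  omega

theorem sum_blkList [DecidableEq α] {A : Type*} [AddCommMonoid A] (g : Option α → A)
    (hg : g none = 0) (I : Finset α) (b : α → ℕ) (L : ℕ) :
    ((blkList I b L).map g).sum = ∑ i ∈ I, b i • g (some i) := by
  have key : ∀ t : List α, ((t.flatMap fun i => List.replicate (b i) (some i)).map g).sum
      = (t.map fun i => b i • g (some i)).sum := by
    intro t
    induction t with
    | nil => simp
    | cons a t ih =>
      simp only [List.flatMap_cons, List.map_append, List.sum_append, ih, List.map_replicate,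
        List.sum_replicate, List.map_cons, List.sum_cons]
  unfold blkList
  rw [List.map_append, List.sum_append, key, List.map_replicate, List.sum_replicate, hg, smul_zero,
    add_zero, Finset.sum_map_toList]

theorem mem_blkList [DecidableEq α] {I : Finset α} {b : α → ℕ} {L : ℕ} {x : Option α}
    (h : x ∈ blkList I b L) : x = none ∨ ∃ i ∈ I, x = some i := by
  unfold blkList at h
  rcases List.mem_append.mp h with h | h
  · obtain ⟨i, hi, hx⟩ := List.mem_flatMap.mp h
    right
    exact ⟨i, Finset.mem_toList.mp hi, (List.mem_replicate.mp hx).2⟩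
  · left
    exact (List.mem_replicate.mp h).2

end Vale.Agent.Lib.P262
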