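import Vale.Agent.Lib.P262.Clusters
import Vale.Agent.Lib.P262.Rays

namespace Vale.Agent.Lib.P262

open Module

variable {κ : Type*} [DecidableEq κ]

set_option linter.unusedSectionVars false
set_option linter.unusedVariables false

/-- Requirements on a chunk of types. -/
def ChunkOK {E : Type*} [NormedAddCommGroup E] (μ : κ → E) (Cs : Finset κ) (d : ℕ) (Y : ℝ)
    (ch : List κ) : Prop :=
  (∃ D : Finset κ, D ⊆ Cs ∧ D.card ≤ d + 1 ∧ ∀ i ∈ ch, i ∈ D) ∧ ‖(ch.map μ).sum‖ ≤ 1 ∧
    ∀ t, ‖((ch.take t).map μ).sum‖ ≤ Y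

/-- Singleton chunks for the leftovers. -/
noncomputable def singles (Cs : Finset κ) (b : κ → ℕ) : List (List κ) :=
  Cs.toList.flatMap (fun i => List.replicate (b i) [i])

theorem length_singles (Cs : Finset κ) (b : κ → ℕ) : (singles Cs b).length = ∑ i ∈ Cs, b i := by
  have key : ∀ t : List κ, (t.flatMap fun i => List.replicate (b i) [i]).length = (t.map b).sum := by
    intro t
    induction t with
    | nil => simp
    | cons a t ih => simp [List.flatMap_cons, ih]
  unfold singles
  rw [key, Finset.sum_map_toList]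

theorem count_singles (Cs : Finset κ) (b : κ → ℕ) (j : κ) :
    (singles Cs b).flatten.count j = if j ∈ Cs then b j else 0 := by
  have hrep : ∀ (i : κ) (c : ℕ), (List.replicate c [i]).flatten = List.replicate c i := by
    intro i c
    induction c with
    | zero => simp
    | succ c ih => simp [List.replicate_succ, ih]
  have key : ∀ t : List κ, ((t.flatMap fun i => List.replicate (b i) [i]).flatten).count j
      = (t.map (fun i => if i = j then b i else 0)).sum := by
    intro t
    induction t with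
    | nil => simp
    | cons a t ih =>
      rw [List.flatMap_cons, List.flatten_append, List.count_append, ih, hrep, List.map_cons,
        List.sum_cons]
      congr 1
      by_cases h : a = j
      · subst h
        simp
      · simp [h, List.count_replicate]
  unfold singles
  rw [key, Finset.sum_map_toList, Finset.sum_ite_eq']

theorem mem_singles {Cs : Finset κ} {b : κ → ℕ} {ch : List κ} (h : ch ∈ singles Cs b) :
    ∃ i ∈ Cs, ch = [i] := by
  unfold singles at h
  obtain ⟨i, hi, hch⟩ := List.mem_flatMap.mp h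
  exact ⟨i, Finset.mem_toList.mp hi, (List.mem_replicate.mp hch).2⟩

variable {d : ℕ}

/-- Chunks for a list of rays. -/
theorem rays_chunks {C : ℝ} (hC : BanaszczykOrdering C) (hd : 1 ≤ d) (Cs : Finset κ)
    (μ : κ → EuclideanSpace ℝ (Fin d)) (hμ : ∀ i, ‖μ i‖ ≤ 1) (rays : List (κ → ℝ))
    (hrays : ∀ w ∈ rays, (∀ i, 0 ≤ w i) ∧ (∑ i ∈ Cs, w i • μ i = 0) ∧
      ∃ D : Finset κ, D ⊆ Cs ∧ D.card ≤ d + 1 ∧ ∀ i, i ∉ D → w i = 0) :
    ∃ chs : List (List κ),
      chs.length ≤ rays.length *
        (2 * (2 * ⌈((d : ℝ) + 1 + 2 * Fq C (d + 1)) * Real.sqrt d / (1 / 2)⌉₊ + 3) ^ d) ∧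
      (∀ i, chs.flatten.count i = (rays.map (fun w => ⌊w i⌋₊)).sum) ∧
      ∀ ch ∈ chs, ChunkOK μ Cs d (1 + 8 * Fq C (d + 1)) ch := by
  induction rays with
  | nil => exact ⟨[], by simp, by simp, by simp⟩
  | cons w rays ih =>
    obtain ⟨chs, h1, h2, h3⟩ := ih (fun w' hw' => hrays w' (List.mem_cons_of_mem _ hw'))
    obtain ⟨hw0, hwsum, D, hDCs, hDcard, hDout⟩ := hrays w List.mem_cons_self
    have hsum : ∑ i ∈ D, w i • μ i = 0 := by
      rw [← hwsum]
      apply Finset.sum_subset hDCs
      intro i _ hi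
      rw [hDout i hi, zero_smul]
    obtain ⟨chs', h4, h5, h6⟩ := ray_chunks hC hd D μ (fun i _ => hμ i) w hw0 hDcard hDout hsum
    refine ⟨chs' ++ chs, ?_, ?_, ?_⟩
    · rw [List.length_append, List.length_cons, add_mul, one_mul]
      omega
    · intro i
      rw [List.flatten_append, List.count_append, h5, h2, List.map_cons, List.sum_cons]
    · intro ch hch
      rcases List.mem_append.mp hch with hch | hch
      · obtain ⟨h7, h8, h9⟩ := h6 ch hch
        refine ⟨⟨D, hDCs, hDcard, h7⟩, ?_, h9⟩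
        rcases h8 with h8 | h8
        · linarith
        · have h10 := norm_sum_le_length μ ch (fun x _ => hμ x)
          have h11 : (ch.length : ℝ) ≤ 1 := by exact_mod_cast h8
          linarith
      · exact h3 ch hch

/-- The total fractional part of a list of rays is small. -/
theorem frac_sum (Cs : Finset κ) (rays : List (κ → ℝ))
    (hrays : ∀ w ∈ rays, (∀ i, 0 ≤ w i) ∧
      ∃ D : Finset κ, D ⊆ Cs ∧ D.card ≤ d + 1 ∧ ∀ i, i ∉ D → w i = 0) :
    ∑ i ∈ Cs, ((rays.map (fun w => w i)).sum - (((rays.map (fun w => ⌊w i⌋₊)).sum : ℕ) : ℝ))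
      ≤ (rays.length : ℝ) * (d + 1) := by
  induction rays with
  | nil => simp
  | cons w rays ih =>
    obtain ⟨hw0, D, hDCs, hDcard, hDout⟩ := hrays w List.mem_cons_self
    have h1 := ih (fun w' hw' => hrays w' (List.mem_cons_of_mem _ hw'))
    have h2 : ∀ i, ((w :: rays).map (fun w => w i)).sum
        - ((((w :: rays).map (fun w => ⌊w i⌋₊)).sum : ℕ) : ℝ)
        = (w i - (⌊w i⌋₊ : ℝ))
          + ((rays.map (fun w => w i)).sum - (((rays.map (fun w => ⌊w i⌋₊)).sum : ℕ) : ℝ)) := by
      intro i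
      simp only [List.map_cons, List.sum_cons]
      push_cast
      ring
    simp only [h2]
    rw [Finset.sum_add_distrib]
    have h3 : ∑ i ∈ Cs, (w i - (⌊w i⌋₊ : ℝ)) ≤ d + 1 := by
      have h4 : ∑ i ∈ Cs, (w i - (⌊w i⌋₊ : ℝ)) = ∑ i ∈ D, (w i - (⌊w i⌋₊ : ℝ)) := by
        symm
        apply Finset.sum_subset hDCs
        intro i _ hi
        rw [hDout i hi]
        simp
      rw [h4]
      have h5 : ∑ i ∈ D, (w i - (⌊w i⌋₊ : ℝ)) ≤ ∑ i ∈ D, (1 : ℝ) := by
        apply Finset.sum_le_sum
        intro i _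
        have := Nat.lt_floor_add_one (w i)
        linarith
      refine le_trans h5 ?_
      simp only [Finset.sum_const, nsmul_eq_mul, mul_one]
      exact_mod_cast hDcard
    simp only [List.length_cons]
    rw [Nat.cast_add, Nat.cast_one]
    nlinarith

/-- All type chunks of the reduction. -/
theorem type_chunks {C : ℝ} (hC : BanaszczykOrdering C) (hd : 1 ≤ d) (Cs : Finset κ)
    (μ : κ → EuclideanSpace ℝ (Fin d)) (hμ : ∀ i, ‖μ i‖ ≤ 1) (m : κ → ℕ)
    (h0 : ∑ i ∈ Cs, (m i : ℝ) • μ i = 0) :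
    ∃ chs : List (List κ),
      chs.length ≤ Cs.card *
        (2 * (2 * ⌈((d : ℝ) + 1 + 2 * Fq C (d + 1)) * Real.sqrt d / (1 / 2)⌉₊ + 3) ^ d + (d + 1)) ∧
      (∀ i ∈ Cs, chs.flatten.count i = m i) ∧ (∀ i, i ∉ Cs → chs.flatten.count i = 0) ∧
      ∀ ch ∈ chs, ChunkOK μ Cs d (1 + 8 * Fq C (d + 1)) ch := by
  have hFd : finrank ℝ (EuclideanSpace ℝ (Fin d)) = d := finrank_euclideanSpace_fin
  obtain ⟨rays, hr1, hr2, hr3⟩ := ray_decomp Cs μ _ (fun i => (m i : ℝ)) rfl
    (fun i => by positivity) h0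
  rw [hFd] at hr3
  have hr1' : rays.length ≤ Cs.card := le_trans hr1 (Finset.card_filter_le _ _)
  obtain ⟨chs, h1, h2, h3⟩ := rays_chunks hC hd Cs μ hμ rays hr3
  -- the leftover counts
  have hle : ∀ i ∈ Cs, (rays.map (fun w => ⌊w i⌋₊)).sum ≤ m i := by
    intro i hi
    have h4 : ∀ rs : List (κ → ℝ), (∀ w ∈ rs, ∀ i, 0 ≤ w i) →
        (((rs.map (fun w => ⌊w i⌋₊)).sum : ℕ) : ℝ) ≤ (rs.map (fun w => w i)).sum := by
      intro rs
      induction rs with
      | nil => simp
      | cons w rs ih =>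
        intro h
        simp only [List.map_cons, List.sum_cons]
        rw [Nat.cast_add]
        have := ih (fun w' hw' => h w' (List.mem_cons_of_mem _ hw'))
        have h5 := Nat.floor_le (h w List.mem_cons_self i)
        linarith
    have h5 := h4 rays (fun w hw => (hr3 w hw).1)
    rw [hr2 i hi] at h5
    exact_mod_cast h5
  set b : κ → ℕ := fun i => m i - (rays.map (fun w => ⌊w i⌋₊)).sum with hb
  have hbsum : ∑ i ∈ Cs, b i ≤ rays.length * (d + 1) := by
    have h4 := frac_sum Cs rays (fun w hw => ⟨(hr3 w hw).1, (hr3 w hw).2.2⟩)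
    have h5 : ∑ i ∈ Cs, ((rays.map (fun w => w i)).sum - (((rays.map (fun w => ⌊w i⌋₊)).sum : ℕ) : ℝ))
        = ∑ i ∈ Cs, (b i : ℝ) := by
      apply Finset.sum_congr rfl
      intro i hi
      rw [hr2 i hi]
      simp only [hb]
      rw [Nat.cast_sub (hle i hi)]
    rw [h5] at h4
    have h6 : ((∑ i ∈ Cs, b i : ℕ) : ℝ) ≤ ((rays.length * (d + 1) : ℕ) : ℝ) := by
      push_cast
      exact h4
    exact_mod_cast h6
  have hno : ∀ i, i ∉ Cs → (rays.map (fun w => ⌊w i⌋₊)).sum = 0 := by
    intro i hi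
    have : ∀ rs : List (κ → ℝ), (∀ w ∈ rs, ∃ D : Finset κ, D ⊆ Cs ∧ D.card ≤ d + 1 ∧ ∀ i, i ∉ D → w i = 0) →
        (rs.map (fun w => ⌊w i⌋₊)).sum = 0 := by
      intro rs
      induction rs with
      | nil => simp
      | cons w rs ih =>
        intro h
        simp only [List.map_cons, List.sum_cons]
        rw [ih (fun w' hw' => h w' (List.mem_cons_of_mem _ hw'))]
        obtain ⟨D, hD1, -, hD3⟩ := h w List.mem_cons_self
        rw [hD3 i (fun h' => hi (hD1 h'))]
        simp
    exact this rays (fun w hw => (hr3 w hw).2.2)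
  refine ⟨chs ++ singles Cs b, ?_, ?_, ?_, ?_⟩
  · rw [List.length_append, length_singles]
    have h4 : rays.length * (2 * (2 * ⌈((d : ℝ) + 1 + 2 * Fq C (d + 1)) * Real.sqrt d / (1 / 2)⌉₊ + 3) ^ d)
        + rays.length * (d + 1)
        ≤ Cs.card * (2 * (2 * ⌈((d : ℝ) + 1 + 2 * Fq C (d + 1)) * Real.sqrt d / (1 / 2)⌉₊ + 3) ^ d + (d + 1)) := by
      rw [← mul_add]
      exact Nat.mul_le_mul_right _ hr1'
    omega
  · intro i hi
    rw [List.flatten_append, List.count_append, h2, count_singles, if_pos hi]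
    have := hle i hi
    simp only [hb]
    omega
  · intro i hi
    rw [List.flatten_append, List.count_append, h2, count_singles, if_neg hi, hno i hi]
  · intro ch hch
    rcases List.mem_append.mp hch with hch | hch
    · exact h3 ch hch
    · obtain ⟨i, hi, rfl⟩ := mem_singles hch
      have hF0 := Fq_nonneg C (d + 1)
      refine ⟨⟨{i}, Finset.singleton_subset_iff.mpr hi, ?_, ?_⟩, ?_, ?_⟩
      · simp
      · simp
      · simpa using hμ i
      · intro t
        cases t with
        | zero =>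
          simp
          linarith
        | succ t =>
          simp only [List.take_succ_cons, List.take_nil, List.map_cons, List.map_nil, List.sum_cons,
            List.sum_nil, add_zero]
          have := hμ i
          linarith

end Vale.Agent.Lib.P262
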